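import Crest.Agent.R167.Defs

/-! Row 167: crossing paths in a strip of the square lattice intersect. -/

set_option autoImplicit false
set_option linter.unusedSectionVars false

open MeasureTheory Finset Real

noncomputable section
namespace Crest.Agent.R167


/-- nearest neighbour steps inside a set -/
def NN (A : Set (ℤ × ℤ)) (u v : ℤ × ℤ) : Prop :=
  u ∈ A ∧ v ∈ A ∧ (u.1 - v.1).natAbs + (u.2 - v.2).natAbs = 1

theorem planar_wind {B : Set (ℤ × ℤ)} {h h' : ℤ} (hB : ∀ z ∈ B, h ≤ z.2 ∧ z.2 ≤ h')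
    {b c : ℤ × ℤ} (pb : Relation.ReflTransGen (NN B) b c) :
    ∃ w : ℤ → ℤ → ℤ, (∀ x y, (x + 1, y) ∉ B → w x y = w (x + 1) y) ∧
      (∀ x y, (x, y + 1) ∉ B → w x y - w x (y + 1) =
        (if x < c.1 ∧ c.2 = y + 1 then 1 else 0) - if x < b.1 ∧ b.2 = y + 1 then 1 else 0) ∧
      ∀ x y, y < h ∨ h' ≤ y → w x y = 0 := by
  induction pb with
  | refl => exact ⟨fun _ _ => 0, fun _ _ _ => rfl, fun _ _ _ => by simp, fun _ _ _ => rfl⟩
  | @tail p q _ hpq ih =>
    obtain ⟨w, h1, h2, h3⟩ := ih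
    obtain ⟨hp, hq, hd⟩ := hpq
    have key : ∀ x y : ℤ, (x, y) ∉ B → ¬ (p.1 = x ∧ p.2 = y) ∧ ¬ (q.1 = x ∧ q.2 = y) :=
      fun x y hn => ⟨fun e => hn (by rw [← e.1, ← e.2]; exact hp),
        fun e => hn (by rw [← e.1, ← e.2]; exact hq)⟩
    refine ⟨fun x y => w x y + if x < p.1 then
      (if p.2 ≤ y then 1 else 0) - (if q.2 ≤ y then 1 else 0) else 0, fun x y hn => ?_,
      fun x y hn => ?_, fun x y hy => ?_⟩
    · have := key _ _ hn
      simp only [h1 x y hn]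
      split_ifs <;> omega
    · have := key _ _ hn
      have h4 := h2 x y hn
      simp only
      split_ifs at h4 ⊢ <;> omega
    · have := hB p hp
      have := hB q hq
      simp only [h3 x y hy]
      split_ifs <;> omega

theorem planar_ends {A : Set (ℤ × ℤ)} {a a' : ℤ × ℤ} (hne : a ≠ a')
    (pa : Relation.ReflTransGen (NN A) a a') : a ∈ A ∧ a' ∈ A := by
  constructor
  · rcases pa.cases_head with h | ⟨c, h, -⟩
    · exact absurd h hne
    · exact h.1
  · rcases pa.cases_tail with h | ⟨c, -, h⟩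
    · exact absurd h.symm hne
    · exact h.2.1

/-- For a list path `γ'` in `B` put `w v = ∑_k [γ'_k.1 > v.1] ([γ'_k.2 ≤ v.2] - [γ'_{k+1}.2 ≤ v.2])`;
`w v + [v.2 = h' ∧ b'.1 > v.1]` is constant along steps between points not on `γ'`, equals `1` at
`a` and `0` at `a'`. -/
theorem strip_cross {A B : Set (ℤ × ℤ)} {h h' : ℤ} (hh : h < h')
    (hA : ∀ z ∈ A, h ≤ z.2 ∧ z.2 ≤ h') (hB : ∀ z ∈ B, h ≤ z.2 ∧ z.2 ≤ h') {a a' b b' : ℤ × ℤ}
    (ha : a.2 = h) (ha' : a'.2 = h') (hb : b.2 = h) (hb' : b'.2 = h') (h1 : a.1 ≤ b.1)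
    (h2 : b'.1 ≤ a'.1) (pa : Relation.ReflTransGen (NN A) a a')
    (pb : Relation.ReflTransGen (NN B) b b') : ∃ z ∈ A, z ∈ B := by
  by_contra hcon
  have hd : ∀ z ∈ A, z ∉ B := fun z hz hz' => hcon ⟨z, hz, hz'⟩
  obtain ⟨ma, -⟩ := planar_ends (fun e => by rw [e] at ha; omega) pa
  obtain ⟨mb, mb'⟩ := planar_ends (fun e => by rw [e] at hb; omega) pb
  obtain ⟨w, h3, h4, h5⟩ := planar_wind hB pb
  have key : ∀ c, Relation.ReflTransGen (NN A) a c →
      w c.1 c.2 + (if c.2 = h' ∧ c.1 < b'.1 then 1 else 0) = 1 := by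
    intro c pc
    induction pc with
    | refl =>
      have e1 := h4 a.1 (a.2 - 1) (by simpa using hd a ma)
      have e2 := h5 a.1 (a.2 - 1) (by omega)
      have e3 : ¬ (a.1 = b.1) := fun e => hd a ma (by
        rw [show a = b from Prod.ext e (ha.trans hb.symm)]; exact mb)
      rw [sub_add_cancel] at e1
      split_ifs at e1 ⊢ <;> omega
    | @tail p q _ hpq ih =>
      obtain ⟨hp, hq, hpq⟩ := hpq
      obtain ⟨x, y⟩ := p
      obtain ⟨x', y'⟩ := q
      have n1 : ¬ (x = b'.1 ∧ y = b'.2) := fun e => hd _ hp (by rw [e.1, e.2]; exact mb')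
      have n2 : ¬ (x' = b'.1 ∧ y' = b'.2) := fun e => hd _ hq (by rw [e.1, e.2]; exact mb')
      have r1 := hA _ hp
      have r2 := hA _ hq
      simp only at hpq ih r1 r2 ⊢
      have hc : (x' = x + 1 ∧ y' = y) ∨ (x = x' + 1 ∧ y = y') ∨ (x' = x ∧ y' = y + 1) ∨
          (x = x' ∧ y = y' + 1) := by omega
      rcases hc with ⟨rfl, rfl⟩ | ⟨rfl, rfl⟩ | ⟨rfl, rfl⟩ | ⟨rfl, rfl⟩
      · have := h3 _ _ (hd _ hq)
        split_ifs at ih ⊢ <;> omega
      · have := h3 _ _ (hd _ hp)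
        split_ifs at ih ⊢ <;> omega
      · have := h4 _ _ (hd _ hq)
        split_ifs at ih this ⊢ <;> omega
      · have := h4 _ _ (hd _ hp)
        split_ifs at ih this ⊢ <;> omega
  have e1 := key a' pa
  rw [h5 _ _ (Or.inr ha'.ge), if_neg (by omega)] at e1
  omega

end Crest.Agent.R167
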