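import Crest.Agent.R167.LSS

/-! Row 167: trading dilution for level (Aizenman-Grimmett swap and pigeonhole). -/

set_option autoImplicit false
set_option linter.unusedSectionVars false

open MeasureTheory Finset Real

noncomputable section
namespace Crest.Agent.R167

variable {S : Type} [TopologicalSpace S] [CompactSpace S] [T2Space S] [SecondCountableTopology S]
  [MeasurableSpace S] [BorelSpace S] {ν : Measure S} [IsProbabilityMeasure ν] (P : Spin S ν)

section Aux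
variable {V E : Type} [Fintype V] [DecidableEq V] [Fintype E] [DecidableEq E] (G : Gr V E)

/-- changing one spin of degree at most four changes the Boltzmann factor by a bounded factor -/
theorem AG_hd_le {β : ℝ} {J : E → ℝ} (hJ : ∀ e, 0 ≤ J e ∧ J e ≤ β) {v : V} (hv : G.deg v ≤ 4)
    (hβ : 0 ≤ β) (τ : V → S) (a b : S) :
    P.hd G J (Function.update τ v a) ≤ exp (8 * β) * P.hd G J (Function.update τ v b) := by
  unfold Spin.hd
  rw [← exp_add]
  refine exp_le_exp.2 ?_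
  have h1 : ∀ e, J e * (P.s (Function.update τ v a (G.p e)) * P.s (Function.update τ v a (G.q e)) +
        P.k (Function.update τ v a (G.p e)) (Function.update τ v a (G.q e))) ≤
      2 * β * ((if G.p e = v then 1 else 0) + (if G.q e = v then 1 else 0)) +
      J e * (P.s (Function.update τ v b (G.p e)) * P.s (Function.update τ v b (G.q e)) +
        P.k (Function.update τ v b (G.p e)) (Function.update τ v b (G.q e))) := by
    intro e
    by_cases h : G.p e = v ∨ G.q e = v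
    · have e1 := (abs_le.1 (P.d1 (Function.update τ v a (G.p e))
        (Function.update τ v a (G.q e)))).2
      have e2 := (abs_le.1 (P.d1 (Function.update τ v b (G.p e))
        (Function.update τ v b (G.q e)))).1
      have e3 := mul_le_mul_of_nonneg_left e1 (hJ e).1
      have e4 := mul_le_mul_of_nonneg_left e2 (hJ e).1
      have e5 : (1 : ℝ) ≤ (if G.p e = v then 1 else 0) + (if G.q e = v then 1 else 0) := by
        rcases h with h | h
        · rw [if_pos h]; split_ifs <;> norm_num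
        · rw [if_pos h]; split_ifs <;> norm_num
      have e6 := mul_le_mul_of_nonneg_left e5 (show 0 ≤ 2 * β by linarith)
      linarith [(hJ e).2]
    · push Not at h
      simp [h.1, h.2]
  refine le_trans (sum_le_sum fun e _ => h1 e) ?_
  rw [sum_add_distrib, ← mul_sum, sum_add_distrib, sum_boole, sum_boole]
  have h2 : (((univ.filter fun e => G.p e = v).card : ℕ) : ℝ) +
      ((univ.filter fun e => G.q e = v).card : ℕ) ≤ 4 := by
    exact_mod_cast hv
  have h3 := mul_le_mul_of_nonneg_left h2 (show 0 ≤ 2 * β by linarith)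
  linarith

theorem AG_hd_pos (J : E → ℝ) (σ : V → S) : 0 < P.hd G J σ := exp_pos _

theorem AG_Ex_mono (J : E → ℝ) {Φ Ψ : (V → S) → ℝ} (hΦ : Continuous Φ) (hΨ : Continuous Ψ)
    (h : ∀ σ, Φ σ ≤ Ψ σ) : P.Ex G J Φ ≤ P.Ex G J Ψ :=
  integral_mono (cint ((P.continuous_hd G J).mul hΦ)) (cint ((P.continuous_hd G J).mul hΨ))
    fun σ => mul_le_mul_of_nonneg_left (h σ) (AG_hd_pos P G J σ).le

theorem AG_Ex_sub (J : E → ℝ) {Φ Ψ : (V → S) → ℝ} (hΦ : Continuous Φ) (hΨ : Continuous Ψ) :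
    P.Ex G J (fun σ => Φ σ - Ψ σ) = P.Ex G J Φ - P.Ex G J Ψ := by
  unfold Spin.Ex
  simp only [mul_sub]
  exact integral_sub (cint ((P.continuous_hd G J).mul hΦ)) (cint ((P.continuous_hd G J).mul hΨ))

theorem AG_cont_pw (R : Finset V) {φ φ' : S → ℝ} (hφ : Continuous φ) (hφ' : Continuous φ') :
    Continuous fun (σ : V → S) (w : V) => if w ∈ R then φ' (σ w) else φ (σ w) := by
  refine continuous_pi fun w => ?_
  split_ifs
  · exact hφ'.comp (continuous_apply w)
  · exact hφ.comp (continuous_apply w)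

/-- swapping the single-site function one vertex at a time -/
theorem AG_swap {β : ℝ} (hβ : 0 ≤ β) {J : E → ℝ} (hJ : ∀ e, 0 ≤ J e ∧ J e ≤ β) {Q : Finset V}
    (hd : ∀ v ∈ Q, G.deg v ≤ 4) {𝓕 : Finset (Finset V)} (hQ : ∀ A ∈ 𝓕, A ⊆ Q) {φ φ' : S → ℝ}
    (hφ : Continuous φ) (hφ' : Continuous φ') (b : ∀ a, 0 ≤ φ a ∧ φ a ≤ 1)
    (b' : ∀ a, 0 ≤ φ' a ∧ φ' a ≤ 1)
    (hsite : ∀ H : S → ℝ, Continuous H → (∀ a, 0 ≤ H a) → (∀ a a', H a ≤ exp (8 * β) * H a') →
      0 ≤ ∫ a, H a * (φ' a - φ a) ∂ν) :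
    P.Ex G J (fun σ => ml 𝓕 fun v => φ (σ v)) ≤ P.Ex G J fun σ => ml 𝓕 fun v => φ' (σ v) := by
  have key : ∀ R : Finset V, R ⊆ Q → P.Ex G J (fun σ => ml 𝓕 fun v => φ (σ v)) ≤
      P.Ex G J fun σ => ml 𝓕 fun w => if w ∈ R then φ' (σ w) else φ (σ w) := by
    intro R
    induction R using Finset.induction_on with
    | empty => intro _; simp
    | insert v R hv ih =>
      intro hR
      refine le_trans (ih fun w hw => hR (mem_insert_of_mem hw)) ?_
      have c1 : Continuous fun σ : V → S =>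
          ml 𝓕 fun w => if w ∈ insert v R then φ' (σ w) else φ (σ w) :=
        (continuous_ml 𝓕).comp (AG_cont_pw (insert v R) hφ hφ')
      have c2 : Continuous fun σ : V → S => ml 𝓕 fun w => if w ∈ R then φ' (σ w) else φ (σ w) :=
        (continuous_ml 𝓕).comp (AG_cont_pw R hφ hφ')
      rw [← sub_nonneg, ← AG_Ex_sub P G J c1 c2]
      unfold Spin.Ex
      have c3 : Continuous fun σ : V → S => P.hd G J σ *
          ((ml 𝓕 fun w => if w ∈ insert v R then φ' (σ w) else φ (σ w)) -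
            ml 𝓕 fun w => if w ∈ R then φ' (σ w) else φ (σ w)) :=
        (P.continuous_hd G J).mul (c1.sub c2)
      rw [int_pw {v} c3]
      refine integral_nonneg fun τ => ?_
      obtain ⟨x, hx⟩ : ∃ x : V → ℝ, x = fun w => if w ∈ R then φ' (τ w) else φ (τ w) := ⟨_, rfl⟩
      have hx01 : ∀ w, 0 ≤ x w ∧ x w ≤ 1 := by
        intro w
        rw [hx]
        dsimp only
        split_ifs
        exacts [b' _, b _]
      have e1 : ∀ a, (fun w => if w ∈ R then φ' (Function.update τ v a w)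
          else φ (Function.update τ v a w)) = Function.update x v (φ a) := by
        intro a
        funext w
        by_cases h : w = v
        · subst h; simp [hv]
        · simp [hx, Function.update_of_ne h]
      have e2 : ∀ a, (fun w => if w ∈ insert v R then φ' (Function.update τ v a w)
          else φ (Function.update τ v a w)) = Function.update x v (φ' a) := by
        intro a
        funext w
        by_cases h : w = v
        · subst h; simp
        · simp [hx, h]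
      obtain ⟨Δ, hΔ⟩ : ∃ Δ, Δ = ml 𝓕 (Function.update x v 1) - ml 𝓕 (Function.update x v 0) :=
        ⟨_, rfl⟩
      have hΔ0 : 0 ≤ Δ := by
        rw [hΔ, sub_nonneg]
        refine ml_mono 𝓕 (fun w => ?_) (fun w => ?_) (fun w => ?_)
        · by_cases h : w = v
          · subst h; simp
          · simp [Function.update_of_ne h, (hx01 w).1]
        · by_cases h : w = v
          · subst h; simp
          · simp [Function.update_of_ne h]
        · by_cases h : w = v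
          · subst h; simp
          · simp [Function.update_of_ne h, (hx01 w).2]
      have cH : Continuous fun a => P.hd G J (Function.update τ v a) * Δ :=
        ((P.continuous_hd G J).comp (continuous_const.update v continuous_id)).mul continuous_const
      have h1 := hsite (fun a => P.hd G J (Function.update τ v a) * Δ) cH
        (fun a => mul_nonneg (AG_hd_pos P G J _).le hΔ0) (fun a a' => by
          rw [← mul_assoc]
          exact mul_le_mul_of_nonneg_right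
            (AG_hd_le P G hJ (hd v (hR (mem_insert_self _ _))) hβ τ a a') hΔ0)
      have cH' : Continuous fun a => P.hd G J (Function.update τ v a) * Δ * (φ' a - φ a) :=
        cH.mul (hφ'.sub hφ)
      rw [← integral_comp_eval (μ := fun _ : V => ν) (i := v) cH'.aestronglyMeasurable] at h1
      refine le_of_le_of_eq h1 (integral_congr_ae (Filter.Eventually.of_forall fun σ => ?_))
      simp only [piecewise_singleton]
      rw [e1, e2, ml_update 𝓕 x v (φ' (σ v)), ml_update 𝓕 x v (φ (σ v)), ← hΔ]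
      ring
  refine le_of_le_of_eq (key Q Subset.rfl) ?_
  congr 1
  funext σ
  exact ml_congr hQ fun v hv => if_pos hv

end Aux

/-- the single-site estimate -/
theorem AG_site {β δ η I : ℝ} {ψ φ φ' : S → ℝ} (hψ : Continuous ψ) (hφ : Continuous φ)
    (hφ' : Continuous φ') (hψ0 : ∀ a, 0 ≤ ψ a) (hI : I = ∫ a, ψ a ∂ν) (hδ : 0 ≤ δ) (hη0 : 0 ≤ η)
    (hη : η * exp (8 * β) * exp (8 * β) ≤ δ * I) (h : ∀ a, δ * ψ a - η ≤ φ' a - φ a) (N : S)
    (H : S → ℝ) (cH : Continuous H) (H0 : ∀ a, 0 ≤ H a)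
    (hH : ∀ a a', H a ≤ exp (8 * β) * H a') : 0 ≤ ∫ a, H a * (φ' a - φ a) ∂ν := by
  have hE := exp_pos (8 * β)
  have h1 : ∀ a, δ * (H N / exp (8 * β)) * ψ a - η * (exp (8 * β) * H N) ≤ H a * (φ' a - φ a) := by
    intro a
    have e1 : H N / exp (8 * β) ≤ H a := by
      rw [div_le_iff₀ hE, mul_comm]; exact hH N a
    have e2 := mul_le_mul_of_nonneg_left (h a) (H0 a)
    have e3 := mul_le_mul_of_nonneg_left e1 (mul_nonneg hδ (hψ0 a))
    have e4 := mul_le_mul_of_nonneg_left (hH a N) hη0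
    linarith
  have c1 : Continuous fun a => δ * (H N / exp (8 * β)) * ψ a := continuous_const.mul hψ
  have c2 : Continuous fun a => δ * (H N / exp (8 * β)) * ψ a - η * (exp (8 * β) * H N) :=
    c1.sub continuous_const
  have c3 : Continuous fun a => H a * (φ' a - φ a) := cH.mul (hφ'.sub hφ)
  refine le_trans ?_ (integral_mono (μ := ν) (cint c2) (cint c3) h1)
  rw [integral_sub (cint c1) (integrable_const _), integral_const_mul,
    integral_const, probReal_univ, one_smul, ← hI]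
  have e5 := mul_le_mul_of_nonneg_right hη (div_nonneg (H0 N) hE.le)
  have e6 : η * exp (8 * β) * exp (8 * β) * (H N / exp (8 * β)) = η * (exp (8 * β) * H N) := by
    field_simp
  linarith

/-- Put `ψ = θ / t₁`, `ψ' = ψ * cut` with `cut = 0` on `x ≤ 2 ε`, `cut = 1` on `x ≥ 3 ε`, and
`c_j = t₁ + j (1 - t₁) / n`, `j = 0, …, n`.  Single-site estimate (the conditional density of a spin
of degree `≤ 4` is within `exp (± 4 β)`; `ψ - ψ' ≤ sup_{x ≤ 3 ε} ψ → 0`; `∫ ψ (s σ) dν > 0`) and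
swapping the vertices of `Q` one at a time (`ml_update`, `int_pw {v}`) give
`Ex ml (c_j ψ) ≤ Ex ml (c_{j+1} ψ')` for small `ε`.  Pointwise
`ml (θ) u ≤ ml (c_j ψ) u ≤ ml (c_j ψ) - ml (c_j ψ')`; with `f j = Ex ml (c_j ψ)` this gives
`Ex (ml θ u) ≤ f (j+1) - f j` for every `j < n`; sum over `j`. -/
theorem Spin.ag (hpos : 0 < ∫ σ, max (P.s σ) 0 ∂ν) {β : ℝ} (hβ : 0 ≤ β) (θ : ℝ → ℝ) (t₁ : ℝ)
    (hc : Continuous θ) (h0 : ∀ x, x ≤ 0 → θ x = 0) (h1 : ∀ x, 0 < x → 0 < θ x)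
    (h2 : ∀ x, x ≤ 1 → θ x ≤ t₁) (ht : t₁ < 1) (τ : ℝ) (hτ : 0 < τ) :
    ∃ ε : ℝ, 0 < ε ∧ ∀ (V E : Type) [Fintype V] [DecidableEq V] [Fintype E] [DecidableEq E]
      (G : Gr V E) (J : E → ℝ) (Q : Finset V) (𝓕 : Finset (Finset V)) (u : (V → ℝ) → ℝ),
      (∀ e, 0 ≤ J e ∧ J e ≤ β) → (∀ v ∈ Q, G.deg v ≤ 4) → (∀ A ∈ 𝓕, A ⊆ Q) → Continuous u →
      (∀ s, 0 ≤ u s ∧ u s ≤ 1) → (∀ s, (∃ A ∈ 𝓕, ∀ v ∈ A, 2 * ε ≤ s v) → u s = 0) →
      P.Ex G J (fun σ => ml 𝓕 (fun v => θ (P.s (σ v))) * u fun v => P.s (σ v)) ≤ τ * P.Z G J := by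
  have ht0 : 0 < t₁ := (h1 1 one_pos).trans_le (h2 1 le_rfl)
  have hθ0 : ∀ x, 0 ≤ θ x := fun x => by
    rcases le_or_gt x 0 with h | h
    exacts [(h0 x h).ge, (h1 x h).le]
  have hs1 : ∀ a, P.s a ≤ 1 := fun a => (abs_le.1 (P.s1 a)).2
  obtain ⟨ψ, hψ⟩ : ∃ ψ : ℝ → ℝ, ψ = fun x => θ x / t₁ := ⟨_, rfl⟩
  have cψ : Continuous ψ := hψ ▸ hc.div_const _
  have ψ0 : ∀ x, 0 ≤ ψ x := fun x => hψ ▸ div_nonneg (hθ0 x) ht0.le
  have ψ1 : ∀ x, x ≤ 1 → ψ x ≤ 1 := fun x hx => hψ ▸ (div_le_one ht0).2 (h2 x hx)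
  have θψ : ∀ x, θ x = t₁ * ψ x := fun x => by rw [hψ]; field_simp
  obtain ⟨I, hI⟩ : ∃ I, I = ∫ a, ψ (P.s a) ∂ν := ⟨_, rfl⟩
  have hI0 : 0 < I := by
    rw [hI, integral_pos_iff_support_of_nonneg (fun a => ψ0 _) (cint (cψ.comp P.cs))]
    rw [integral_pos_iff_support_of_nonneg (f := fun a => max (P.s a) 0)
      (fun a => le_max_right _ _) (cint (P.cs.max continuous_const))] at hpos
    refine hpos.trans_le (measure_mono fun a ha => ?_)
    have ha' : 0 < P.s a := by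
      by_contra hcon
      exact ha (max_eq_right (not_lt.1 hcon))
    rw [Function.mem_support, hψ]
    exact (div_pos (h1 _ ha') ht0).ne'
  obtain ⟨n, hn⟩ := exists_nat_gt (1 / τ)
  have hn0 : (0 : ℝ) < n := lt_trans (by positivity) hn
  obtain ⟨δ, hδ⟩ : ∃ δ : ℝ, δ = (1 - t₁) / n := ⟨_, rfl⟩
  have hδ0 : 0 < δ := by rw [hδ]; exact div_pos (by linarith) hn0
  obtain ⟨η, hη⟩ : ∃ η : ℝ, η = δ * I / (exp (8 * β) * exp (8 * β)) := ⟨_, rfl⟩
  have hη0 : 0 < η := by rw [hη]; positivity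
  have hη1 : η * exp (8 * β) * exp (8 * β) ≤ δ * I := by
    rw [hη]; refine le_of_eq ?_; field_simp
  obtain ⟨r, hr, hr'⟩ := Metric.continuousAt_iff.1 (cψ.continuousAt (x := 0)) η hη0
  have ψz : ∀ x, x ≤ 0 → ψ x = 0 := fun x hx => by rw [hψ]; simp [h0 x hx]
  have ψη : ∀ x, x < r → ψ x ≤ η := by
    intro x hx
    rcases le_or_gt x 0 with h | h
    · rw [ψz x h]; exact hη0.le
    · have := hr' (x := x) (by rw [Real.dist_eq, sub_zero, abs_of_pos h]; exact hx)
      rw [ψz 0 le_rfl, Real.dist_eq, sub_zero] at this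
      exact (le_abs_self _).trans this.le
  obtain ⟨ε, hε⟩ : ∃ ε : ℝ, ε = r / 3 := ⟨_, rfl⟩
  have hε0 : 0 < ε := by rw [hε]; positivity
  obtain ⟨ψ', hψ'⟩ : ∃ ψ' : ℝ → ℝ, ψ' = fun x => min (ψ x) (max 0 ((x - 2 * ε) / ε)) := ⟨_, rfl⟩
  have cψ' : Continuous ψ' := by rw [hψ']; fun_prop
  have ψ'0 : ∀ x, 0 ≤ ψ' x := fun x => hψ' ▸ le_min (ψ0 x) (le_max_left _ _)
  have ψ'le : ∀ x, ψ' x ≤ ψ x := fun x => hψ' ▸ min_le_left _ _
  have ψ'z : ∀ x, x < 2 * ε → ψ' x = 0 := by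
    intro x hx
    refine le_antisymm ?_ (ψ'0 x)
    rw [hψ']
    refine (min_le_right _ _).trans (max_le le_rfl ?_)
    exact div_nonpos_of_nonpos_of_nonneg (by linarith) hε0.le
  have ψ'η : ∀ x, x ≤ 1 → ψ x - ψ' x ≤ η := by
    intro x hx
    rcases lt_or_ge x r with h | h
    · linarith [ψη x h, ψ'0 x]
    · have : ψ' x = ψ x := by
        rw [hψ']
        refine min_eq_left ((ψ1 x hx).trans (le_max_of_le_right ?_))
        rw [le_div_iff₀ hε0]; linarith
      rw [this]; linarith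
  obtain ⟨c, hcj⟩ : ∃ c : ℕ → ℝ, c = fun j : ℕ => t₁ + j * δ := ⟨_, rfl⟩
  have ct : ∀ j, t₁ ≤ c j := fun j => by
    rw [hcj]; exact le_add_of_nonneg_right (mul_nonneg (Nat.cast_nonneg j) hδ0.le)
  have c0 : ∀ j, 0 ≤ c j := fun j => ht0.le.trans (ct j)
  have c1 : ∀ j, j ≤ n → c j ≤ 1 := by
    intro j hj
    have e1 : (j : ℝ) * δ ≤ n * δ := mul_le_mul_of_nonneg_right (by exact_mod_cast hj) hδ0.le
    have e2 : (n : ℝ) * δ = 1 - t₁ := by rw [hδ]; field_simp
    rw [hcj]; dsimp only; linarith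
  have cs : ∀ j, c (j + 1) = c j + δ := fun j => by rw [hcj]; push_cast; ring
  have b1 : ∀ j, j ≤ n → ∀ a, 0 ≤ c j * ψ (P.s a) ∧ c j * ψ (P.s a) ≤ 1 := fun j hj a =>
    ⟨mul_nonneg (c0 j) (ψ0 _), mul_le_one₀ (c1 j hj) (ψ0 _) (ψ1 _ (hs1 a))⟩
  have b2 : ∀ j, j ≤ n → ∀ a, 0 ≤ c j * ψ' (P.s a) ∧ c j * ψ' (P.s a) ≤ 1 := fun j hj a =>
    ⟨mul_nonneg (c0 j) (ψ'0 _), mul_le_one₀ (c1 j hj) (ψ'0 _) ((ψ'le _).trans (ψ1 _ (hs1 a)))⟩
  refine ⟨ε, hε0, fun V E _ _ _ _ G J Q 𝓕 u hJ hd hQ cu hu hu0 => ?_⟩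
  have cm : ∀ {φ : S → ℝ}, Continuous φ → Continuous fun σ : V → S => ml 𝓕 fun v => φ (σ v) :=
    fun hφ => (continuous_ml 𝓕).comp (continuous_pi fun v => hφ.comp (continuous_apply v))
  have cf : ∀ j, Continuous fun a => c j * ψ (P.s a) := fun j =>
    continuous_const.mul (cψ.comp P.cs)
  have cg : ∀ j, Continuous fun a => c j * ψ' (P.s a) := fun j =>
    continuous_const.mul (cψ'.comp P.cs)
  have cX : Continuous fun σ : V → S => ml 𝓕 (fun v => θ (P.s (σ v))) * u fun v => P.s (σ v) :=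
    (cm (hc.comp P.cs)).mul (cu.comp P.continuous_sv)
  obtain ⟨f, hf⟩ : ∃ f : ℕ → ℝ,
      f = fun j => P.Ex G J fun σ => ml 𝓕 fun v => c j * ψ (P.s (σ v)) := ⟨_, rfl⟩
  obtain ⟨X, hX⟩ : ∃ X, X = P.Ex G J
      (fun σ => ml 𝓕 (fun v => θ (P.s (σ v))) * u fun v => P.s (σ v)) := ⟨_, rfl⟩
  have step : ∀ j, j < n → X ≤ f (j + 1) - f j := by
    intro j hj
    have s1 : f j ≤ P.Ex G J fun σ => ml 𝓕 fun v => c (j + 1) * ψ' (P.s (σ v)) := by
      rw [hf]
      refine AG_swap P G hβ hJ hd hQ (φ := fun a => c j * ψ (P.s a))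
        (φ' := fun a => c (j + 1) * ψ' (P.s a)) (cf j) (cg (j + 1)) (b1 j hj.le) (b2 (j + 1) hj) ?_
      refine AG_site (ψ := fun a => ψ (P.s a)) (cψ.comp P.cs) (cf j) (cg (j + 1)) (fun a => ψ0 _) hI hδ0.le hη0.le hη1
        (fun a => ?_) P.N
      have e1 := ψ'η _ (hs1 a)
      have e2 : c (j + 1) * (ψ (P.s a) - ψ' (P.s a)) ≤ 1 * η :=
        mul_le_mul (c1 (j + 1) hj) e1 (sub_nonneg.2 (ψ'le _)) zero_le_one
      have e3 := cs j
      rw [e3] at e2 ⊢
      linarith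
    have s2 : X ≤ f (j + 1) - P.Ex G J fun σ => ml 𝓕 fun v => c (j + 1) * ψ' (P.s (σ v)) := by
      rw [hf, hX, ← AG_Ex_sub P G J (cm (cf (j + 1))) (cm (cg (j + 1)))]
      refine AG_Ex_mono P G J cX ((cm (cf (j + 1))).sub (cm (cg (j + 1)))) fun σ => ?_
      by_cases h : ∃ A ∈ 𝓕, ∀ v ∈ A, 2 * ε ≤ P.s (σ v)
      · rw [hu0 _ h, mul_zero, sub_nonneg]
        exact ml_mono 𝓕 (fun v => (b2 _ hj _).1)
          (fun v => mul_le_mul_of_nonneg_left (ψ'le _) (c0 _)) fun v => (b1 _ hj _).2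
      · push Not at h
        have e1 : (ml 𝓕 fun v => c (j + 1) * ψ' (P.s (σ v))) = 0 :=
          ml_eq_zero fun A hA => by
            obtain ⟨v, hv, hv'⟩ := h A hA
            exact ⟨v, hv, by rw [ψ'z _ hv', mul_zero]⟩
        have e2 : (ml 𝓕 fun v => θ (P.s (σ v))) ≤ ml 𝓕 fun v => c (j + 1) * ψ (P.s (σ v)) :=
          ml_mono 𝓕 (fun v => hθ0 _) (fun v => by
            dsimp only
            rw [θψ]
            exact mul_le_mul_of_nonneg_right (ct _) (ψ0 _)) fun v => (b1 _ hj _).2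
        have e3 : 0 ≤ ml 𝓕 fun v => θ (P.s (σ v)) :=
          ml_nonneg 𝓕 fun v => ⟨hθ0 _, (h2 _ (hs1 _)).trans ht.le⟩
        have e4 := mul_le_mul_of_nonneg_left (hu fun v => P.s (σ v)).2 e3
        rw [e1]
        linarith
    linarith
  have hsum : ∀ j, j ≤ n → j * X ≤ f j - f 0 := by
    intro j
    induction j with
    | zero => intro _; simp
    | succ j ih =>
      intro hj
      have := step j hj
      have := ih (Nat.le_of_succ_le hj)
      push_cast
      linarith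
  have f0 : 0 ≤ f 0 := by
    rw [hf]
    exact integral_nonneg fun σ =>
      mul_nonneg (AG_hd_pos P G J σ).le (ml_nonneg 𝓕 fun v => b1 0 (Nat.zero_le _) _)
  have fn : f n ≤ P.Z G J := by
    have : f n ≤ P.Ex G J fun _ => 1 := by
      rw [hf]
      exact AG_Ex_mono P G J (cm (cf n)) continuous_const fun σ =>
        ml_le_one 𝓕 fun v => b1 n le_rfl _
    simpa [Spin.Ex, Spin.Z] using this
  have hZ := P.Z_pos G J
  rw [← hX]
  have e1 : n * X ≤ P.Z G J := by linarith [hsum n le_rfl]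
  have e2 : 1 < n * τ := by rwa [div_lt_iff₀ hτ] at hn
  have e3 : n * X ≤ n * (τ * P.Z G J) := by nlinarith
  exact le_of_mul_le_mul_left e3 hn0

end Crest.Agent.R167
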