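import Crest.Agent.R167.Basic

/-! Row 167: finite random cluster measures. -/

set_option autoImplicit false
set_option linter.unusedSectionVars false

open MeasureTheory Finset Real

noncomputable section
namespace Crest.Agent.R167

variable {V E : Type} [Fintype V] [DecidableEq V] [Fintype E] [DecidableEq E] (G : Gr V E)

theorem subG_pol (Λ : Finset V) : SubG (pol Λ) := by
  refine ⟨by simp [pol], fun ξ hξ η hη => ?_⟩
  simp only [pol, mem_filter, mem_univ, true_and] at hξ hη ⊢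
  intro v hv
  simp [hξ v hv, hη v hv]

theorem subG_cst (η : E → Bool) :
    SubG (open Classical in univ.filter fun ξ : V → Bool => G.Cst η ξ) := by
  refine ⟨by simp [Gr.Cst], fun ξ hξ ξ' hξ' => ?_⟩
  simp only [mem_filter, mem_univ, true_and] at hξ hξ' ⊢
  intro e he
  simp only [hξ e he, hξ' e he]

/-- Edwards-Sokal expansion -/
theorem sum_ew_NH (H : Finset (V → Bool)) (K : E → ℝ) : ∑ ω, ew K ω * G.NH H ω = G.ZI H K := by
  simp only [Gr.NH, Gr.ZI, mul_sum]
  rw [sum_comm]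
  refine sum_congr rfl fun ξ _ => ?_
  have h := G.sum_cw K fun v => sg (ξ v) * 1
  simp only [G.cw_sg K (fun _ => 1) (fun _ => zero_le_one) ξ] at h
  simpa only [mul_one] using h

theorem ZI_pos {H : Finset (V → Bool)} (h : SubG H) (K : E → ℝ) : 0 < G.ZI H K :=
  sum_pos (fun _ _ => exp_pos _) ⟨_, h.1⟩

theorem fk_sum_pi (f : E → Bool → ℝ) :
    ∑ ω : E → Bool, ∏ e, f e (ω e) = ∏ e, (f e true + f e false) := by
  rw [← Fintype.piFinset_univ, ← prod_univ_sum]
  simp

/-- push-forward of a product weight under an edgewise map -/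
theorem fk_push (w : E → Bool → ℝ) (r : E → Bool → Bool) (Φ : (E → Bool) → ℝ) :
    ∑ ω : E → Bool, (∏ e, w e (ω e)) * Φ (fun e => r e (ω e)) =
      ∑ ζ : E → Bool, (∏ e, ((if r e true = ζ e then w e true else 0) +
        if r e false = ζ e then w e false else 0)) * Φ ζ := by
  have h1 : ∀ ζ : E → Bool, (∏ e, ((if r e true = ζ e then w e true else 0) +
      if r e false = ζ e then w e false else 0)) =
      ∑ ω : E → Bool, if (fun e => r e (ω e)) = ζ then ∏ e, w e (ω e) else 0 := by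
    intro ζ
    rw [← fk_sum_pi fun e b => if r e b = ζ e then w e b else 0]
    refine sum_congr rfl fun ω _ => ?_
    rw [prod_ite_zero]
    simp only [mem_univ, forall_const, funext_iff]
  simp only [h1, sum_mul]
  rw [sum_comm]
  refine sum_congr rfl fun ω _ => ?_
  simp

/-- superposition of two independent bond configurations -/
theorem ew_split (K K' : E → ℝ) (Φ : (E → Bool) → ℝ) :
    ∑ ω, ew (fun e => K e + K' e) ω * Φ ω = ∑ η, ew K' η * ∑ ω, ew K ω * Φ (ω ⊔ η) := by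
  have h1 := fun η : E → Bool => fk_push
    (fun e b => if b then 2 * sinh (K e) else exp (-K e)) (fun e b => b ⊔ η e) Φ
  have h2 : ∀ η : E → Bool, ∑ ω, ew K ω * Φ (ω ⊔ η) = _ := h1
  simp only [h2, mul_sum]
  rw [sum_comm]
  refine sum_congr rfl fun ζ _ => ?_
  simp only [← mul_assoc, ← sum_mul, ew, ← prod_mul_distrib]
  congr 1
  refine Eq.trans ?_ (fk_sum_pi fun e b => (if b then 2 * sinh (K' e) else exp (-K' e)) *
    ((if true ⊔ b = ζ e then if True then 2 * sinh (K e) else exp (-K e) else 0) +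
      if false ⊔ b = ζ e then if false then 2 * sinh (K e) else exp (-K e) else 0)).symm
  refine prod_congr rfl fun e _ => ?_
  rcases h : ζ e with _ | _
  · simp [exp_add, mul_comm]
  · simp only [sinh_eq, neg_add, exp_add, exp_neg]
    simp
    have := exp_ne_zero (K e)
    have := exp_ne_zero (K' e)
    field_simp
    ring

theorem fk_NH_eq (H : Finset (V → Bool)) (ω : E → Bool) :
    G.NH H ω = ((open Classical in H.filter fun ξ => G.Cst ω ξ).card : ℝ) := by
  simp only [Gr.NH, ind, card_filter, Nat.cast_sum, Nat.cast_ite, Nat.cast_one, Nat.cast_zero]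

theorem fk_NH_nonneg (H : Finset (V → Bool)) (ω : E → Bool) : 0 ≤ G.NH H ω :=
  sum_nonneg fun _ _ => ind_nonneg _

/-- `|A| |B| ≤ |U| |A ∩ B|` for subgroups `A, B` of `U` -/
theorem NH_super {H₁ H₂ : Finset (V → Bool)} (h₁ : SubG H₁) (h₂ : SubG H₂) (h : H₂ ⊆ H₁)
    (ω ω' : E → Bool) : G.NH H₁ ω * G.NH H₂ ω' ≤ G.NH H₁ (ω ⊓ ω') * G.NH H₂ (ω ⊔ ω') := by
  classical
  simp only [fk_NH_eq]
  rw [← Nat.cast_mul, ← Nat.cast_mul, Nat.cast_le, ← card_product, mul_comm]
  refine card_le_mul_card_image_of_maps_to (f := fun x v => x.1 v == x.2 v) ?_ _ ?_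
  · rintro ⟨a, b⟩ hab
    simp only [mem_product, mem_filter] at hab ⊢
    refine ⟨h₁.2 _ hab.1.1 _ (h hab.2.1), fun e he => ?_⟩
    have he' : ω e = true ∧ ω' e = true := by simpa using he
    simp only [hab.1.2 e he'.1, hab.2.2 e he'.2]
  · intro u _
    rcases (filter (fun x : (V → Bool) × (V → Bool) => (fun v => x.1 v == x.2 v) = u)
      ((H₁.filter fun ξ => G.Cst ω ξ) ×ˢ (H₂.filter fun ξ => G.Cst ω' ξ))).eq_empty_or_nonempty
      with h0 | ⟨⟨a₀, b₀⟩, h0⟩
    · rw [h0]; simp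
    simp only [mem_product, mem_filter] at h0
    refine card_le_card_of_injOn (fun x v => x.2 v == b₀ v) ?_ ?_
    · rintro ⟨a, b⟩ hab
      simp only [coe_filter, mem_product, mem_filter, Set.mem_ofPred_eq] at hab ⊢
      refine ⟨h₂.2 _ hab.1.2.1 _ h0.1.2.1, fun e he => ?_⟩
      have he' : ω e = true ∨ ω' e = true := by simpa using he
      rcases he' with he' | he'
      · have e1 : ∀ v, (b v == b₀ v) = (a v == a₀ v) := by
          intro v
          have := congrFun (hab.2.trans h0.2.symm) v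
          revert this
          cases a v <;> cases b v <;> cases a₀ v <;> cases b₀ v <;> simp
        simp only [e1, hab.1.1.2 e he', h0.1.1.2 e he']
      · simp only [hab.1.2.2 e he', h0.1.2.2 e he']
    · rintro ⟨a, b⟩ hab ⟨a', b'⟩ hab' e
      simp only [coe_filter, Set.mem_ofPred_eq] at hab hab'
      have e2 := hab.2.trans hab'.2.symm
      have k1 : ∀ x y z : Bool, (x == z) = (y == z) → x = y := by decide
      have hb : b = b' := funext fun v => k1 _ _ _ (congrFun e v)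
      subst hb
      have ha : a = a' := funext fun v => k1 _ _ _ (congrFun e2 v)
      rw [ha]

theorem fk_ew_super {K K' : E → ℝ} (hK : ∀ e, 0 ≤ K e) (hK' : ∀ e, K e ≤ K' e)
    (ω ω' : E → Bool) : ew K ω * ew K' ω' ≤ ew K (ω ⊓ ω') * ew K' (ω ⊔ ω') := by
  simp only [ew, ← prod_mul_distrib]
  have hs : ∀ e, 0 ≤ sinh (K e) := fun e => sinh_nonneg_iff.mpr (hK e)
  have hs' : ∀ e, 0 ≤ sinh (K' e) := fun e => sinh_nonneg_iff.mpr ((hK e).trans (hK' e))
  refine prod_le_prod (fun e _ => ?_) fun e _ => ?_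
  · have := hs e
    have := hs' e
    split_ifs <;> positivity
  · simp only [Pi.inf_apply, Pi.sup_apply]
    by_cases k1 : ω e = true <;> by_cases k2 : ω' e = true
    · simp [k1, k2]
    · have h1 := sinh_le_sinh.mpr (hK' e)
      have h2 := exp_le_exp.mpr (neg_le_neg (hK' e))
      have h3 := mul_le_mul h1 h2 (exp_pos _).le (hs' e)
      simp [k1, k2]
      linarith
    · simp [k1, k2]
    · simp [k1, k2]

theorem fk_super {H₁ H₂ : Finset (V → Bool)} (h₁ : SubG H₁) (h₂ : SubG H₂) (h : H₂ ⊆ H₁)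
    {K K' : E → ℝ} (hK : ∀ e, 0 ≤ K e) (hK' : ∀ e, K e ≤ K' e) (ω ω' : E → Bool) :
    ew K ω * G.NH H₁ ω * (ew K' ω' * G.NH H₂ ω') ≤
      ew K (ω ⊓ ω') * G.NH H₁ (ω ⊓ ω') * (ew K' (ω ⊔ ω') * G.NH H₂ (ω ⊔ ω')) := by
  rw [mul_mul_mul_comm, mul_mul_mul_comm (ew K (ω ⊓ ω'))]
  exact mul_le_mul (fk_ew_super hK hK' ω ω') (NH_super G h₁ h₂ h ω ω')
    (mul_nonneg (fk_NH_nonneg G _ _) (fk_NH_nonneg G _ _))
    (mul_nonneg (ew_nonneg hK _) (ew_nonneg (fun e => (hK e).trans (hK' e)) _))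

theorem fk_four {H₁ H₂ : Finset (V → Bool)} (h₁ : SubG H₁) (h₂ : SubG H₂) (h : H₂ ⊆ H₁)
    {K K' : E → ℝ} (hK : ∀ e, 0 ≤ K e) (hK' : ∀ e, K e ≤ K' e) {A B : (E → Bool) → Prop}
    (hA : Up A) (hB : Up B) :
    (∑ ω, ew K ω * G.NH H₁ ω * ind (A ω)) * (∑ ω, ew K' ω * G.NH H₂ ω * ind (B ω)) ≤
      G.ZI H₁ K * ∑ ω, ew K' ω * G.NH H₂ ω * ind (A ω ∧ B ω) := by
  have n1 : ∀ ω, 0 ≤ ew K ω * G.NH H₁ ω := fun ω =>
    mul_nonneg (ew_nonneg hK _) (fk_NH_nonneg G _ _)
  have n2 : ∀ ω, 0 ≤ ew K' ω * G.NH H₂ ω := fun ω =>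
    mul_nonneg (ew_nonneg (fun e => (hK e).trans (hK' e)) _) (fk_NH_nonneg G _ _)
  rw [← sum_ew_NH]
  refine four_functions_theorem_univ _ _ _ _ (fun ω => mul_nonneg (n1 ω) (ind_nonneg _))
    (fun ω => mul_nonneg (n2 ω) (ind_nonneg _)) n1 (fun ω => mul_nonneg (n2 ω) (ind_nonneg _))
    fun ω ω' => ?_
  rw [mul_mul_mul_comm, ← ind_and, ← mul_assoc (ew K (ω ⊓ ω') * _)]
  exact mul_le_mul (fk_super G h₁ h₂ h hK hK' ω ω')
    (ind_mono fun hh => ⟨hA _ _ le_sup_left hh.1, hB _ _ le_sup_right hh.2⟩) (ind_nonneg _)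
    (mul_nonneg (n1 _) (n2 _))

/-- use `four_functions_theorem_univ` -/
theorem fk_holley {H₁ H₂ : Finset (V → Bool)} (h₁ : SubG H₁) (h₂ : SubG H₂) (h : H₂ ⊆ H₁)
    {K K' : E → ℝ} (hK : ∀ e, 0 ≤ K e) (hK' : ∀ e, K e ≤ K' e) {A : (E → Bool) → Prop}
    (hA : Up A) :
    (∑ ω, ew K ω * G.NH H₁ ω * ind (A ω)) * G.ZI H₂ K' ≤
      G.ZI H₁ K * ∑ ω, ew K' ω * G.NH H₂ ω * ind (A ω) := by
  have := fk_four G h₁ h₂ h hK hK' hA (B := fun _ => True) fun _ _ _ _ => trivial
  simpa only [ind_true, mul_one, and_true, sum_ew_NH] using this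

theorem fk_fkg {H : Finset (V → Bool)} (h : SubG H) {K : E → ℝ} (hK : ∀ e, 0 ≤ K e)
    {A B : (E → Bool) → Prop} (hA : Up A) (hB : Up B) :
    (∑ ω, ew K ω * G.NH H ω * ind (A ω)) * (∑ ω, ew K ω * G.NH H ω * ind (B ω)) ≤
      G.ZI H K * ∑ ω, ew K ω * G.NH H ω * ind (A ω ∧ B ω) :=
  fk_four G h h subset_rfl hK (fun _ => le_rfl) hA hB

/-- the conditional probability of an event depending on the edges in `D` depends only on the
spins at the ends of these edges -/
theorem cw_factor {J : E → ℝ} (hJ : ∀ e, 0 ≤ J e) {D : E → Prop} {A : (E → Bool) → Prop}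
    (hA : Dep D A) : ∃ Ψ : (V → ℝ) → ℝ, Continuous Ψ ∧ (∀ s, 0 ≤ Ψ s) ∧
      (∀ s s', (∀ e, D e → s (G.p e) = s' (G.p e) ∧ s (G.q e) = s' (G.q e)) → Ψ s = Ψ s') ∧
      ∀ s, ∑ ω, G.cw J s ω * ind (A ω) = exp (∑ e, J e * (s (G.p e) * s (G.q e))) * Ψ s := by
  classical
  let c : (V → ℝ) → E → ℝ := fun s e =>
    exp (-(J e * |s (G.p e) * s (G.q e)|) - J e * (s (G.p e) * s (G.q e)))
  have hc1 : ∀ s e, c s e ≤ 1 := by
    intro s e
    refine exp_le_one_iff.mpr ?_
    nlinarith [mul_le_mul_of_nonneg_left (neg_abs_le (s (G.p e) * s (G.q e))) (hJ e)]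
  refine ⟨fun s => ∑ ζ : E → Bool, (∏ e, if D e then (if ζ e then 1 - c s e else c s e)
    else if ζ e then 0 else 1) * ind (A ζ), ?_, fun s => ?_, fun s s' h => ?_, fun s => ?_⟩
  · refine continuous_finsetSum _ fun ζ _ => Continuous.mul
      (continuous_finsetProd _ fun e _ => ?_) continuous_const
    split_ifs <;> fun_prop
  · refine sum_nonneg fun ζ _ => mul_nonneg (prod_nonneg fun e _ => ?_) (ind_nonneg _)
    have := hc1 s e
    split_ifs
    · linarith
    · exact (exp_pos _).le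
    · exact le_rfl
    · exact zero_le_one
  · refine sum_congr rfl fun ζ _ => ?_
    congr 1
    refine prod_congr rfl fun e _ => ?_
    by_cases he : D e
    · simp only [c, (h e he).1, (h e he).2]
    · simp only [if_neg he]
  · have h1 := fk_push (fun e b => if b then exp (J e * (s (G.p e) * s (G.q e))) -
        exp (-(J e * |s (G.p e) * s (G.q e)|)) else exp (-(J e * |s (G.p e) * s (G.q e)|)))
      (fun e b => if D e then b else false) fun ω => ind (A ω)
    have h2 : ∀ ω : E → Bool, ind (A ω) = ind (A fun e => if D e then ω e else false) := fun ω =>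
      ind_congr ⟨hA _ _ fun e he => by simp [he], hA _ _ fun e he => by simp [he]⟩
    refine Eq.trans (sum_congr rfl fun ω _ => ?_) (h1.trans ?_)
    · rw [h2 ω]; rfl
    · rw [mul_sum]
      refine sum_congr rfl fun ζ _ => ?_
      rw [← mul_assoc, exp_sum, ← prod_mul_distrib]
      congr 1
      refine prod_congr rfl fun e _ => ?_
      have h3 : exp (J e * (s (G.p e) * s (G.q e))) * c s e =
          exp (-(J e * |s (G.p e) * s (G.q e)|)) := by
        simp only [c, ← exp_add]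
        congr 1
        ring
      by_cases he : D e <;> cases ζ e <;> simp [he, mul_sub, h3]

end Crest.Agent.R167
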