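import Crest.Agent.R167.Basic

/-! Row 167: Griffiths and Ginibre inequalities by duplication. -/

set_option autoImplicit false
set_option linter.unusedSectionVars false

open MeasureTheory Finset Real

noncomputable section
namespace Crest.Agent.R167

variable {V E : Type} [Fintype V] [DecidableEq V] [Fintype E] [DecidableEq E] (G : Gr V E)

section cone
variable {X ι : Type}

/-- the cone generated by the monomials in `u` -/
inductive GksCone (u : ι → X → ℝ) : (X → ℝ) → Prop
  | one : GksCone u fun _ => 1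
  | mul (i : ι) {f : X → ℝ} : GksCone u f → GksCone u fun x => u i x * f x
  | smul {c : ℝ} {f : X → ℝ} : 0 ≤ c → GksCone u f → GksCone u fun x => c * f x
  | add {f g : X → ℝ} : GksCone u f → GksCone u g → GksCone u fun x => f x + g x

variable {u : ι → X → ℝ}

theorem GksCone.congr {f g : X → ℝ} (hf : GksCone u f) (h : ∀ x, f x = g x) : GksCone u g := by
  rwa [← show f = g from funext h]

theorem GksCone.mul' {f g : X → ℝ} (hf : GksCone u f) (hg : GksCone u g) :
    GksCone u fun x => f x * g x := by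
  induction hf with
  | one => exact hg.congr fun x => by ring
  | mul i _ ih => exact (ih.mul i).congr fun x => by ring
  | smul hc _ ih => exact (ih.smul hc).congr fun x => by ring
  | add _ _ ih ih' => exact (ih.add ih').congr fun x => by ring

theorem gksCone_lin (s : Finset ι) {c : ι → ℝ} (hc : ∀ i, 0 ≤ c i) :
    GksCone u fun x => ∑ i ∈ s, c i * u i x := by
  classical
  induction s using Finset.induction_on with
  | empty => exact (GksCone.one.smul le_rfl).congr fun x => by simp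
  | insert i s hi ih =>
    exact (((GksCone.one.mul i).smul (hc i)).add ih).congr fun x => by simp [sum_insert hi]

theorem gksCone_pow {f g : X → ℝ} (h1 : GksCone u fun x => f x + g x)
    (h2 : GksCone u fun x => f x - g x) (k : ℕ) :
    (GksCone u fun x => f x ^ k + g x ^ k) ∧ GksCone u fun x => f x ^ k - g x ^ k := by
  induction k with
  | zero =>
    exact ⟨(GksCone.one.smul zero_le_two).congr fun x => by norm_num,
      (GksCone.one.smul le_rfl).congr fun x => by simp⟩
  | succ k ih =>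
    exact ⟨(((ih.1.mul' h1).add (ih.2.mul' h2)).smul (c := 1 / 2) (by norm_num)).congr
        fun x => by ring,
      (((ih.1.mul' h2).add (ih.2.mul' h1)).smul (c := 1 / 2) (by norm_num)).congr fun x => by ring⟩

variable [Fintype ι] [TopologicalSpace X] [CompactSpace X] [MeasurableSpace X]
  [OpensMeasurableSpace X] {μ : Measure X} [IsFiniteMeasure μ]

theorem GksCone.continuous (hu : ∀ i, Continuous (u i)) {f : X → ℝ} (hf : GksCone u f) :
    Continuous f := by
  induction hf with
  | one => exact continuous_const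
  | mul i _ ih => exact (hu i).mul ih
  | smul _ _ ih => exact continuous_const.mul ih
  | add _ _ ih ih' => exact ih.add ih'

theorem GksCone.integral_nonneg (hu : ∀ i, Continuous (u i))
    (hm : ∀ n : ι → ℕ, 0 ≤ ∫ x, ∏ i, u i x ^ n i ∂μ) {f : X → ℝ} (hf : GksCone u f) (n : ι → ℕ) :
    0 ≤ ∫ x, f x * ∏ i, u i x ^ n i ∂μ := by
  classical
  have hc : ∀ n : ι → ℕ, Continuous fun x => ∏ i, u i x ^ n i := fun n =>
    continuous_finsetProd _ fun i _ => (hu i).pow _
  induction hf generalizing n with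
  | one => simpa using hm n
  | @mul i f _ ih =>
    have h1 := ih (n + Pi.single i 1)
    have h2 : ∀ x, f x * ∏ j, u j x ^ (n + Pi.single i 1 : ι → ℕ) j
        = u i x * f x * ∏ j, u j x ^ n j := by
      intro x
      simp only [Pi.add_apply, pow_add, prod_mul_distrib]
      rw [Fintype.prod_eq_single i (f := fun j => u j x ^ (Pi.single i 1 : ι → ℕ) j)
        (fun j hj => by simp [Pi.single_eq_of_ne hj])]
      simp only [Pi.single_eq_same, pow_one]
      ring
    simpa only [h2] using h1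
  | smul hc' _ ih =>
    simp only [mul_assoc, integral_const_mul]
    exact mul_nonneg hc' (ih n)
  | add hf hg ih ih' =>
    simp only [add_mul]
    rw [integral_add (cint ((hf.continuous hu).fun_mul (hc n)))
      (cint ((hg.continuous hu).fun_mul (hc n)))]
    exact add_nonneg (ih n) (ih' n)

theorem gks_tendsto {A : X → ℝ} (hA : Continuous A) :
    Filter.Tendsto (fun N : ℕ => ∫ x, (1 + A x / N) ^ N ∂μ) Filter.atTop
      (nhds (∫ x, exp (A x) ∂μ)) := by
  refine tendsto_integral_of_dominated_convergence (fun x => exp |A x|)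
    (fun N => Continuous.aestronglyMeasurable (by fun_prop)) (cint (by fun_prop))
    (fun N => ae_of_all _ fun x => ?_) (ae_of_all _ fun x => tendsto_one_add_div_pow_exp _)
  rcases Nat.eq_zero_or_pos N with rfl | hN
  · simp
  have hN' : (0 : ℝ) < N := by exact_mod_cast hN
  rw [norm_pow, Real.norm_eq_abs]
  have h1 : |1 + A x / N| ≤ exp (|A x| / N) := by
    refine le_trans ?_ (add_one_le_exp _)
    have := abs_add_le 1 (A x / N)
    rw [abs_one, abs_div, abs_of_pos hN'] at this
    linarith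
  refine (pow_le_pow_left₀ (abs_nonneg _) h1 N).trans (le_of_eq ?_)
  rw [← exp_nat_mul, mul_div_cancel₀ _ hN'.ne']

theorem gks_abs (hu : ∀ i, Continuous (u i)) (hm : ∀ n : ι → ℕ, 0 ≤ ∫ x, ∏ i, u i x ^ n i ∂μ)
    {a b : ι → ℝ} (hab : ∀ i, |b i| ≤ a i) :
    ∫ x, exp (∑ i, b i * u i x) ∂μ ≤ ∫ x, exp (∑ i, a i * u i x) ∂μ := by
  have hA : ∀ c : ι → ℝ, Continuous fun x => ∑ i, c i * u i x := fun c =>
    continuous_finsetSum _ fun i _ => continuous_const.mul (hu i)
  refine le_of_tendsto_of_tendsto' (gks_tendsto (hA b)) (gks_tendsto (hA a)) fun N => ?_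
  have hN : (0 : ℝ) ≤ (N : ℝ)⁻¹ := by positivity
  have h1 : GksCone u fun x => (1 + (∑ i, a i * u i x) / N) + (1 + (∑ i, b i * u i x) / N) := by
    refine ((GksCone.one.smul zero_le_two).add ((gksCone_lin univ (c := fun i => a i + b i)
      fun i => by linarith [(abs_le.1 (hab i)).1]).smul hN)).congr fun x => ?_
    simp only [add_mul, sum_add_distrib]
    ring
  have h2 : GksCone u fun x => (1 + (∑ i, a i * u i x) / N) - (1 + (∑ i, b i * u i x) / N) := by
    refine ((gksCone_lin univ (c := fun i => a i - b i)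
      fun i => by linarith [(abs_le.1 (hab i)).2]).smul hN).congr fun x => ?_
    simp only [sub_mul, sum_sub_distrib]
    ring
  have h3 := (gksCone_pow h1 h2 N).2.integral_nonneg hu hm 0
  simp only [Pi.zero_apply, pow_zero, prod_const_one, mul_one] at h3
  have := hA a
  have := hA b
  rw [integral_sub (cint (by fun_prop)) (cint (by fun_prop))] at h3
  linarith

end cone

theorem gks_reindex {H : Finset (V → Bool)} (h : SubG H) {η : V → Bool} (hη : η ∈ H)
    (f : (V → Bool) → ℝ) : ∑ ξ ∈ H, f (fun v => ξ v == η v) = ∑ ξ ∈ H, f ξ := by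
  have hinv : ∀ ξ : V → Bool, (fun v => (ξ v == η v) == η v) = ξ := fun ξ => by
    funext v; cases ξ v <;> cases η v <;> rfl
  exact sum_nbij' (fun ξ v => ξ v == η v) (fun ξ v => ξ v == η v) (fun ξ hξ => h.2 ξ hξ η hη)
    (fun ξ hξ => h.2 ξ hξ η hη) (fun ξ _ => hinv ξ) (fun ξ _ => hinv ξ) (fun _ _ => rfl)

theorem gks_char_nonneg {H : Finset (V → Bool)} (h : SubG H) {χ : (V → Bool) → ℝ}
    (hχ : ∀ ξ η, χ (fun v => ξ v == η v) = χ ξ * χ η) : 0 ≤ ∑ ξ ∈ H, χ ξ := by
  have h1 : (∑ ξ ∈ H, χ ξ) * ∑ ξ ∈ H, χ ξ = H.card * ∑ ξ ∈ H, χ ξ := by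
    calc (∑ ξ ∈ H, χ ξ) * ∑ ξ ∈ H, χ ξ = ∑ η ∈ H, ∑ ξ ∈ H, χ (fun v => ξ v == η v) := by
          rw [mul_sum]
          exact sum_congr rfl fun η _ => by simp only [hχ, sum_mul]
      _ = ∑ _η ∈ H, ∑ ξ ∈ H, χ ξ := sum_congr rfl fun η hη => gks_reindex h hη χ
      _ = _ := by simp
  have h2 : (0 : ℝ) < H.card := by exact_mod_cast card_pos.2 ⟨_, h.1⟩
  have h3 := mul_self_nonneg (∑ ξ ∈ H, χ ξ)
  rw [h1] at h3
  exact nonneg_of_mul_nonneg_right h3 h2

theorem gks_mono {H : Finset (V → Bool)} (h : SubG H) {K K' : E → ℝ} (hK : ∀ e, |K' e| ≤ K e) :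
    G.ZI H K' ≤ G.ZI H K := by
  have hint : ∀ f : (V → Bool) → ℝ,
      ∫ ξ, f ξ ∂(Measure.count.restrict (H : Set (V → Bool))) = ∑ ξ ∈ H, f ξ := by
    intro f
    rw [setIntegral_finset _ (cint continuous_of_discreteTopology)]
    simp
  have := gks_abs (μ := Measure.count.restrict (H : Set (V → Bool)))
    (u := fun e ξ => sg (ξ (G.p e)) * sg (ξ (G.q e))) (fun _ => continuous_of_discreteTopology)
    (fun n => by
      rw [hint]
      refine gks_char_nonneg h fun ξ η => ?_
      rw [← prod_mul_distrib]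
      refine prod_congr rfl fun e _ => ?_
      rw [← mul_pow, sg_beq, sg_beq]
      ring) hK
  rwa [hint, hint] at this

theorem gks_prod {H₁ H₂ : Finset (V → Bool)} (h₁ : SubG H₁) (h : H₂ ⊆ H₁) (K K' : E → ℝ) :
    G.ZI H₁ K * G.ZI H₂ K' =
      ∑ ρ ∈ H₁, G.ZI H₂ fun e => K' e + K e * (sg (ρ (G.p e)) * sg (ρ (G.q e))) := by
  unfold Gr.ZI
  rw [mul_sum, sum_comm]
  refine sum_congr rfl fun τ hτ => ?_
  rw [← gks_reindex h₁ (h hτ), sum_mul]
  refine sum_congr rfl fun ρ _ => ?_
  rw [← exp_add, ← sum_add_distrib]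
  congr 1
  refine sum_congr rfl fun e _ => ?_
  rw [sg_beq, sg_beq]
  ring

/-- Write `σ = τ ρ` (`σ, ρ ∈ H₁`, `τ ∈ H₂`); for fixed `ρ` compare couplings `K₄ + K₃ ρ_e` and
`K₂ + K₁ ρ_e`; `ZI H K'  ≤ ZI H K` when `|K'| ≤ K` since all monomials have nonnegative sums over
the subgroup `H`. -/
theorem gks_dup {H₁ H₂ : Finset (V → Bool)} (h₁ : SubG H₁) (h₂ : SubG H₂) (h : H₂ ⊆ H₁)
    (K₁ K₂ K₃ K₄ : E → ℝ) (ha : ∀ e, |K₄ e + K₃ e| ≤ K₂ e + K₁ e)
    (hb : ∀ e, |K₄ e - K₃ e| ≤ K₂ e - K₁ e) :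
    G.ZI H₁ K₃ * G.ZI H₂ K₄ ≤ G.ZI H₁ K₁ * G.ZI H₂ K₂ := by
  rw [gks_prod G h₁ h, gks_prod G h₁ h]
  refine sum_le_sum fun ρ _ => gks_mono G h₂ fun e => ?_
  have a := ha e
  have b := hb e
  rw [sub_eq_add_neg, sub_eq_add_neg] at b
  cases ρ (G.p e) <;> cases ρ (G.q e) <;>
    simp only [sg_true, sg_false, mul_neg, mul_one, neg_neg] <;> assumption

/-- the endomorphism `(φ, ψ) ↦ (φ + ψ, φ - ψ)` -/
def gksHom (V : Type) : (V → T) × (V → T) →+ (V → T) × (V → T) where
  toFun x := (x.1 + x.2, x.1 - x.2)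
  map_zero' := by simp
  map_add' x y := by
    simp only [Prod.fst_add, Prod.snd_add, Prod.mk_add_mk, Prod.mk.injEq]
    constructor <;> abel

theorem gks_mp : MeasurePreserving (gksHom V)
    ((Measure.pi fun _ : V => hT).prod (Measure.pi fun _ : V => hT))
    ((Measure.pi fun _ : V => hT).prod (Measure.pi fun _ : V => hT)) := by
  have : BorelSpace (V → T) := inferInstance
  have : (Measure.pi fun _ : V => hT).IsAddHaarMeasure := inferInstance
  have : BorelSpace ((V → T) × (V → T)) := Prod.borelSpace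
  have : ((Measure.pi fun _ : V => hT).prod (Measure.pi fun _ : V => hT)).IsAddHaarMeasure :=
    Measure.prod.instIsAddHaarMeasure _ _
  refine AddMonoidHom.measurePreserving ?_ ?_ rfl
  · change Continuous fun x : (V → T) × (V → T) => (x.1 + x.2, x.1 - x.2)
    fun_prop
  · rintro ⟨θ, θ'⟩
    have : ∀ t : T, ∃ s : T, s + s = t := by
      intro t
      induction t using QuotientAddGroup.induction_on with
      | H x => exact ⟨((x / 2 : ℝ) : T), by rw [← AddCircle.coe_add]; congr 1; ring⟩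
    choose hf hhf using this
    refine ⟨(θ - fun v => hf (θ v - θ' v), fun v => hf (θ v - θ' v)), ?_⟩
    change (_, _) = _
    refine Prod.ext (by simp) ?_
    funext v
    simp only [Pi.sub_apply]
    rw [sub_sub, hhf, sub_sub_cancel]

/-- the generators of the Ginibre cone, one copy -/
def gksU (i : E ⊕ E) (φ : V → T) : ℝ :=
  Sum.elim (fun e => cs (φ (G.p e) - φ (G.q e))) (fun e => sn (φ (G.p e) - φ (G.q e))) i

theorem gksU_continuous (i : E ⊕ E) : Continuous (gksU G i) := by
  unfold gksU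
  cases i <;> simp only [Sum.elim_inl, Sum.elim_inr] <;> fun_prop

theorem ginibre_prod (K K' : E → ℝ) : G.ZX K * G.ZX K' =
    ∫ x, exp (∑ i, Sum.elim (fun e => K' e + K e) (fun e => K' e - K e) i *
      (gksU G i x.1 * gksU G i x.2))
      ∂((Measure.pi fun _ : V => hT).prod (Measure.pi fun _ : V => hT)) := by
  unfold Gr.ZX
  rw [← integral_prod_mul]
  have hc : Continuous fun z : (V → T) × (V → T) =>
      exp (∑ e, K e * cs (z.1 (G.p e) - z.1 (G.q e))) *
        exp (∑ e, K' e * cs (z.2 (G.p e) - z.2 (G.q e))) := by fun_prop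
  conv_lhs => rw [← (gks_mp (V := V)).map_eq]
  rw [integral_map gks_mp.measurable.aemeasurable hc.aestronglyMeasurable]
  refine integral_congr_ae (ae_of_all _ fun x => ?_)
  simp only [Fintype.sum_sum_type, Sum.elim_inl, Sum.elim_inr, gksU]
  rw [← exp_add, ← sum_add_distrib, ← sum_add_distrib]
  congr 1
  refine sum_congr rfl fun e _ => ?_
  change K e * cs (x.1 (G.p e) + x.2 (G.p e) - (x.1 (G.q e) + x.2 (G.q e))) +
    K' e * cs (x.1 (G.p e) - x.2 (G.p e) - (x.1 (G.q e) - x.2 (G.q e))) = _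
  rw [show x.1 (G.p e) + x.2 (G.p e) - (x.1 (G.q e) + x.2 (G.q e))
      = (x.1 (G.p e) - x.1 (G.q e)) + (x.2 (G.p e) - x.2 (G.q e)) by abel,
    show x.1 (G.p e) - x.2 (G.p e) - (x.1 (G.q e) - x.2 (G.q e))
      = (x.1 (G.p e) - x.1 (G.q e)) - (x.2 (G.p e) - x.2 (G.q e)) by abel, cs_add,
    cs_sub (x.1 (G.p e) - x.1 (G.q e))]
  ring

/-- The endomorphism `(φ, ψ) ↦ (φ + ψ, φ - ψ)` of `(V → T) × (V → T)` is onto, so it preserves Haar
measure (`AddMonoidHom.measurePreserving`); the exponent becomes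
`∑ (K + K') cs φ_e cs ψ_e ± (K - K') sn φ_e sn ψ_e` and monomials integrate to squares. -/
theorem ginibre_dup (K₁ K₂ K₃ K₄ : E → ℝ) (ha : ∀ e, |K₄ e + K₃ e| ≤ K₂ e + K₁ e)
    (hb : ∀ e, |K₄ e - K₃ e| ≤ K₂ e - K₁ e) :
    G.ZX K₃ * G.ZX K₄ ≤ G.ZX K₁ * G.ZX K₂ := by
  rw [ginibre_prod, ginibre_prod]
  refine gks_abs (u := fun i (x : (V → T) × (V → T)) => gksU G i x.1 * gksU G i x.2)
    (fun i => ((gksU_continuous G i).comp continuous_fst).mul
      ((gksU_continuous G i).comp continuous_snd)) (fun n => ?_) ?_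
  · simp only [mul_pow, prod_mul_distrib]
    rw [integral_prod_mul (fun φ => ∏ i, gksU G i φ ^ n i) (fun φ => ∏ i, gksU G i φ ^ n i)]
    exact mul_self_nonneg _
  · rintro (e | e)
    · exact ha e
    · exact hb e

/-- the couplings `J x_p x_q` satisfy the hypotheses of the duplication lemmas -/
theorem dup_cond {J x y x' y' : ℝ} (hJ : 0 ≤ J) (hx : 0 ≤ x) (hy : 0 ≤ y) (hx' : 0 ≤ x')
    (hy' : 0 ≤ y') :
    |J * (x' * y') + J * (x * y)| ≤ J * (max x x' * max y y') + J * (min x x' * min y y') ∧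
    |J * (x' * y') - J * (x * y)| ≤ J * (max x x' * max y y') - J * (min x x' * min y y') := by
  have m0 : 0 ≤ min x x' := le_min hx hx'
  have m1 : 0 ≤ min y y' := le_min hy hy'
  have a1 : min x x' * min y y' ≤ x * y :=
    mul_le_mul (min_le_left _ _) (min_le_left _ _) m1 hx
  have a2 : min x x' * min y y' ≤ x' * y' :=
    mul_le_mul (min_le_right _ _) (min_le_right _ _) m1 hx'
  have a3 : x * y ≤ max x x' * max y y' :=
    mul_le_mul (le_max_left _ _) (le_max_left _ _) hy (le_max_of_le_left hx)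
  have a4 : x' * y' ≤ max x x' * max y y' :=
    mul_le_mul (le_max_right _ _) (le_max_right _ _) hy' (le_max_of_le_left hx)
  have a5 : x' * y' + x * y ≤ max x x' * max y y' + min x x' * min y y' := by
    rcases le_total x x' with h | h <;> rcases le_total y y' with h' | h' <;>
      simp only [max_eq_left, max_eq_right, min_eq_left, min_eq_right, h, h'] <;>
      nlinarith [mul_nonneg (sub_nonneg.2 h) (sub_nonneg.2 h')]
  constructor
  · rw [abs_of_nonneg (by positivity), ← mul_add, ← mul_add]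
    exact mul_le_mul_of_nonneg_left a5 hJ
  · rw [← mul_sub, ← mul_sub, abs_mul, abs_of_nonneg hJ]
    exact mul_le_mul_of_nonneg_left (abs_le.2 ⟨by linarith, by linarith⟩) hJ

theorem gks_hat_nonneg (a : unitInterval) : 0 ≤ hat a := sqrt_nonneg _

theorem gks_hat_anti : Antitone hat := fun a b h => by
  refine sqrt_le_sqrt (sub_le_sub_left ?_ 1)
  exact pow_le_pow_left₀ a.2.1 h 2

@[fun_prop] theorem gks_hat_continuous : Continuous hat := by
  unfold hat
  fun_prop

theorem gks_hat_inf (a a' : V → unitInterval) (v : V) :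
    hat ((a ⊓ a') v) = max (hat (a v)) (hat (a' v)) := gks_hat_anti.map_min

theorem gks_hat_sup (a a' : V → unitInterval) (v : V) :
    hat ((a ⊔ a') v) = min (hat (a v)) (hat (a' v)) := gks_hat_anti.map_max

theorem yok_YI {J : E → ℝ} (hJ : ∀ e, 0 ≤ J e) : YOK (G.YI J) := by
  refine ⟨?_, fun a => ?_, fun a a' => ?_⟩
  · unfold Gr.YI Gr.ZI
    fun_prop
  · unfold Gr.YI Gr.ZI
    exact mul_pos (by positivity) (sum_pos (fun _ _ => exp_pos _) univ_nonempty)
  · have hU : SubG (univ : Finset (V → Bool)) := ⟨mem_univ _, fun _ _ _ _ => mem_univ _⟩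
    unfold Gr.YI
    simp only [gks_hat_inf, gks_hat_sup]
    have h := gks_dup G hU hU subset_rfl _ _ _ _
      (fun e => (dup_cond (hJ e) (gks_hat_nonneg (a (G.p e))) (gks_hat_nonneg (a (G.q e)))
        (gks_hat_nonneg (a' (G.p e))) (gks_hat_nonneg (a' (G.q e)))).1)
      (fun e => (dup_cond (hJ e) (gks_hat_nonneg _) (gks_hat_nonneg _) (gks_hat_nonneg _)
        (gks_hat_nonneg _)).2)
    have h0 : (0 : ℝ) ≤ (2 ^ Fintype.card V)⁻¹ * (2 ^ Fintype.card V)⁻¹ := by positivity
    have h1 := mul_le_mul_of_nonneg_left h h0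
    linarith

theorem yok_YX {J : E → ℝ} (hJ : ∀ e, 0 ≤ J e) : YOK (G.YX J) := by
  refine ⟨?_, fun a => ?_, fun a a' => ?_⟩
  · have := continuous_parametric_integral_of_continuous (μ := Measure.pi fun _ : V => hT)
      (f := fun (a : V → unitInterval) (θ : V → T) =>
        exp (∑ e, J e * (hat (a (G.p e)) * hat (a (G.q e))) * cs (θ (G.p e) - θ (G.q e))))
      (by unfold Function.uncurry; fun_prop) isCompact_univ
    simp only [Measure.restrict_univ] at this
    exact this
  · exact integral_exp_pos (cint (by fun_prop))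
  · unfold Gr.YX
    simp only [gks_hat_inf, gks_hat_sup]
    rw [mul_comm (G.ZX fun e => J e * (max _ _ * max _ _))]
    exact ginibre_dup G _ _ _ _
      (fun e => (dup_cond (hJ e) (gks_hat_nonneg _) (gks_hat_nonneg _) (gks_hat_nonneg _)
        (gks_hat_nonneg _)).1)
      (fun e => (dup_cond (hJ e) (gks_hat_nonneg _) (gks_hat_nonneg _) (gks_hat_nonneg _)
        (gks_hat_nonneg _)).2)

end Crest.Agent.R167
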