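import Crest.Agent.R167.Four
import Crest.Agent.R167.Gks
import Crest.Agent.R167.FK

/-! Row 167: positive association and domination by the wired model. -/

set_option autoImplicit false
set_option linter.unusedSectionVars false

open MeasureTheory Finset Real

noncomputable section
namespace Crest.Agent.R167

variable {V E : Type} [Fintype V] [DecidableEq V] [Fintype E] [DecidableEq E] (G : Gr V E)

/-- unnormalised probability -/
def amW (H : Finset (V → Bool)) (K : E → ℝ) (A : (E → Bool) → Prop) : ℝ :=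
  ∑ ω, ew K ω * G.NH H ω * ind (A ω)

theorem am_NH_nonneg (H : Finset (V → Bool)) (ω : E → Bool) : 0 ≤ G.NH H ω :=
  sum_nonneg fun _ _ => ind_nonneg _

theorem amW_nonneg (H : Finset (V → Bool)) {K : E → ℝ} (hK : ∀ e, 0 ≤ K e)
    (A : (E → Bool) → Prop) : 0 ≤ amW G H K A :=
  sum_nonneg fun ω _ => mul_nonneg (mul_nonneg (ew_nonneg hK ω) (am_NH_nonneg G H ω)) (ind_nonneg _)

theorem amW_true (H : Finset (V → Bool)) (K : E → ℝ) : amW G H K (fun _ => True) = G.ZI H K := by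
  simp [amW, sum_ew_NH]

theorem am_KK_nonneg {J : E → ℝ} (hJ : ∀ e, 0 ≤ J e) (a : V → unitInterval) (e : E) :
    0 ≤ G.KK J a e := mul_nonneg (hJ e) (mul_nonneg (a _).2.1 (a _).2.1)

theorem am_KK_mono {J : E → ℝ} (hJ : ∀ e, 0 ≤ J e) {a a' : V → unitInterval} (h : a ≤ a') (e : E) :
    G.KK J a e ≤ G.KK J a' e :=
  mul_le_mul_of_nonneg_left (mul_le_mul (h _) (h _) (a _).2.1 (a' _).2.1) (hJ e)

theorem am_JL_nonneg {J : E → ℝ} (hJ : ∀ e, 0 ≤ J e) (Λ : Finset V) (e : E) :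
    0 ≤ G.JL Λ J e := by
  unfold Gr.JL; split_ifs
  exacts [hJ e, le_rfl]

theorem am_cont_KK (J : E → ℝ) (e : E) : Continuous fun a : V → unitInterval => G.KK J a e := by
  unfold Gr.KK; fun_prop

theorem am_cont_W (H : Finset (V → Bool)) (J : E → ℝ) (A : (E → Bool) → Prop) :
    Continuous fun a : V → unitInterval => amW G H (G.KK J a) A := by
  unfold amW ew
  refine continuous_finsetSum _ fun ω _ => ?_
  refine (Continuous.mul ?_ continuous_const).mul continuous_const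
  refine continuous_finsetProd _ fun e _ => ?_
  have := am_cont_KK G J e
  split_ifs <;> fun_prop

theorem am_cont_Z (H : Finset (V → Bool)) (J : E → ℝ) :
    Continuous fun a : V → unitInterval => G.ZI H (G.KK J a) := by
  simpa only [amW_true] using am_cont_W G H J fun _ => True

theorem am_gks {H₁ H₂ : Finset (V → Bool)} (h₁ : SubG H₁) (h₂ : SubG H₂) (h : H₂ ⊆ H₁)
    {J : E → ℝ} (hJ : ∀ e, 0 ≤ J e) (x x' : V → unitInterval) :
    G.ZI H₁ (G.KK J x) * G.ZI H₂ (G.KK J x') ≤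
      G.ZI H₁ (G.KK J (x ⊓ x')) * G.ZI H₂ (G.KK J (x ⊔ x')) := by
  have hmax : ∀ u v : unitInterval, ((u ⊔ v : unitInterval) : ℝ) = max (u : ℝ) v := by
    intro u v
    rcases le_total u v with h | h
    · rw [sup_eq_right.2 h, max_eq_right (show (u : ℝ) ≤ v from h)]
    · rw [sup_eq_left.2 h, max_eq_left (show (v : ℝ) ≤ u from h)]
  have hmin : ∀ u v : unitInterval, ((u ⊓ v : unitInterval) : ℝ) = min (u : ℝ) v := by
    intro u v
    rcases le_total u v with h | h
    · rw [inf_eq_left.2 h, min_eq_left (show (u : ℝ) ≤ v from h)]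
    · rw [inf_eq_right.2 h, min_eq_right (show (v : ℝ) ≤ u from h)]
  refine gks_dup G h₁ h₂ h _ _ _ _ (fun e => ?_) (fun e => ?_)
  · simp only [Gr.KK, Pi.sup_apply, Pi.inf_apply, hmax, hmin]
    exact (dup_cond (hJ e) (x _).2.1 (x _).2.1 (x' _).2.1 (x' _).2.1).1
  · simp only [Gr.KK, Pi.sup_apply, Pi.inf_apply, hmax, hmin]
    exact (dup_cond (hJ e) (x _).2.1 (x _).2.1 (x' _).2.1 (x' _).2.1).2

theorem am_ph_mono {H₁ H₂ : Finset (V → Bool)} (h₁ : SubG H₁) (h₂ : SubG H₂) (h : H₂ ⊆ H₁)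
    {J : E → ℝ} (hJ : ∀ e, 0 ≤ J e) {x x' : V → unitInterval} (hx : x ≤ x')
    {A : (E → Bool) → Prop} (hA : Up A) :
    amW G H₁ (G.KK J x) A / G.ZI H₁ (G.KK J x) ≤ amW G H₂ (G.KK J x') A / G.ZI H₂ (G.KK J x') := by
  rw [div_le_div_iff₀ (ZI_pos G h₁ _) (ZI_pos G h₂ _), mul_comm (amW G H₂ _ _)]
  exact fk_holley G h₁ h₂ h (am_KK_nonneg G hJ x) (am_KK_mono G hJ hx) hA

theorem am_Aw_eq (lam : Measure unitInterval) (Y : (V → unitInterval) → ℝ) (J : E → ℝ)
    (Λ : Finset V) (A : (E → Bool) → Prop) :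
    G.Aw lam Y J Λ A = ∫ a, Y (Λ.piecewise a fun _ => 1) *
      amW G (pol Λ) (G.KK (G.JL Λ J) (Λ.piecewise a fun _ => 1)) A ∂Measure.pi fun _ => lam := rfl

theorem am_Aw_univ (lam : Measure unitInterval) (Y : (V → unitInterval) → ℝ) (J : E → ℝ)
    (A : (E → Bool) → Prop) :
    G.Aw lam Y J univ A = ∫ a, Y a * amW G (pol univ) (G.KK J a) A ∂Measure.pi fun _ => lam := by
  simp only [am_Aw_eq, Finset.piecewise_univ, Gr.JL_univ]

theorem am_rho {H₁ H₂ : Finset (V → Bool)} (h₁ : SubG H₁) (h₂ : SubG H₂) (h : H₂ ⊆ H₁)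
    {Y : (V → unitInterval) → ℝ} (hY : YOK Y) {J : E → ℝ} (hJ : ∀ e, 0 ≤ J e)
    (x x' : V → unitInterval) :
    (Y x * G.ZI H₁ (G.KK J x)) * (Y x' * G.ZI H₂ (G.KK J x')) ≤
      (Y (x ⊓ x') * G.ZI H₁ (G.KK J (x ⊓ x'))) * (Y (x ⊔ x') * G.ZI H₂ (G.KK J (x ⊔ x'))) := by
  have := mul_le_mul (hY.y4 x x') (am_gks G h₁ h₂ h hJ x x')
    (mul_pos (ZI_pos G h₁ _) (ZI_pos G h₂ _)).le (mul_pos (hY.pos _) (hY.pos _)).le
  calc _ = Y x * Y x' * (G.ZI H₁ (G.KK J x) * G.ZI H₂ (G.KK J x')) := by ring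
    _ ≤ _ := this
    _ = _ := by ring

/-- the inequality for fixed outer data -/
theorem am_inner (lam : Measure unitInterval) [IsProbabilityMeasure lam]
    {Y : (V → unitInterval) → ℝ} (hY : YOK Y) {J : E → ℝ} (hJ : ∀ e, 0 ≤ J e) (Λ : Finset V)
    {A : (E → Bool) → Prop} (hA : Up A) {H : Finset (V → Bool)} (hH : SubG H) (h : pol Λ ⊆ H)
    (b : V → unitInterval) :
    (∫ a, Y (Λ.piecewise a b) * amW G H (G.KK (G.JL Λ J) (Λ.piecewise a b)) A
        ∂Measure.pi fun _ => lam) * G.Aw lam Y J Λ (fun _ => True) ≤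
      (∫ a, Y (Λ.piecewise a b) * amW G H (G.KK (G.JL Λ J) (Λ.piecewise a b)) (fun _ => True)
        ∂Measure.pi fun _ => lam) * G.Aw lam Y J Λ A := by
  have hJ' := am_JL_nonneg G hJ Λ
  have hP := subG_pol (V := V) Λ
  have c1 := continuous_pw' Λ b
  have c2 := continuous_pw' (S := unitInterval) Λ fun _ => 1
  rw [am_Aw_eq, am_Aw_eq]
  refine four_int lam _ _ _ _ ((hY.cont.comp c1).mul ((am_cont_W G _ _ _).comp c1))
    ((hY.cont.comp c2).mul ((am_cont_W G _ _ _).comp c2))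
    ((hY.cont.comp c1).mul ((am_cont_W G _ _ _).comp c1))
    ((hY.cont.comp c2).mul ((am_cont_W G _ _ _).comp c2))
    (fun a => mul_nonneg (hY.pos _).le (amW_nonneg G _ (am_KK_nonneg G hJ' _) _))
    (fun a => mul_nonneg (hY.pos _).le (amW_nonneg G _ (am_KK_nonneg G hJ' _) _))
    (fun a => mul_nonneg (hY.pos _).le (amW_nonneg G _ (am_KK_nonneg G hJ' _) _))
    (fun a => mul_nonneg (hY.pos _).le (amW_nonneg G _ (am_KK_nonneg G hJ' _) _)) ?_
  intro a a'
  have e1 : Λ.piecewise (a ⊓ a') b = Λ.piecewise a b ⊓ Λ.piecewise a' fun _ => 1 := by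
    funext v
    by_cases hv : v ∈ Λ
    · simp [hv]
    · simp only [Pi.inf_apply, Finset.piecewise_eq_of_notMem _ _ _ hv]
      exact (inf_eq_left.2 unitInterval.le_one').symm
  have e2 : (Λ.piecewise (a ⊔ a') fun _ => 1) = Λ.piecewise a b ⊔ Λ.piecewise a' fun _ => 1 := by
    funext v
    by_cases hv : v ∈ Λ
    · simp [hv]
    · simp only [Pi.sup_apply, Finset.piecewise_eq_of_notMem _ _ _ hv]
      exact (sup_eq_right.2 unitInterval.le_one').symm
  simp only [amW_true]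
  rw [e1, e2]
  generalize Λ.piecewise a b = x
  generalize (Λ.piecewise a' fun _ => (1 : unitInterval)) = x'
  have h1 := am_rho G hH hP h hY hJ' x x'
  have h2 := am_ph_mono G hH hP h hJ' (le_sup_left (a := x) (b := x')) hA
  have z1 := ZI_pos G hH (G.KK (G.JL Λ J) x)
  have z2 := ZI_pos G hP (G.KK (G.JL Λ J) (x ⊔ x'))
  have h3 := mul_le_mul h1 h2 (div_nonneg (amW_nonneg G _ (am_KK_nonneg G hJ' _) _) z1.le)
    (mul_pos (mul_pos (hY.pos _) (ZI_pos G hH _)) (mul_pos (hY.pos _) z2)).le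
  calc _ = _ := by field_simp
    _ ≤ _ := h3
    _ = _ := by field_simp

theorem am_ew_zero {K : E → ℝ} {ω : E → Bool} (h : ew K ω ≠ 0) (e : E) (he : K e = 0) :
    ω e = false := by
  by_contra h'
  apply h
  refine Finset.prod_eq_zero (mem_univ e) ?_
  have : ω e = true := by simpa using h'
  simp [this, he]

open Classical in
theorem am_split (J : E → ℝ) (Λ : Finset V) {A B : (E → Bool) → Prop} (dA : Dep (G.Touch Λ) A)
    (dB : Dep (fun e => ¬ G.Touch Λ e) B) (a b : V → unitInterval) :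
    amW G (pol univ) (G.KK J (Λ.piecewise a b)) (fun ω => A ω ∧ B ω) =
      ∑ η, (ew (fun e => if G.Touch Λ e then 0 else G.KK J b e) η * ind (B η)) *
        amW G (univ.filter fun ξ : V → Bool => G.Cst η ξ) (G.KK (G.JL Λ J) (Λ.piecewise a b)) A := by
  have e : G.KK J (Λ.piecewise a b) = fun e => G.KK (G.JL Λ J) (Λ.piecewise a b) e +
      (if G.Touch Λ e then 0 else G.KK J b e) := by
    funext e
    by_cases he : G.Touch Λ e
    · simp [Gr.KK, Gr.JL, he]
    · have he' := he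
      rw [Gr.Touch, not_or] at he'
      simp [Gr.KK, Gr.JL, he, he'.1, he'.2]
  rw [e]
  unfold amW
  simp only [mul_assoc]
  rw [ew_split]
  refine sum_congr rfl fun η _ => ?_
  by_cases hη : ew (fun e => if G.Touch Λ e then 0 else G.KK J b e) η = 0
  · rw [hη, zero_mul, zero_mul]
  congr 1
  rw [mul_sum]
  refine sum_congr rfl fun ω _ => ?_
  by_cases hω : ew (G.KK (G.JL Λ J) (Λ.piecewise a b)) ω = 0
  · rw [hω]; simp
  have h1 : ∀ e, G.Touch Λ e → η e = false := fun e he => am_ew_zero hη e (if_pos he)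
  have h2 : ∀ e, ¬ G.Touch Λ e → ω e = false := fun e he =>
    am_ew_zero hω e (by simp [Gr.KK, Gr.JL, he])
  have hA : A (ω ⊔ η) ↔ A ω :=
    ⟨dA _ _ fun e he => by simp [h1 e he], dA _ _ fun e he => by simp [h1 e he]⟩
  have hB : B (ω ⊔ η) ↔ B η :=
    ⟨dB _ _ fun e he => by simp [h2 e he], dB _ _ fun e he => by simp [h2 e he]⟩
  have hN : G.NH (pol univ) (ω ⊔ η) = G.NH (univ.filter fun ξ : V → Bool => G.Cst η ξ) ω := by
    have : pol (univ : Finset V) = univ := by
      ext ξ; simp [pol]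
    rw [this, Gr.NH, Gr.NH, sum_filter]
    refine sum_congr rfl fun ξ _ => ?_
    have hc : G.Cst (ω ⊔ η) ξ ↔ G.Cst η ξ ∧ G.Cst ω ξ := by
      simp only [Gr.Cst, Pi.sup_apply]
      constructor
      · intro h
        exact ⟨fun e he => h e (by simp [he]), fun e he => h e (by simp [he])⟩
      · rintro ⟨h, h'⟩ e he
        cases hω : ω e
        · exact h e (by simpa [hω] using he)
        · exact h' e hω
    split_ifs with hc'
    · exact ind_congr (by simp [hc, hc'])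
    · exact ind_of_not (by simp [hc, hc'])
  rw [hN, ind_and, ind_congr hA, ind_congr hB]
  ring

/-- For fixed `a` use `fk_fkg`; the conditional probabilities `a ↦ φ_{K(a)}(A)` are monotone
(`fk_holley` with `H₁ = H₂`) and continuous; then `four_int` with `ρ = Y * ZI` (log-supermodular by
`gks_dup`, `dup_cond`) and `f₁ = ρ φ(A)`, `f₂ = ρ φ(B)`, `f₃ = ρ`, `f₄ = ρ φ(A) φ(B)`. -/
theorem A_fkg (lam : Measure unitInterval) [IsProbabilityMeasure lam]
    {Y : (V → unitInterval) → ℝ} (hY : YOK Y) {J : E → ℝ} (hJ : ∀ e, 0 ≤ J e)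
    {A B : (E → Bool) → Prop} (hA : Up A) (hB : Up B) :
    G.Aw lam Y J univ A * G.Aw lam Y J univ B ≤
      G.Aw lam Y J univ (fun _ => True) * G.Aw lam Y J univ fun ω => A ω ∧ B ω := by
  have hP := subG_pol (V := V) univ
  simp only [am_Aw_univ]
  refine four_int lam _ _ _ _ (hY.cont.mul (am_cont_W G _ _ _)) (hY.cont.mul (am_cont_W G _ _ _))
    (hY.cont.mul (am_cont_W G _ _ _)) (hY.cont.mul (am_cont_W G _ _ _))
    (fun a => mul_nonneg (hY.pos _).le (amW_nonneg G _ (am_KK_nonneg G hJ _) _))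
    (fun a => mul_nonneg (hY.pos _).le (amW_nonneg G _ (am_KK_nonneg G hJ _) _))
    (fun a => mul_nonneg (hY.pos _).le (amW_nonneg G _ (am_KK_nonneg G hJ _) _))
    (fun a => mul_nonneg (hY.pos _).le (amW_nonneg G _ (am_KK_nonneg G hJ _) _)) ?_
  intro x x'
  simp only [amW_true]
  have h1 := am_rho G hP hP Subset.rfl hY hJ x x'
  have h2 := am_ph_mono G hP hP Subset.rfl hJ (le_sup_left (a := x) (b := x')) hA
  have h2' := am_ph_mono G hP hP Subset.rfl hJ (le_sup_right (a := x) (b := x')) hB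
  have z1 := ZI_pos G hP (G.KK J x)
  have z1' := ZI_pos G hP (G.KK J x')
  have z2 := ZI_pos G hP (G.KK J (x ⊔ x'))
  have h4 : amW G (pol univ) (G.KK J (x ⊔ x')) A / G.ZI (pol univ) (G.KK J (x ⊔ x')) *
      (amW G (pol univ) (G.KK J (x ⊔ x')) B / G.ZI (pol univ) (G.KK J (x ⊔ x'))) ≤
      amW G (pol univ) (G.KK J (x ⊔ x')) (fun ω => A ω ∧ B ω) /
        G.ZI (pol univ) (G.KK J (x ⊔ x')) := by
    rw [div_mul_div_comm, div_le_div_iff₀ (mul_pos z2 z2) z2]
    have := mul_le_mul_of_nonneg_right (fk_fkg G hP (am_KK_nonneg G hJ (x ⊔ x')) hA hB) z2.le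
    calc _ ≤ _ := this
      _ = _ := by unfold amW; ring
  have n1 := div_nonneg (amW_nonneg G (pol univ) (am_KK_nonneg G hJ x) A) z1.le
  have n2 := div_nonneg (amW_nonneg G (pol univ) (am_KK_nonneg G hJ x') B) z1'.le
  have h3 := mul_le_mul h1 ((mul_le_mul h2 h2' n2 (n1.trans h2)).trans h4) (mul_nonneg n1 n2)
    (mul_pos (mul_pos (hY.pos _) (ZI_pos G hP _)) (mul_pos (hY.pos _) z2)).le
  calc _ = _ := by field_simp
    _ ≤ _ := h3
    _ = _ := by field_simp

/-- Write `∫ da = ∫ db ∫ da (Λ.piecewise a b)` (`int_pw`), split `K = K_in + K_out` (`ew_split`;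
`K_out` depends only on `b`, and `ew K_out η = 0` unless `η` lives on edges not touching `Λ`,
`ew K_in ω = 0` unless `ω` lives on edges touching `Λ`).  For fixed `b, η` put
`H₁ = {ξ | Cst η ξ} ⊇ pol Λ`; `fk_holley` bounds the inner sum by `ZI H₁ K_in * φ^w_{a}(A)`, with
`φ^w` monotone in `a`; then `four_int` with `f₁ = ZI H₁ * Y * φ^w` at `piecewise a b`,
`f₂ = ZI (pol Λ) * Y` at `piecewise a 1`, `f₃ = ZI H₁ * Y`, `f₄ = ZI (pol Λ) * Y * φ^w`. -/
theorem A_dom (lam : Measure unitInterval) [IsProbabilityMeasure lam]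
    {Y : (V → unitInterval) → ℝ} (hY : YOK Y) {J : E → ℝ} (hJ : ∀ e, 0 ≤ J e) (Λ : Finset V)
    {A B : (E → Bool) → Prop} (hA : Up A) (dA : Dep (G.Touch Λ) A)
    (dB : Dep (fun e => ¬ G.Touch Λ e) B) :
    (G.Aw lam Y J univ fun ω => A ω ∧ B ω) * G.Aw lam Y J Λ (fun _ => True) ≤
      G.Aw lam Y J univ B * G.Aw lam Y J Λ A := by
  classical
  have hJ' := am_JL_nonneg G hJ Λ
  have hB : B = fun ω => (fun _ => True) ω ∧ B ω := by funext ω; simp
  have cF : ∀ C : (E → Bool) → Prop,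
      Continuous fun a : V → unitInterval => Y a * amW G (pol univ) (G.KK J a) C :=
    fun C => hY.cont.mul (am_cont_W G _ _ _)
  have iF : ∀ C : (E → Bool) → Prop, Integrable (fun b : V → unitInterval => ∫ a,
      Y (Λ.piecewise a b) * amW G (pol univ) (G.KK J (Λ.piecewise a b)) C
        ∂(Measure.pi fun _ => lam)) (Measure.pi fun _ => lam) := fun C =>
    (cint (μ := (Measure.pi fun _ => lam).prod (Measure.pi fun _ => lam))
      ((cF C).comp (continuous_pw Λ))).integral_prod_right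
  have dec : ∀ (A' : (E → Bool) → Prop), Dep (G.Touch Λ) A' → ∀ b : V → unitInterval,
      ∫ a, Y (Λ.piecewise a b) * amW G (pol univ) (G.KK J (Λ.piecewise a b)) (fun ω => A' ω ∧ B ω)
        ∂(Measure.pi fun _ => lam) =
      ∑ η, (ew (fun e => if G.Touch Λ e then 0 else G.KK J b e) η * ind (B η)) *
        ∫ a, Y (Λ.piecewise a b) * amW G (univ.filter fun ξ : V → Bool => G.Cst η ξ)
          (G.KK (G.JL Λ J) (Λ.piecewise a b)) A' ∂(Measure.pi fun _ => lam) := by
    intro A' dA' b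
    have c1 := continuous_pw' Λ b
    simp only [← integral_const_mul]
    rw [← integral_finsetSum]
    · refine integral_congr_ae (Filter.Eventually.of_forall fun a => ?_)
      simp only
      rw [am_split G J Λ dA' dB, mul_sum]
      refine sum_congr rfl fun η _ => ?_
      ring
    · intro η _
      exact cint (continuous_const.mul ((hY.cont.comp c1).mul ((am_cont_W G _ _ _).comp c1)))
  rw [am_Aw_univ, am_Aw_univ, int_pw Λ (cF _), int_pw Λ (cF _), ← integral_mul_const,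
    ← integral_mul_const]
  refine integral_mono ((iF _).mul_const _) ((iF _).mul_const _) fun b => ?_
  simp only
  conv_rhs => rw [hB]
  rw [dec A dA, dec (fun _ => True) (fun _ _ _ h => h), sum_mul, sum_mul]
  refine sum_le_sum fun η _ => ?_
  by_cases hη : ew (fun e => if G.Touch Λ e then 0 else G.KK J b e) η = 0
  · simp [hη]
  rw [mul_assoc, mul_assoc (_ * _)]
  refine mul_le_mul_of_nonneg_left ?_ (mul_nonneg (ew_nonneg (fun e => ?_) _) (ind_nonneg _))
  · refine am_inner G lam hY hJ Λ hA (by convert subG_cst G η) (fun ξ hξ => ?_) b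
    rw [mem_filter]
    refine ⟨mem_univ _, fun e he => ?_⟩
    have ht : ¬ G.Touch Λ e := fun h => by
      rw [am_ew_zero hη e (if_pos h)] at he
      exact Bool.false_ne_true he
    rw [Gr.Touch, not_or] at ht
    have := (mem_filter.1 hξ).2
    rw [this _ ht.1, this _ ht.2]
  · split_ifs
    exacts [le_rfl, am_KK_nonneg G hJ b e]

end Crest.Agent.R167
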