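import Crest.Agent.R167.Basic

/-! Row 167: polynomial decay of arm events. -/

set_option autoImplicit false
set_option linter.unusedSectionVars false

open MeasureTheory Finset Real

noncomputable section
namespace Crest.Agent.R167

variable {V E : Type} [Fintype V] [DecidableEq V] [Fintype E] [DecidableEq E] (G : Gr V E)

theorem Arm_card_box {pos : V → ℤ × ℤ} {U : Finset V}
    (hinj : ∀ u ∈ U, ∀ v ∈ U, pos u = pos v → u = v) (c : ℤ × ℤ) (R : ℕ) (Λ : Finset V)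
    (hΛ : ∀ v ∈ Λ, v ∈ U ∧ nrm (pos v - c) ≤ R) : Λ.card ≤ (2 * R + 1) ^ 2 := by
  have h : Λ.card ≤ (Finset.Icc (c.1 - R) (c.1 + R) ×ˢ Finset.Icc (c.2 - R) (c.2 + R)).card := by
    refine card_le_card_of_injOn pos (fun v hv => ?_) (fun u hu v hv h => ?_)
    · have := (hΛ v hv).2
      simp only [nrm, Prod.fst_sub, Prod.snd_sub] at this
      simp only [coe_product, Set.mem_prod, coe_Icc, Set.mem_Icc]
      omega
    · exact hinj u (hΛ u hu).1 v (hΛ v hv).1 h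
  rw [card_product, Int.card_Icc, Int.card_Icc] at h
  have e1 : (c.1 + R + 1 - (c.1 - R)).toNat = 2 * R + 1 := by omega
  have e2 : (c.2 + R + 1 - (c.2 - R)).toNat = 2 * R + 1 := by omega
  rw [e1, e2] at h
  nlinarith

theorem Arm_card_touch (Λ : Finset V) (hd : ∀ v ∈ Λ, G.deg v ≤ 4) :
    (univ.filter fun e => G.Touch Λ e).card ≤ 4 * Λ.card := by
  have h : (univ.filter fun e => G.Touch Λ e) ⊆
      Λ.biUnion fun v => (univ.filter fun e => G.p e = v) ∪ (univ.filter fun e => G.q e = v) := by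
    intro e he
    rw [mem_filter] at he
    rw [mem_biUnion]
    rcases he.2 with h | h
    · exact ⟨_, h, by simp⟩
    · exact ⟨_, h, by simp⟩
  refine (card_le_card h).trans (card_biUnion_le.trans ?_)
  calc ∑ v ∈ Λ, ((univ.filter fun e => G.p e = v) ∪ (univ.filter fun e => G.q e = v)).card
      ≤ ∑ _v ∈ Λ, 4 := sum_le_sum fun v hv => (card_union_le _ _).trans (hd v hv)
    _ = 4 * Λ.card := by simp [mul_comm]

theorem Arm_sum_touch (Λ : Finset V) (hd : ∀ v ∈ Λ, G.deg v ≤ 4) (f : E → ℝ) {b : ℝ}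
    (hb : 0 ≤ b) (hf : ∀ e, G.Touch Λ e → f e ≤ b) :
    ∑ e, (if G.Touch Λ e then f e else 0) ≤ 4 * Λ.card * b := by
  rw [← sum_filter]
  have h1 : ∑ e ∈ univ.filter (fun e => G.Touch Λ e), f e ≤
      (univ.filter fun e => G.Touch Λ e).card • b :=
    sum_le_card_nsmul _ _ _ fun e he => hf e (mem_filter.1 he).2
  rw [nsmul_eq_mul] at h1
  have h2 : ((univ.filter fun e => G.Touch Λ e).card : ℝ) ≤ 4 * Λ.card := by
    exact_mod_cast Arm_card_touch G Λ hd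
  exact h1.trans (mul_le_mul_of_nonneg_right h2 hb)

/-- clamp to the unit interval -/
def Arm_cl (t : ℝ) : ℝ := max 0 (min 1 t)

theorem Arm_cl_one {t : ℝ} (h : 1 ≤ t) : Arm_cl t = 1 := by
  rw [Arm_cl, min_eq_left h, max_eq_right zero_le_one]

theorem Arm_cl_zero {t : ℝ} (h : t ≤ 0) : Arm_cl t = 0 :=
  max_eq_left ((min_le_right _ _).trans h)

theorem Arm_cl_lip (s t : ℝ) : (Arm_cl s - Arm_cl t) ^ 2 ≤ (s - t) ^ 2 := by
  rw [sq_le_sq]
  have h1 := abs_max_sub_max_le_abs (min 1 s) (min 1 t) 0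
  have h2 := abs_min_sub_min_le_max 1 s 1 t
  rw [sub_self, abs_zero, max_eq_right (abs_nonneg _)] at h2
  rw [Arm_cl, Arm_cl, max_comm 0, max_comm 0]
  exact h1.trans h2

theorem Arm_cl_div {a b : ℕ} (h1 : a ≤ b + 1) (h2 : b ≤ a + 1) (A ρ : ℝ) (hρ : 0 < ρ) :
    (Arm_cl ((A - a) / ρ) - Arm_cl ((A - b) / ρ)) ^ 2 ≤ 1 / ρ ^ 2 ∧
      (Arm_cl ((a - A) / ρ) - Arm_cl ((b - A) / ρ)) ^ 2 ≤ 1 / ρ ^ 2 := by
  have h1' : (a : ℝ) ≤ b + 1 := by exact_mod_cast h1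
  have h2' : (b : ℝ) ≤ a + 1 := by exact_mod_cast h2
  have h3 : ((a : ℝ) - b) ^ 2 ≤ 1 := by nlinarith
  constructor
  · refine (Arm_cl_lip _ _).trans ?_
    rw [show ((A - a) / ρ - (A - b) / ρ) ^ 2 = ((a : ℝ) - b) ^ 2 / ρ ^ 2 by field_simp; ring]
    exact div_le_div_of_nonneg_right h3 (by positivity)
  · refine (Arm_cl_lip _ _).trans ?_
    rw [show ((a - A) / ρ - (b - A) / ρ) ^ 2 = ((a : ℝ) - b) ^ 2 / ρ ^ 2 by field_simp; ring]
    exact div_le_div_of_nonneg_right h3 (by positivity)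

theorem Arm_nrm_tri (a c : ℤ × ℤ) : nrm a ≤ nrm c + nrm (a - c) := by
  simp only [nrm, Prod.fst_sub, Prod.snd_sub]; omega

theorem Arm_nrm_adj {a b : ℤ × ℤ} (h : (a.1 - b.1).natAbs + (a.2 - b.2).natAbs = 1) (c : ℤ × ℤ) :
    nrm (a - c) ≤ nrm (b - c) + 1 ∧ nrm (b - c) ≤ nrm (a - c) + 1 := by
  simp only [nrm, Prod.fst_sub, Prod.snd_sub]; omega

theorem Arm_nrm_tri2 (c d a : ℤ × ℤ) : nrm (c - d) ≤ nrm (a - c) + nrm (a - d) := by
  simp only [nrm, Prod.fst_sub, Prod.snd_sub]; omega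

/-- an edge with an end well inside `U` has both ends in `U`, at distance one -/
theorem Arm_edge {pos : V → ℤ × ℤ} {U : Finset V} {M : ℕ} (hL : G.Lat pos U M) (c : ℤ × ℤ)
    {R : ℕ} (hR : nrm c + R < M) (e : E)
    (h : G.p e ∈ U ∧ nrm (pos (G.p e) - c) ≤ R ∨ G.q e ∈ U ∧ nrm (pos (G.q e) - c) ≤ R) :
    G.p e ∈ U ∧ G.q e ∈ U ∧ ∀ d, nrm (pos (G.p e) - d) ≤ nrm (pos (G.q e) - d) + 1 ∧
      nrm (pos (G.q e) - d) ≤ nrm (pos (G.p e) - d) + 1 := by
  have h1 := Arm_nrm_tri (pos (G.p e)) c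
  have h2 := Arm_nrm_tri (pos (G.q e)) c
  have h3 : G.p e ∈ U ∧ G.q e ∈ U := by
    refine hL.deep e ?_
    rcases h with h | h
    · exact Or.inl ⟨h.1, by omega⟩
    · exact Or.inr ⟨h.1, by omega⟩
  exact ⟨h3.1, h3.2, fun d => Arm_nrm_adj (hL.adj e h3.1 h3.2) d⟩

theorem Arm_cross {pos : V → ℤ × ℤ} {U : Finset V} {M : ℕ} (hL : G.Lat pos U M) (c : ℤ × ℤ)
    {ρ : ℕ} (hρ : 2 ≤ ρ) (hR : nrm c + ρ < M) (ω : E → Bool) {x y : V} (hx : x ∈ U)
    (hx' : nrm (pos x - c) ≤ ρ) (hy : y ∈ U → 2 * ρ ≤ nrm (pos y - c)) (hc : G.Conn ω x y) :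
    G.Cross (U.filter fun v => nrm (pos v - c) ≤ ρ)
      (U.filter fun v => ρ < nrm (pos v - c) ∧ nrm (pos v - c) < 2 * ρ) ω := by
  rintro ⟨ξ, h1, h2, h3⟩
  have key : ∀ v, ξ v = false → v ∈ U ∧ nrm (pos v - c) < 2 * ρ := by
    intro v hv
    by_contra hn
    have : ξ v = true := by
      refine h3 v (fun h => hn ?_) (fun h => hn ?_)
      · rw [mem_filter] at h; exact ⟨h.1, by omega⟩
      · rw [mem_filter] at h; exact ⟨h.1, h.2.2⟩
    rw [hv] at this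
    exact Bool.false_ne_true this
  have hy' : ξ y = false := by
    clear hy
    induction hc with
    | refl => exact h2 x (mem_filter.2 ⟨hx, hx'⟩)
    | @tail b z _ hbz ih =>
      obtain ⟨e, he, hpq⟩ := hbz
      by_cases ht : G.Touch (U.filter fun v => ρ < nrm (pos v - c) ∧ nrm (pos v - c) < 2 * ρ) e
      · have := h1 e ht he
        rcases hpq with ⟨rfl, rfl⟩ | ⟨rfl, rfl⟩
        · rw [← this]; exact ih
        · rw [this]; exact ih
      · have hb := key b ih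
        simp only [Gr.Touch, mem_filter, not_or, not_and] at ht
        rcases hpq with ⟨rfl, rfl⟩ | ⟨rfl, rfl⟩
        · have a1 := ht.1 hb.1
          have a2 := Arm_edge G hL c hR e (Or.inl ⟨hb.1, by omega⟩)
          have a3 := ht.2 a2.2.1
          have a4 := a2.2.2 c
          exact h2 _ (mem_filter.2 ⟨a2.2.1, by omega⟩)
        · have a1 := ht.2 hb.1
          have a2 := Arm_edge G hL c hR e (Or.inr ⟨hb.1, by omega⟩)
          have a3 := ht.1 a2.1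
          have a4 := a2.2.2 c
          exact h2 _ (mem_filter.2 ⟨a2.1, by omega⟩)
  have a := key y hy'
  have b := hy a.1
  omega

theorem Arm_energy {pos : V → ℤ × ℤ} {U : Finset V} {M : ℕ} (hL : G.Lat pos U M) (c : ℤ × ℤ)
    {ρ : ℕ} (hρ : 2 ≤ ρ) (hR : nrm c + 2 * ρ < M) (g : V → ℝ)
    (hg : ∀ v ∈ U, g v = π * Arm_cl ((2 * ρ - nrm (pos v - c)) / ρ)) :
    ∑ e, (if G.Touch (U.filter fun v => ρ < nrm (pos v - c) ∧ nrm (pos v - c) < 2 * ρ) e then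
      (g (G.p e) - g (G.q e)) ^ 2 else 0) ≤ 640 := by
  have hρ' : (0 : ℝ) < ρ := by exact_mod_cast (by omega : 0 < ρ)
  refine (Arm_sum_touch G _ (fun v hv => hL.deg v (mem_filter.1 hv).1) _
    (b := π ^ 2 * (1 / (ρ : ℝ) ^ 2)) (by positivity) fun e he => ?_).trans ?_
  · have a : G.p e ∈ U ∧ nrm (pos (G.p e) - c) ≤ 2 * ρ ∨
        G.q e ∈ U ∧ nrm (pos (G.q e) - c) ≤ 2 * ρ := by
      rcases he with h | h <;> rw [mem_filter] at h
      · exact Or.inl ⟨h.1, h.2.2.le⟩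
      · exact Or.inr ⟨h.1, h.2.2.le⟩
    obtain ⟨b1, b2, b3⟩ := Arm_edge G hL c hR e a
    rw [hg _ b1, hg _ b2, ← mul_sub, mul_pow]
    exact mul_le_mul_of_nonneg_left (Arm_cl_div (b3 c).1 (b3 c).2 _ _ hρ').1 (by positivity)
  · have h1 := Arm_card_box hL.inj c (2 * ρ - 1)
      (U.filter fun v => ρ < nrm (pos v - c) ∧ nrm (pos v - c) < 2 * ρ) fun v hv => by
        rw [mem_filter] at hv; exact ⟨hv.1, by omega⟩
    have h2 : (2 * (2 * ρ - 1) + 1) ^ 2 ≤ (4 * ρ) ^ 2 := Nat.pow_le_pow_left (by omega) 2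
    have h3 : ((U.filter fun v => ρ < nrm (pos v - c) ∧ nrm (pos v - c) < 2 * ρ).card : ℝ) ≤
        (4 * ρ) ^ 2 := by exact_mod_cast h1.trans h2
    have h4 : π ^ 2 ≤ 10 := by nlinarith [pi_lt_d2, pi_pos]
    calc _ ≤ 4 * (4 * (ρ : ℝ)) ^ 2 * (π ^ 2 * (1 / (ρ : ℝ) ^ 2)) := by gcongr
      _ = 64 * π ^ 2 := by field_simp; ring
      _ ≤ 640 := by linarith

/-- annuli `In = {nrm ≤ r 2^k}`, `Λ = {r 2^k < nrm < r 2^(k+1)}` (inside `U`, centred at `c i`),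
`g = π * clamp ((r 2^(k+1) - nrm) / (r 2^k))` on `U` and `0` outside; at most `4 * 16 (r 2^k)^2`
edges touch `Λ`, so the energy is `≤ 64 π² ≤ 640` -/
theorem lat_arm {β : ℝ} (hβ : 0 ≤ β) {μ : (E → Bool) → ℝ} (hμ : G.FKLaw β μ) {pos : V → ℤ × ℤ}
    {U : Finset V} {M : ℕ} (hL : G.Lat pos U M) (ι : Type) [Fintype ι] (c : ι → ℤ × ℤ) (r κ : ℕ)
    (hr : 2 ≤ r) (hM : ∀ i, nrm (c i) + r * 2 ^ κ < M)
    (hs : ∀ i j, i ≠ j → 2 * (r * 2 ^ κ) ≤ nrm (c i - c j)) :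
    pr μ (fun ω => ∀ i, ∃ x y, x ∈ U ∧ nrm (pos x - c i) ≤ r ∧
      (y ∈ U → r * 2 ^ κ ≤ nrm (pos y - c i)) ∧ G.Conn ω x y) ≤
      (1 - exp (-(320 * β))) ^ (κ * Fintype.card ι) := by
  have hk : ∀ k : Fin κ, 2 ≤ r * 2 ^ (k : ℕ) ∧ 2 * (r * 2 ^ (k : ℕ)) ≤ r * 2 ^ κ := by
    intro k
    have h1 : 1 ≤ 2 ^ (k : ℕ) := Nat.one_le_two_pow
    have h2 : 2 ^ ((k : ℕ) + 1) ≤ 2 ^ κ := Nat.pow_le_pow_right (by norm_num) k.2
    rw [pow_succ] at h2
    constructor <;> nlinarith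
  have hkl : ∀ k l : Fin κ, k < l → 2 * (r * 2 ^ (k : ℕ)) ≤ r * 2 ^ (l : ℕ) := by
    intro k l h
    have h2 : 2 ^ ((k : ℕ) + 1) ≤ 2 ^ (l : ℕ) := Nat.pow_le_pow_right (by norm_num) h
    rw [pow_succ] at h2
    nlinarith
  have h := hμ.ann (ι × Fin κ)
    (fun a => U.filter fun v => nrm (pos v - c a.1) ≤ r * 2 ^ (a.2 : ℕ))
    (fun a => U.filter fun v => r * 2 ^ (a.2 : ℕ) < nrm (pos v - c a.1) ∧
      nrm (pos v - c a.1) < 2 * (r * 2 ^ (a.2 : ℕ)))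
    (fun a v => if v ∈ U then π * Arm_cl ((2 * ((r * 2 ^ (a.2 : ℕ) : ℕ) : ℝ) -
      nrm (pos v - c a.1)) / ((r * 2 ^ (a.2 : ℕ) : ℕ) : ℝ)) else 0) 640 ?_ ?_ ?_ ?_
  · rw [Fintype.card_prod, Fintype.card_fin, mul_comm (Fintype.card ι),
      show β * 640 / 2 = 320 * β by ring] at h
    refine (pr_mono hμ.nonneg fun ω hω a => ?_).trans h
    obtain ⟨x, y, hx, hx', hy, hc⟩ := hω a.1
    have a1 := hk a.2
    have a2 := hM a.1
    have a3 : r ≤ r * 2 ^ (a.2 : ℕ) := Nat.le_mul_of_pos_right _ (by positivity)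
    exact Arm_cross G hL (c a.1) a1.1 (by omega) ω hx (hx'.trans a3)
      (fun h => a1.2.trans (hy h)) hc
  · intro a v hv
    rw [mem_filter] at hv
    refine ⟨fun h => ?_, ?_⟩
    · rw [mem_filter] at h; omega
    · have a1 := hk a.2
      have a2 : (0 : ℝ) < ((r * 2 ^ (a.2 : ℕ) : ℕ) : ℝ) := by
        exact_mod_cast (by omega : 0 < r * 2 ^ (a.2 : ℕ))
      have a3 : (nrm (pos v - c a.1) : ℝ) ≤ ((r * 2 ^ (a.2 : ℕ) : ℕ) : ℝ) := by
        exact_mod_cast hv.2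
      rw [if_pos hv.1, Arm_cl_one, mul_one]
      rw [le_div_iff₀ a2]; linarith
  · intro a v h1 h2
    by_cases hv : v ∈ U
    · simp only [mem_filter, hv, true_and] at h1 h2
      have a3 : ((2 * (r * 2 ^ (a.2 : ℕ)) : ℕ) : ℝ) ≤ (nrm (pos v - c a.1) : ℝ) := by
        exact_mod_cast (by omega : 2 * (r * 2 ^ (a.2 : ℕ)) ≤ nrm (pos v - c a.1))
      rw [Nat.cast_mul, Nat.cast_ofNat] at a3
      rw [if_pos hv, Arm_cl_zero, mul_zero]
      exact div_nonpos_of_nonpos_of_nonneg (by linarith) (by positivity)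
    · exact if_neg hv
  · intro a
    have a1 := hk a.2
    have a2 := hM a.1
    exact Arm_energy G hL (c a.1) a1.1 (by omega) _ fun v hv => if_pos hv
  · intro a b hab e h1 h2
    have a1 := hk a.2
    have a2 := hM a.1
    have b1 := hk b.2
    have d0 : G.p e ∈ U ∧ nrm (pos (G.p e) - c a.1) ≤ r * 2 ^ κ ∨
        G.q e ∈ U ∧ nrm (pos (G.q e) - c a.1) ≤ r * 2 ^ κ := by
      rcases h1 with h | h <;> rw [mem_filter] at h
      · exact Or.inl ⟨h.1, by omega⟩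
      · exact Or.inr ⟨h.1, by omega⟩
    obtain ⟨-, -, d3⟩ := Arm_edge G hL _ a2 e d0
    have d4 := d3 (c a.1)
    have d5 := d3 (c b.1)
    simp only [Gr.Touch, mem_filter] at h1 h2
    by_cases hi : a.1 = b.1
    · have hne : a.2 ≠ b.2 := fun h => hab (Prod.ext hi h)
      rw [← hi] at h2
      rcases lt_or_gt_of_ne hne with h | h
      · have := hkl _ _ h
        omega
      · have := hkl _ _ h
        omega
    · have e1 := hs _ _ hi
      have e2 := Arm_nrm_tri2 (c a.1) (c b.1) (pos (G.p e))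
      have e3 := Arm_nrm_tri2 (c a.1) (c b.1) (pos (G.q e))
      omega

/-- an interpolating function of bounded energy between the box of radius `2 L` and the outside
of the box of radius `3 L` -/
theorem lat_g {pos : V → ℤ × ℤ} {U : Finset V} {L : ℕ} (hL0 : 1 ≤ L) (hL : G.Lat pos U (3 * L)) :
    ∃ g : V → ℝ, (∀ v, v ∉ U → g v = 1) ∧ (∀ v ∈ U, nrm (pos v) ≤ 2 * L → g v = 0) ∧
      ∑ e, (if G.Touch U e then (g (G.p e) - g (G.q e)) ^ 2 else 0) ≤ 196 := by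
  have hL' : (0 : ℝ) < L := by exact_mod_cast hL0
  refine ⟨fun v => if v ∈ U then Arm_cl ((nrm (pos v) - 2 * L) / L) else 1,
    fun v hv => if_neg hv, fun v hv h => ?_, ?_⟩
  · have a : (nrm (pos v) : ℝ) ≤ 2 * L := by exact_mod_cast h
    simp only [if_pos hv]
    exact Arm_cl_zero (div_nonpos_of_nonpos_of_nonneg (by linarith) hL'.le)
  · have key : ∀ v ∈ U, ¬ nrm (pos v) < 3 * L → Arm_cl ((nrm (pos v) - 2 * L) / L) = 1 := by
      intro v _ h
      have a : (3 * L : ℝ) ≤ nrm (pos v) := by exact_mod_cast not_lt.1 h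
      refine Arm_cl_one ?_
      rw [le_div_iff₀ hL']; linarith
    refine (Arm_sum_touch G U hL.deg _ (b := 1 / (L : ℝ) ^ 2) (by positivity)
      fun e _ => ?_).trans ?_
    · by_cases h1 : G.p e ∈ U <;> by_cases h2 : G.q e ∈ U
      · have a := Arm_nrm_adj (hL.adj e h1 h2) 0
        rw [sub_zero, sub_zero] at a
        simp only [if_pos h1, if_pos h2]
        exact (Arm_cl_div a.1 a.2 _ _ hL').2
      · simp only [if_pos h1, if_neg h2]
        rw [key _ h1 fun h => h2 (hL.deep e (Or.inl ⟨h1, h⟩)).2]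
        simp
      · simp only [if_neg h1, if_pos h2]
        rw [key _ h2 fun h => h1 (hL.deep e (Or.inr ⟨h2, h⟩)).1]
        simp
      · simp only [if_neg h1, if_neg h2]
        simp
    · have h1 := Arm_card_box hL.inj 0 (3 * L) U fun v hv => ⟨hv, by
        rw [sub_zero]; exact hL.sub v hv⟩
      have h2 : (2 * (3 * L) + 1) ^ 2 ≤ (7 * L) ^ 2 := Nat.pow_le_pow_left (by omega) 2
      have h3 : (U.card : ℝ) ≤ (7 * L) ^ 2 := by exact_mod_cast h1.trans h2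
      calc _ ≤ 4 * (7 * (L : ℝ)) ^ 2 * (1 / (L : ℝ) ^ 2) := by gcongr
        _ = 196 := by field_simp; ring

end Crest.Agent.R167
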