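import Crest.Agent.R167.Defs

/-! Row 167: basic lemmas. -/

set_option autoImplicit false
set_option linter.unusedSectionVars false

open MeasureTheory Finset Real

noncomputable section
namespace Crest.Agent.R167

variable {S : Type} [TopologicalSpace S] [CompactSpace S] [T2Space S] [SecondCountableTopology S]
  [MeasurableSpace S] [BorelSpace S] {ν : Measure S} [IsProbabilityMeasure ν] (P : Spin S ν)
variable {V E : Type} [Fintype V] [DecidableEq V] [Fintype E] [DecidableEq E] (G : Gr V E)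

theorem ind_of {A : Prop} (h : A) : ind A = 1 := if_pos h
theorem ind_of_not {A : Prop} (h : ¬ A) : ind A = 0 := if_neg h
theorem ind_nonneg (A : Prop) : 0 ≤ ind A := by unfold ind; split_ifs <;> norm_num
theorem ind_le_one (A : Prop) : ind A ≤ 1 := by unfold ind; split_ifs <;> norm_num
theorem ind_mono {A B : Prop} (h : A → B) : ind A ≤ ind B := by
  by_cases a : A
  · rw [ind_of a, ind_of (h a)]
  · rw [ind_of_not a]; exact ind_nonneg _
theorem ind_congr {A B : Prop} (h : A ↔ B) : ind A = ind B := by rw [propext h]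
theorem ind_and (A B : Prop) : ind (A ∧ B) = ind A * ind B := by
  by_cases a : A <;> by_cases b : B <;> simp [ind, a, b]
theorem ind_not (A : Prop) : ind (¬ A) = 1 - ind A := by by_cases a : A <;> simp [ind, a]
@[simp] theorem ind_true : ind True = 1 := ind_of trivial
@[simp] theorem ind_false : ind False = 0 := ind_of_not id
@[simp] theorem sg_true : sg true = 1 := rfl
@[simp] theorem sg_false : sg false = -1 := rfl
theorem abs_sg (b : Bool) : |sg b| = 1 := by cases b <;> simp
theorem sg_mul_self (b : Bool) : sg b * sg b = 1 := by cases b <;> simp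
theorem sg_beq (a b : Bool) : sg (a == b) = sg a * sg b := by cases a <;> cases b <;> simp

theorem pr_mono {μ : (E → Bool) → ℝ} (h0 : ∀ ω, 0 ≤ μ ω) {A B : (E → Bool) → Prop}
    (h : ∀ ω, A ω → B ω) : pr μ A ≤ pr μ B :=
  sum_le_sum fun ω _ => mul_le_mul_of_nonneg_left (ind_mono (h ω)) (h0 ω)

theorem pr_nonneg {μ : (E → Bool) → ℝ} (h0 : ∀ ω, 0 ≤ μ ω) (A : (E → Bool) → Prop) :
    0 ≤ pr μ A := sum_nonneg fun ω _ => mul_nonneg (h0 ω) (ind_nonneg _)

theorem pr_true (μ : (E → Bool) → ℝ) : pr μ (fun _ => True) = ∑ ω, μ ω := by simp [pr]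

theorem pr_false (μ : (E → Bool) → ℝ) : pr μ (fun _ => False) = 0 := by simp [pr]

theorem pr_or_le {μ : (E → Bool) → ℝ} (h0 : ∀ ω, 0 ≤ μ ω) (A B : (E → Bool) → Prop) :
    pr μ (fun ω => A ω ∨ B ω) ≤ pr μ A + pr μ B := by
  rw [pr, pr, pr, ← sum_add_distrib]
  refine sum_le_sum fun ω _ => ?_
  rw [← mul_add]
  refine mul_le_mul_of_nonneg_left ?_ (h0 ω)
  by_cases a : A ω <;> by_cases b : B ω <;> simp [ind, a, b]

theorem pr_exists_le {μ : (E → Bool) → ℝ} (h0 : ∀ ω, 0 ≤ μ ω) {ι : Type} (s : Finset ι)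
    (A : ι → (E → Bool) → Prop) : pr μ (fun ω => ∃ i ∈ s, A i ω) ≤ ∑ i ∈ s, pr μ (A i) := by
  classical
  induction s using Finset.induction_on with
  | empty => simp [pr]
  | insert i s hi ih =>
    simp only [mem_insert, exists_eq_or_imp, sum_insert hi]
    exact (pr_or_le h0 _ _).trans (by linarith)

theorem sum_pi_bool (x y : E → ℝ) :
    ∑ ω : E → Bool, ∏ e, (if ω e then x e else y e) = ∏ e, (x e + y e) := by
  simpa using (Fintype.prod_sum fun e (b : Bool) => if b then x e else y e).symm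

theorem Gr.Adj.symm {G : Gr V E} {ω : E → Bool} {u v : V} (h : G.Adj ω u v) : G.Adj ω v u := by
  obtain ⟨e, a, b⟩ := h
  exact ⟨e, a, b.symm⟩

theorem Gr.Conn.symm {G : Gr V E} {ω : E → Bool} {u v : V} (h : G.Conn ω u v) : G.Conn ω v u := by
  induction h with
  | refl => exact .refl
  | tail _ h ih => exact .head h.symm ih

theorem Gr.ConnIn.symm {G : Gr V E} {A : Set V} {ω : E → Bool} {u v : V}
    (h : G.ConnIn A ω u v) : G.ConnIn A ω v u := by
  induction h with
  | refl => exact .refl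
  | tail _ h ih => exact .head ⟨h.2.1, h.1, h.2.2.symm⟩ ih

theorem Gr.ConnIn.mono {G : Gr V E} {A B : Set V} {ω ω' : E → Bool} {u v : V}
    (h : G.ConnIn A ω u v) (hA : A ⊆ B) (hω : ω ≤ ω') : G.ConnIn B ω' u v := by
  refine Relation.ReflTransGen.mono ?_ _ _ h
  rintro _ _ ⟨a, b, e, c, d⟩
  exact ⟨hA a, hA b, e, top_le_iff.1 (c.ge.trans (hω e)), d⟩

theorem Gr.ConnIn.conn {G : Gr V E} {A : Set V} {ω : E → Bool} {u v : V}
    (h : G.ConnIn A ω u v) : G.Conn ω u v := by
  exact Relation.ReflTransGen.mono (fun _ _ h => h.2.2) _ _ h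

theorem Gr.Conn.mono {G : Gr V E} {ω ω' : E → Bool} {u v : V} (h : G.Conn ω u v) (hω : ω ≤ ω') :
    G.Conn ω' u v := by
  refine Relation.ReflTransGen.mono ?_ _ _ h
  rintro _ _ ⟨e, c, d⟩
  exact ⟨e, top_le_iff.1 (c.ge.trans (hω e)), d⟩

theorem Gr.Cst.eq_of_conn {G : Gr V E} {ω : E → Bool} {ξ : V → Bool} (h : G.Cst ω ξ) {u v : V}
    (c : G.Conn ω u v) : ξ u = ξ v := by
  induction c with
  | refl => rfl
  | tail _ a ih =>
    obtain ⟨e, a, ⟨rfl, rfl⟩ | ⟨rfl, rfl⟩⟩ := a
    exacts [ih.trans (h e a), ih.trans (h e a).symm]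

theorem ew_nonneg {K : E → ℝ} (hK : ∀ e, 0 ≤ K e) (ω : E → Bool) : 0 ≤ ew K ω := by
  refine prod_nonneg fun e _ => ?_
  have := sinh_nonneg_iff.2 (hK e)
  split_ifs <;> positivity

theorem Gr.cw_nonneg {J : E → ℝ} (hJ : ∀ e, 0 ≤ J e) (s : V → ℝ) (ω : E → Bool) :
    0 ≤ G.cw J s ω := by
  refine prod_nonneg fun e _ => ?_
  split_ifs
  · rw [sub_nonneg, exp_le_exp, ← mul_neg]
    exact mul_le_mul_of_nonneg_left (neg_abs_le _) (hJ e)
  · positivity

theorem Gr.continuous_cw (J : E → ℝ) (ω : E → Bool) : Continuous fun s => G.cw J s ω := by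
  refine continuous_finsetProd _ fun e _ => ?_
  split_ifs <;> fun_prop

theorem Gr.sum_cw (J : E → ℝ) (s : V → ℝ) :
    ∑ ω, G.cw J s ω = exp (∑ e, J e * (s (G.p e) * s (G.q e))) := by
  simp only [Gr.cw, sum_pi_bool, sub_add_cancel, exp_sum]

theorem Gr.cw_sg (J : E → ℝ) (a : V → ℝ) (ha : ∀ v, 0 ≤ a v) (ξ : V → Bool) (ω : E → Bool) :
    G.cw J (fun v => sg (ξ v) * a v) ω =
      ew (fun e => J e * (a (G.p e) * a (G.q e))) ω * ind (G.Cst ω ξ) := by
  have h : ∀ e, |sg (ξ (G.p e)) * a (G.p e) * (sg (ξ (G.q e)) * a (G.q e))| =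
      a (G.p e) * a (G.q e) := fun e => by
    simp only [abs_mul, abs_sg, one_mul, abs_of_nonneg (ha _)]
  simp only [Gr.cw, ew, h]
  by_cases c : G.Cst ω ξ
  · rw [ind_of c, mul_one]
    refine prod_congr rfl fun e _ => ?_
    split_ifs with d
    · rw [c e d, mul_mul_mul_comm (sg _), sg_mul_self, one_mul, sinh_eq]; ring
    · rfl
  · rw [ind_of_not c, mul_zero]
    simp only [Gr.Cst, not_forall] at c
    obtain ⟨e, d, c⟩ := c
    refine prod_eq_zero (mem_univ e) ?_
    rw [if_pos d, sub_eq_zero]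
    congr 1
    revert c
    cases ξ (G.p e) <;> cases ξ (G.q e) <;> simp

theorem Gr.JL_univ (J : E → ℝ) : G.JL univ J = J := by
  funext e; simp [Gr.JL, Gr.Touch]

theorem Gr.JL_bd {J : E → ℝ} {β : ℝ} (hJ : ∀ e, 0 ≤ J e ∧ J e ≤ β) (Λ : Finset V) (e : E) :
    0 ≤ G.JL Λ J e ∧ G.JL Λ J e ≤ β := by
  have := hJ e
  unfold Gr.JL; split_ifs <;> constructor <;> linarith

theorem cint {X : Type} [TopologicalSpace X] [CompactSpace X] [MeasurableSpace X]
    [OpensMeasurableSpace X] {μ : Measure X} [IsFiniteMeasure μ] {f : X → ℝ} (hf : Continuous f) :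
    Integrable f μ := hf.integrable_of_hasCompactSupport (HasCompactSupport.of_compactSpace f)

theorem continuous_pw (Λ : Finset V) :
    Continuous fun x : (V → S) × (V → S) => Λ.piecewise x.1 x.2 := by
  refine continuous_pi fun v => ?_
  by_cases h : v ∈ Λ <;> simp only [piecewise, h, if_true, if_false] <;> fun_prop

theorem continuous_pw' (Λ : Finset V) (out : V → S) :
    Continuous fun σ : V → S => Λ.piecewise σ out := by
  exact (continuous_pw Λ).comp (continuous_id.prodMk continuous_const)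

theorem mp_pw (Λ : Finset V) :
    MeasurePreserving (fun x : (V → S) × (V → S) => Λ.piecewise x.1 x.2)
      ((Measure.pi fun _ => ν).prod (Measure.pi fun _ => ν)) (Measure.pi fun _ => ν) := by
  refine ⟨(continuous_pw Λ).measurable, (Measure.pi_eq fun s hs => ?_).symm⟩
  rw [Measure.map_apply (continuous_pw Λ).measurable (MeasurableSet.univ_pi hs)]
  have : (fun x : (V → S) × (V → S) => Λ.piecewise x.1 x.2) ⁻¹' Set.univ.pi s =
      Set.univ.pi (fun v => if v ∈ Λ then s v else Set.univ) ×ˢ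
        Set.univ.pi fun v => if v ∈ Λ then Set.univ else s v := by
    ext x
    simp only [Set.mem_preimage, Set.mem_pi, Set.mem_univ, true_imp_iff, Set.mem_prod,
      ← forall_and]
    refine forall_congr' fun v => ?_
    by_cases h : v ∈ Λ <;> simp [h]
  rw [this, Measure.prod_prod, Measure.pi_pi, Measure.pi_pi, ← prod_mul_distrib]
  refine prod_congr rfl fun v _ => ?_
  split_ifs <;> simp

theorem int_pw (Λ : Finset V) {F : (V → S) → ℝ} (hF : Continuous F) :
    ∫ σ, F σ ∂(Measure.pi fun _ => ν) =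
      ∫ τ, ∫ σ, F (Λ.piecewise σ τ) ∂(Measure.pi fun _ => ν) ∂(Measure.pi fun _ => ν) := by
  rw [← (mp_pw (ν := ν) Λ).map_eq, integral_map (continuous_pw Λ).aemeasurable
    hF.aestronglyMeasurable, (mp_pw (ν := ν) Λ).map_eq]
  exact integral_prod_symm _ (cint (hF.comp (continuous_pw Λ)))

/-- sitewise measure preserving change of variables -/
theorem int_site (f : V → S → S) (hf : ∀ v, MeasurePreserving (f v) ν ν) {F : (V → S) → ℝ}
    (hF : Continuous F) :
    ∫ σ, F (fun v => f v (σ v)) ∂(Measure.pi fun _ => ν) = ∫ σ, F σ ∂(Measure.pi fun _ => ν) := by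
  have h := measurePreserving_pi (fun _ => ν) (fun _ => ν) hf
  rw [← integral_map h.aemeasurable hF.aestronglyMeasurable, h.map_eq]

/-- sitewise randomisation -/
theorem int_site2 {Θ S' : Type} [TopologicalSpace Θ] [CompactSpace Θ] [T2Space Θ]
    [SecondCountableTopology Θ] [MeasurableSpace Θ] [BorelSpace Θ] (m : Measure Θ)
    [IsProbabilityMeasure m] [TopologicalSpace S'] [SecondCountableTopology S']
    [MeasurableSpace S'] [BorelSpace S'] (ν' : Measure S') [IsProbabilityMeasure ν']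
    (f : S × Θ → S') (hc : Continuous f) (hf : MeasurePreserving f (ν.prod m) ν')
    {F : (V → S') → ℝ} (hF : Continuous F) :
    ∫ σ, F σ ∂(Measure.pi fun _ => ν') =
      ∫ σ, ∫ θ, F (fun v => f (σ v, θ v)) ∂(Measure.pi fun _ => m) ∂(Measure.pi fun _ => ν) := by
  have h := measurePreserving_pi (fun _ : V => ν.prod m) (fun _ => ν') fun _ => hf
  have h2 := (measurePreserving_arrowProdEquivProdArrow S Θ V (fun _ => ν) fun _ => m).symm
  have h3 := h.comp h2
  rw [← h3.map_eq, integral_map h3.aemeasurable hF.aestronglyMeasurable]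
  exact integral_prod (fun x : (V → S) × (V → Θ) => F fun v => f (x.1 v, x.2 v))
    (cint (by fun_prop))

theorem Spin.continuous_a : Continuous P.a := by
  exact (P.cs.abs).subtype_mk _

theorem Spin.continuous_hk (J : E → ℝ) : Continuous (P.hk G J) := by
  refine continuous_exp.comp (continuous_finsetSum _ fun e _ => continuous_const.mul ?_)
  exact P.ck.comp (f := fun σ : V → S => (σ (G.p e), σ (G.q e))) (by fun_prop)

theorem Spin.continuous_hd (J : E → ℝ) : Continuous (P.hd G J) := by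
  have := P.cs
  refine continuous_exp.comp (continuous_finsetSum _ fun e _ => continuous_const.mul
    (Continuous.add (by fun_prop) ?_))
  exact P.ck.comp (f := fun σ : V → S => (σ (G.p e), σ (G.q e))) (by fun_prop)

theorem Spin.continuous_sv : Continuous fun (σ : V → S) v => P.s (σ v) := by
  have := P.cs
  fun_prop

theorem Spin.continuous_fk (J : E → ℝ) (A : (E → Bool) → Prop) : Continuous (P.fk G J A) := by
  exact (P.continuous_hk G J).mul (continuous_finsetSum _ fun ω _ =>
    ((G.continuous_cw J ω).comp P.continuous_sv).mul continuous_const)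

theorem Spin.hd_eq (J : E → ℝ) (σ : V → S) :
    P.hd G J σ = P.hk G J σ * exp (∑ e, J e * (P.s (σ (G.p e)) * P.s (σ (G.q e)))) := by
  rw [Spin.hd, Spin.hk, ← exp_add, ← sum_add_distrib]
  congr 2; funext e; ring

theorem Spin.fk_true (J : E → ℝ) : P.fk G J (fun _ => True) = P.hd G J := by
  funext σ
  simp only [Spin.fk, ind_true, mul_one, Gr.sum_cw, Spin.hd_eq]

theorem Spin.fk_nonneg {J : E → ℝ} (hJ : ∀ e, 0 ≤ J e) (A : (E → Bool) → Prop) (σ : V → S) :
    0 ≤ P.fk G J A σ := by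
  exact mul_nonneg (exp_pos _).le
    (sum_nonneg fun ω _ => mul_nonneg (G.cw_nonneg hJ _ _) (ind_nonneg _))

theorem Spin.Zw_pos (J : E → ℝ) (Λ : Finset V) (out : V → S) :
    0 < ∫ σ, P.hd G J (Λ.piecewise σ out) ∂(Measure.pi fun _ => ν) := by
  exact integral_exp_pos (cint ((P.continuous_hd G J).comp (continuous_pw' Λ out)))

theorem Spin.Z_pos (J : E → ℝ) : 0 < P.Z G J := by
  exact integral_exp_pos (cint (P.continuous_hd G J))

theorem Spin.pr_law (J : E → ℝ) (A : (E → Bool) → Prop) :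
    pr (P.law G J) A = (∫ σ, P.fk G J A σ ∂Measure.pi fun _ => ν) / P.Z G J := by
  simp only [pr, Spin.law, Spin.fk, div_mul_eq_mul_div, ← sum_div, mul_sum, ← mul_assoc]
  rw [integral_finsetSum]
  · simp only [integral_mul_const]
  · exact fun ω _ => cint (((P.continuous_hk G J).mul
      ((G.continuous_cw J ω).comp P.continuous_sv)).mul continuous_const)

theorem Spin.law_nonneg {J : E → ℝ} (hJ : ∀ e, 0 ≤ J e) (ω : E → Bool) : 0 ≤ P.law G J ω := by
  exact div_nonneg (integral_nonneg fun σ => mul_nonneg (exp_pos _).le (G.cw_nonneg hJ _ _))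
    (P.Z_pos G J).le

theorem Spin.law_sum (J : E → ℝ) : ∑ ω, P.law G J ω = 1 := by
  rw [← pr_true, Spin.pr_law, Spin.fk_true]
  exact div_self (P.Z_pos G J).ne'

theorem Spin.wp_nonneg {J : E → ℝ} (hJ : ∀ e, 0 ≤ J e) (Λ : Finset V) (A : (E → Bool) → Prop) :
    0 ≤ P.wp G J Λ A := by
  refine div_nonneg (integral_nonneg fun σ => P.fk_nonneg G (fun e => ?_) _ _) (P.Zw_pos G _ _ _).le
  unfold Gr.JL; split_ifs; exacts [hJ e, le_rfl]

theorem sum_ind_pol (Λ : Finset V) :
    ∑ η : V → Bool, ind (∀ v, v ∉ Λ → η v = true) = 2 ^ Λ.card := by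
  have : ∀ η : V → Bool, ind (∀ v, v ∉ Λ → η v = true) =
      ∏ v, if η v then 1 else if v ∈ Λ then 1 else 0 := fun η => by
    by_cases h : ∀ v, v ∉ Λ → η v = true
    · rw [ind_of h, prod_eq_one fun v _ => ?_]
      by_cases a : v ∈ Λ <;> simp [a, h]
    · rw [ind_of_not h]
      simp only [not_forall] at h
      obtain ⟨v, a, b⟩ := h
      exact (prod_eq_zero (mem_univ v) (by simp [a, b])).symm
  simp only [this, sum_pi_bool]
  rw [prod_congr rfl (g := fun v => if v ∈ Λ then 2 else 1) fun v _ => by split_ifs <;> norm_num]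
  simp

theorem sg_abs (x : ℝ) : sg (decide (0 ≤ x)) * |x| = x := by
  by_cases h : 0 ≤ x
  · simp [h, abs_of_nonneg]
  · simp [h, abs_of_neg (not_le.1 h)]

/-- multiplication by a fixed sign configuration -/
def mulE (ζ : V → Bool) : (V → Bool) ≃ (V → Bool) :=
  Function.Involutive.toPerm (fun η v => η v == ζ v) fun η => by
    funext v; cases h : ζ v <;> simp

theorem mulE_apply (ζ η : V → Bool) (v : V) : mulE ζ η v = (η v == ζ v) := rfl

theorem Spin.flip_inv {X : Type} (Ψ : (V → S) → X)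
    (hi : ∀ σ v, Ψ (Function.update σ v (P.fl (σ v))) = Ψ σ) (η : V → Bool) (σ : V → S) :
    Ψ (fun v => if η v then σ v else P.fl (σ v)) = Ψ σ := by
  have : ∀ D : Finset V, Ψ (fun v => if v ∈ D then P.fl (σ v) else σ v) = Ψ σ := fun D => by
    induction D using Finset.induction_on with
    | empty => simp
    | insert v D h ih =>
      rw [← ih, ← hi (fun v => if v ∈ D then P.fl (σ v) else σ v) v]
      congr 1; funext u
      by_cases a : u = v <;> simp [a, h]
  rw [← this (univ.filter fun v => η v = false)]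
  congr 1; funext u
  cases h : η u <;> simp [h]

/-- symmetrisation over the signs of the distinguished component inside `Λ` -/
theorem Spin.flip_sym (Λ : Finset V) (out : V → S) (hout : ∀ v, v ∉ Λ → |P.s (out v)| = 1)
    (Ψ : (V → S) → (V → ℝ) → ℝ) (hc : Continuous fun x : (V → S) × (V → ℝ) => Ψ x.1 x.2)
    (hi : ∀ σ v t, Ψ (Function.update σ v (P.fl (σ v))) t = Ψ σ t) :
    ∫ σ, Ψ (Λ.piecewise σ out) (fun v => P.s (Λ.piecewise σ out v)) ∂(Measure.pi fun _ => ν) =
      (2 ^ Λ.card)⁻¹ * ∫ σ, ∑ ξ : V → Bool, ind (∀ v, v ∉ Λ → sg (ξ v) = P.s (out v)) *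
        Ψ (Λ.piecewise σ out) (fun v => sg (ξ v) * |P.s (Λ.piecewise σ out v)|)
        ∂(Measure.pi fun _ => ν) := by
  have cx := continuous_pw' Λ out
  have cs := (P.continuous_sv (V := V)).comp cx
  have c1 : ∀ η : V → Bool, Continuous fun σ => Ψ (Λ.piecewise σ out)
      fun v => sg (η v) * P.s (Λ.piecewise σ out v) := fun η =>
    hc.comp (cx.prodMk (continuous_pi fun v => continuous_const.mul ((continuous_apply v).comp cs)))
  have h1 : ∀ η : V → Bool, (∀ v, v ∉ Λ → η v = true) →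
      ∫ σ, Ψ (Λ.piecewise σ out) (fun v => sg (η v) * P.s (Λ.piecewise σ out v))
        ∂(Measure.pi fun _ => ν) =
      ∫ σ, Ψ (Λ.piecewise σ out) (fun v => P.s (Λ.piecewise σ out v)) ∂(Measure.pi fun _ => ν) := by
    intro η hη
    refine Eq.trans ?_ (int_site (ν := ν) (fun v x => if η v then x else P.fl x) (fun v => by
      split_ifs; exacts [.id _, P.mfl]) (hc.comp (cx.prodMk cs) :))
    congr 1; funext σ
    have e : Λ.piecewise (fun v => if η v then σ v else P.fl (σ v)) out =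
        fun v => if η v then Λ.piecewise σ out v else P.fl (Λ.piecewise σ out v) := by
      funext v; by_cases a : v ∈ Λ <;> simp [a, hη]
    simp only [Function.comp_apply, e]
    rw [P.flip_inv (fun σ => Ψ σ _) fun σ v => hi σ v _]
    congr 1; funext v
    cases η v <;> simp [P.sfl]
  have h2 : ∀ σ, ∑ ξ : V → Bool, ind (∀ v, v ∉ Λ → sg (ξ v) = P.s (out v)) *
      Ψ (Λ.piecewise σ out) (fun v => sg (ξ v) * |P.s (Λ.piecewise σ out v)|) =
      ∑ η : V → Bool, ind (∀ v, v ∉ Λ → η v = true) *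
        Ψ (Λ.piecewise σ out) fun v => sg (η v) * P.s (Λ.piecewise σ out v) := fun σ => by
    rw [← (mulE fun v => decide (0 ≤ P.s (Λ.piecewise σ out v))).sum_comp]
    refine sum_congr rfl fun η _ => ?_
    simp only [mulE_apply, sg_beq, mul_assoc, sg_abs]
    congr 1
    refine ind_congr (forall₂_congr fun v a => ?_)
    rcases eq_or_eq_neg_of_abs_eq (hout v a) with h | h <;> cases η v <;> simp [a, h] <;> norm_num
  simp only [h2]
  rw [integral_finsetSum _ fun η _ => (cint (c1 η)).const_mul _,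
    sum_congr rfl (g := fun η => ind (∀ v, v ∉ Λ → η v = true) * _) fun η _ => ?_, ← sum_mul,
    sum_ind_pol, inv_mul_cancel_left₀ (by positivity)]
  rw [integral_const_mul]
  by_cases h : ∀ v, v ∉ Λ → η v = true
  · rw [h1 η h]
  · simp [ind_of_not h]

theorem Spin.flip_sym0 (Ψ : (V → S) → (V → ℝ) → ℝ)
    (hc : Continuous fun x : (V → S) × (V → ℝ) => Ψ x.1 x.2)
    (hi : ∀ σ v t, Ψ (Function.update σ v (P.fl (σ v))) t = Ψ σ t) :
    ∫ σ, Ψ σ (fun v => P.s (σ v)) ∂(Measure.pi fun _ => ν) =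
      (2 ^ Fintype.card V)⁻¹ * ∫ σ, ∑ ξ : V → Bool, Ψ σ (fun v => sg (ξ v) * |P.s (σ v)|)
        ∂(Measure.pi fun _ => ν) := by
  simpa using P.flip_sym univ (fun _ => P.N) (by simp) Ψ hc hi

theorem Spin.hk_update (J : E → ℝ) (σ : V → S) (v : V) :
    P.hk G J (Function.update σ v (P.fl (σ v))) = P.hk G J σ := by
  unfold Spin.hk
  congr 2; funext e; congr 1
  by_cases a : G.p e = v <;> by_cases b : G.q e = v <;>
    simp [a, b, (P.kfl _ _).1, (P.kfl _ _).2]

end Crest.Agent.R167
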