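import Crest.Agent.R167.AModel

/-! Row 167: from spins to the model of moduli and bonds. -/

set_option autoImplicit false
set_option linter.unusedSectionVars false

open MeasureTheory Finset Real

noncomputable section
namespace Crest.Agent.R167

variable {S : Type} [TopologicalSpace S] [CompactSpace S] [T2Space S] [SecondCountableTopology S]
  [MeasurableSpace S] [BorelSpace S] {ν : Measure S} [IsProbabilityMeasure ν] (P : Spin S ν)
variable {V E : Type} [Fintype V] [DecidableEq V] [Fintype E] [DecidableEq E] (G : Gr V E)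

/-- `hk (JL Λ J) = hk J` on `piecewise σ N` (`P.kp`), then `Dec`, `flip_sym`, `cw_sg` and the
push-forward `measurePreserving_pi` along `P.a`. -/
theorem Spin.bridge {J : E → ℝ} {Y : (V → unitInterval) → ℝ} (hY : YOK Y) (hD : P.Dec G J Y)
    (Λ : Finset V) (A : (E → Bool) → Prop) :
    ∫ σ, P.fk G (G.JL Λ J) A (Λ.piecewise σ fun _ => P.N) ∂(Measure.pi fun _ => ν) =
      (2 ^ Λ.card)⁻¹ * G.Aw (ν.map P.a) Y J Λ A := by
  have hs : ∀ v, v ∉ Λ → |P.s ((fun _ : V => P.N) v)| = 1 := fun _ _ => by simp [P.sN]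
  have cΨ : Continuous fun s : V → ℝ => ∑ ω, G.cw (G.JL Λ J) s ω * ind (A ω) :=
    continuous_finsetSum _ fun ω _ => (G.continuous_cw _ ω).mul continuous_const
  have ca : Continuous fun (σ : V → S) v => P.a (σ v) :=
    continuous_pi fun v => P.continuous_a.comp (continuous_apply v)
  have h1 : ∀ σ : V → S, P.hk G (G.JL Λ J) (Λ.piecewise σ fun _ => P.N) =
      P.hk G J (Λ.piecewise σ fun _ => P.N) := fun σ => by
    unfold Spin.hk
    congr 1
    refine sum_congr rfl fun e _ => ?_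
    unfold Gr.JL
    split_ifs with h
    · rfl
    · rw [piecewise_eq_of_notMem _ _ _ fun c => h (Or.inl c), (P.kp _ _ (by simp [P.sN])).1]
      simp
  have h2 : ∀ (σ : V → S), (fun v => P.a (Λ.piecewise σ (fun _ => P.N) v)) =
      Λ.piecewise (fun v => P.a (σ v)) fun _ => 1 := fun σ => by
    funext v
    by_cases c : v ∈ Λ
    · simp [piecewise_eq_of_mem _ _ _ c]
    · simp only [piecewise_eq_of_notMem _ _ _ c]
      exact Subtype.ext (by simp [Spin.a, P.sN])
  simp only [Spin.fk, h1]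
  rw [hD Λ _ hs _ cΨ, P.flip_sym Λ _ hs (fun σ t => Y (fun v => P.a (σ v)) *
    ∑ ω, G.cw (G.JL Λ J) t ω * ind (A ω))
    ((hY.cont.comp (ca.comp continuous_fst)).mul (cΨ.comp continuous_snd)) (fun σ v t => by
      congr 2
      funext u
      by_cases c : u = v
      · subst c; exact Subtype.ext (by simp [Spin.a, P.sfl])
      · rw [Function.update_of_ne c])]
  congr 1
  have hm := measurePreserving_pi (fun _ : V => ν) (fun _ => ν.map P.a) (f := fun _ => P.a)
    fun _ => ⟨P.continuous_a.measurable, rfl⟩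
  have cF : Continuous fun a : V → unitInterval => Y (Λ.piecewise a fun _ => 1) *
      ∑ ω, ew (G.KK (G.JL Λ J) (Λ.piecewise a fun _ => 1)) ω * G.NH (pol Λ) ω * ind (A ω) := by
    have c1 := continuous_pw' (S := unitInterval) Λ fun _ => 1
    refine (hY.cont.comp c1).mul (continuous_finsetSum _ fun ω _ =>
      (Continuous.mul ?_ continuous_const).mul continuous_const)
    have c2 : Continuous fun a : V → unitInterval => ew (G.KK (G.JL Λ J) a) ω := by
      refine continuous_finsetProd _ fun e _ => ?_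
      unfold Gr.KK
      split_ifs <;> fun_prop
    exact c2.comp c1
  rw [Gr.Aw, ← hm.map_eq, integral_map hm.measurable.aemeasurable cF.aestronglyMeasurable]
  refine integral_congr_ae (Filter.Eventually.of_forall fun σ => ?_)
  simp only [← h2]
  have h3 : ∀ ξ : V → Bool, ∀ ω, G.cw (G.JL Λ J)
      (fun v => sg (ξ v) * |P.s (Λ.piecewise σ (fun _ => P.N) v)|) ω =
      ew (G.KK (G.JL Λ J) fun v => P.a (Λ.piecewise σ (fun _ => P.N) v)) ω * ind (G.Cst ω ξ) :=
    fun ξ ω => G.cw_sg _ _ (fun _ => abs_nonneg _) ξ ω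
  have h4 : ∀ ω, G.NH (pol Λ) ω =
      ∑ ξ : V → Bool, ind (∀ v, v ∉ Λ → sg (ξ v) = P.s P.N) * ind (G.Cst ω ξ) := fun ω => by
    rw [Gr.NH, pol, sum_filter]
    refine sum_congr rfl fun ξ _ => ?_
    have : (∀ v, v ∉ Λ → sg (ξ v) = P.s P.N) ↔ ∀ v, v ∉ Λ → ξ v = true := by
      refine forall₂_congr fun v _ => ?_
      rw [P.sN]
      cases ξ v <;> norm_num
    split_ifs with c
    · rw [ind_of (this.2 c), one_mul]
    · rw [ind_of_not (mt this.1 c), zero_mul]
  simp only [h3, h4, mul_sum, sum_mul]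
  rw [sum_comm]
  exact sum_congr rfl fun _ _ => sum_congr rfl fun _ _ => by ring

theorem Spin.bridge_law {J : E → ℝ} {Y : (V → unitInterval) → ℝ} (hY : YOK Y) (hD : P.Dec G J Y)
    (A : (E → Bool) → Prop) : 0 < G.Aw (ν.map P.a) Y J univ (fun _ => True) ∧
      pr (P.law G J) A =
        G.Aw (ν.map P.a) Y J univ A / G.Aw (ν.map P.a) Y J univ fun _ => True := by
  have h1 := P.bridge G hY hD univ A
  have h2 := P.bridge G hY hD univ fun _ => True
  simp only [Gr.JL_univ, piecewise_univ, Spin.fk_true] at h1 h2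
  have h3 := P.Z_pos G J
  have h4 : (0 : ℝ) < (2 ^ (univ : Finset V).card)⁻¹ := by positivity
  rw [Spin.pr_law, h1]
  rw [Spin.Z, h2] at h3 ⊢
  exact ⟨(mul_pos_iff_of_pos_left h4).1 h3, mul_div_mul_left _ _ h4.ne'⟩

theorem Spin.bridge_wp {J : E → ℝ} {Y : (V → unitInterval) → ℝ} (hY : YOK Y) (hD : P.Dec G J Y)
    (Λ : Finset V) (A : (E → Bool) → Prop) : 0 < G.Aw (ν.map P.a) Y J Λ (fun _ => True) ∧
      P.wp G J Λ A = G.Aw (ν.map P.a) Y J Λ A / G.Aw (ν.map P.a) Y J Λ fun _ => True := by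
  have h2 := P.bridge G hY hD Λ fun _ => True
  simp only [Spin.fk_true] at h2
  have h3 := P.Zw_pos G (G.JL Λ J) Λ fun _ => P.N
  have h4 : (0 : ℝ) < (2 ^ Λ.card)⁻¹ := by positivity
  rw [Spin.wp, P.bridge G hY hD Λ A]
  rw [h2] at h3 ⊢
  exact ⟨(mul_pos_iff_of_pos_left h4).1 h3, mul_div_mul_left _ _ h4.ne'⟩

theorem Spin.law_fkg {J : E → ℝ} (hJ : ∀ e, 0 ≤ J e) {Y : (V → unitInterval) → ℝ} (hY : YOK Y)
    (hD : P.Dec G J Y) {A B : (E → Bool) → Prop} (hA : Up A) (hB : Up B) :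
    pr (P.law G J) A * pr (P.law G J) B ≤ pr (P.law G J) fun ω => A ω ∧ B ω := by
  have := Measure.isProbabilityMeasure_map (μ := ν) P.continuous_a.measurable.aemeasurable
  have h0 := (P.bridge_law G hY hD A).1
  rw [(P.bridge_law G hY hD _).2, (P.bridge_law G hY hD _).2, (P.bridge_law G hY hD _).2,
    div_mul_div_comm, div_le_div_iff₀ (by positivity) h0]
  nlinarith [mul_le_mul_of_nonneg_right (A_fkg G (ν.map P.a) hY hJ hA hB) h0.le]

theorem Spin.law_dom {J : E → ℝ} (hJ : ∀ e, 0 ≤ J e) {Y : (V → unitInterval) → ℝ} (hY : YOK Y)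
    (hD : P.Dec G J Y) (Λ : Finset V) {A B : (E → Bool) → Prop} (hA : Up A)
    (dA : Dep (G.Touch Λ) A) (dB : Dep (fun e => ¬ G.Touch Λ e) B) :
    pr (P.law G J) (fun ω => A ω ∧ B ω) ≤ P.wp G J Λ A * pr (P.law G J) B := by
  have := Measure.isProbabilityMeasure_map (μ := ν) P.continuous_a.measurable.aemeasurable
  have h0 := (P.bridge_law G hY hD A).1
  have h1 := (P.bridge_wp G hY hD Λ A).1
  rw [(P.bridge_law G hY hD _).2, (P.bridge_law G hY hD _).2, (P.bridge_wp G hY hD _ _).2,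
    div_mul_div_comm, div_le_div_iff₀ h0 (by positivity)]
  nlinarith [mul_le_mul_of_nonneg_right (A_dom G (ν.map P.a) hY hJ Λ hA dA dB) h0.le]

theorem Spin.law_prod {J : E → ℝ} (hJ : ∀ e, 0 ≤ J e) {Y : (V → unitInterval) → ℝ} (hY : YOK Y)
    (hD : P.Dec G J Y) {ι : Type} (s : Finset ι) (Λ : ι → Finset V) (A : ι → (E → Bool) → Prop)
    (x : ℝ) (hA : ∀ i ∈ s, Up (A i)) (dA : ∀ i ∈ s, Dep (G.Touch (Λ i)) (A i))
    (hd : ∀ i ∈ s, ∀ j ∈ s, i ≠ j → ∀ e, G.Touch (Λ i) e → ¬ G.Touch (Λ j) e)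
    (hx : ∀ i ∈ s, P.wp G J (Λ i) (A i) ≤ x) :
    pr (P.law G J) (fun ω => ∀ i ∈ s, A i ω) ≤ x ^ s.card := by
  classical
  induction s using Finset.induction_on with
  | empty => simp [pr, P.law_sum G J]
  | insert i s hi ih =>
    have h1 := ih (fun j hj => hA j (mem_insert_of_mem hj)) (fun j hj => dA j (mem_insert_of_mem hj))
      (fun j hj k hk => hd j (mem_insert_of_mem hj) k (mem_insert_of_mem hk))
      fun j hj => hx j (mem_insert_of_mem hj)
    have h2 := P.law_dom G hJ hY hD (Λ i) (B := fun ω => ∀ j ∈ s, A j ω)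
      (hA i (mem_insert_self _ _)) (dA i (mem_insert_self _ _)) fun ω ω' h a j hj =>
        dA j (mem_insert_of_mem hj) ω ω' (fun e he => h e (hd j (mem_insert_of_mem hj) i
          (mem_insert_self _ _) (fun c => hi (c ▸ hj)) e he)) (a j hj)
    have h3 := hx i (mem_insert_self _ _)
    simp only [forall_mem_insert]
    rw [card_insert_of_notMem hi, pow_succ']
    exact h2.trans (mul_le_mul h3 h1 (pr_nonneg (P.law_nonneg G hJ) _)
      ((P.wp_nonneg G hJ _ _).trans h3))

end Crest.Agent.R167
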