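import Crest.Agent.R167.Basic

/-! Row 167: coarse graining. -/

set_option autoImplicit false
set_option linter.unusedSectionVars false

open MeasureTheory Finset Real

noncomputable section
namespace Crest.Agent.R167

theorem coarse_tri (a b c : ℤ × ℤ) : nrm (a - c) ≤ nrm (a - b) + nrm (b - c) := by
  simp only [nrm, Prod.fst_sub, Prod.snd_sub]; omega

theorem coarse_symm (a b : ℤ × ℤ) : nrm (a - b) = nrm (b - a) := by
  simp only [nrm, Prod.fst_sub, Prod.snd_sub]; omega

/-- families of cells reached by `n` jumps of size at most `7` -/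
def coarseFam : ℕ → ℤ × ℤ → Finset (Finset (ℤ × ℤ))
  | 0, k => {{k}}
  | n + 1, k => ((Finset.Icc (-7 : ℤ) 7 ×ˢ Finset.Icc (-7 : ℤ) 7).biUnion
      fun δ => coarseFam n (k + δ)).image (insert k)

theorem coarseFam_card (n : ℕ) (k : ℤ × ℤ) : (coarseFam n k).card ≤ 225 ^ n := by
  induction n generalizing k with
  | zero => simp [coarseFam]
  | succ n ih =>
    refine card_image_le.trans ((card_biUnion_le_card_mul _ _ _ fun δ _ => ih _).trans ?_)
    rw [card_product, Int.card_Icc, pow_succ, mul_comm]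
    exact le_of_eq (congrArg _ (by decide))

theorem coarse_last {V : Type} {r : V → V → Prop} {B : V → Prop} {x y : V}
    (h : Relation.ReflTransGen r x y) (hx : B x) :
    B y ∨ ∃ u w, B u ∧ ¬ B w ∧ r u w ∧ Relation.ReflTransGen r x u ∧
      Relation.ReflTransGen (fun a b => r a b ∧ ¬ B b) w y := by
  induction h with
  | refl => exact Or.inl hx
  | @tail y z h1 h2 ih =>
    by_cases hz : B z
    · exact Or.inl hz
    · right
      rcases ih with hy | ⟨u, w, a1, a2, a3, a4, a5⟩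
      · exact ⟨y, z, hy, hz, h2, h1, .refl⟩
      · exact ⟨u, w, a1, a2, a3, a4, a5.tail ⟨h2, hz⟩⟩

theorem coarse_chain {V : Type} (κ : V → ℤ × ℤ) (y : V) (n : ℕ) :
    ∀ (r : V → V → Prop) (x : V), (∀ u v, r u v → nrm (κ v - κ u) ≤ 1) →
      Relation.ReflTransGen r x y → 7 * n ≤ nrm (κ y - κ x) →
      ∃ C ∈ coarseFam n (κ x), C.card = n + 1 ∧
        (∀ c ∈ C, ∃ v, Relation.ReflTransGen r x v ∧ κ v = c) ∧
        ∀ c ∈ C, ∀ c' ∈ C, c ≠ c' → 7 ≤ nrm (c - c') := by
  induction n with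
  | zero =>
    intro r x _ _ _
    refine ⟨{κ x}, by simp [coarseFam], by simp, ?_, by simp⟩
    intro c hc
    exact ⟨x, .refl, (mem_singleton.1 hc).symm⟩
  | succ n ih =>
    intro r x hr h hn
    rcases coarse_last (B := fun v => nrm (κ v - κ x) ≤ 6) h (by simp [nrm]) with
      hy | ⟨u, w, a1, a2, a3, a4, a5⟩
    · omega
    have h1 := coarse_tri (κ w) (κ u) (κ x)
    have h2 := hr u w a3
    have h3 := coarse_tri (κ y) (κ w) (κ x)
    obtain ⟨C, hC, hc, hv, hs⟩ := ih _ w (fun u v h => hr u v h.1) a5 (by omega)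
    have hfar : ∀ c ∈ C, 7 ≤ nrm (c - κ x) := by
      intro c hc
      obtain ⟨v, h4, rfl⟩ := hv c hc
      rcases h4.cases_tail with rfl | ⟨_, _, _, h5⟩
      · omega
      · omega
    have hx : κ x ∉ C := fun h => by simpa [nrm] using hfar _ h
    refine ⟨insert (κ x) C, ?_, by rw [card_insert_of_notMem hx, hc], ?_, ?_⟩
    · refine mem_image.2 ⟨C, mem_biUnion.2 ⟨κ w - κ x, ?_, by simpa using hC⟩, rfl⟩
      have h4 : nrm (κ w - κ x) ≤ 7 := by omega
      simp only [nrm, Prod.fst_sub, Prod.snd_sub] at h4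
      simp only [mem_product, mem_Icc, Prod.fst_sub, Prod.snd_sub]
      omega
    · intro c hc
      rcases mem_insert.1 hc with rfl | hc
      · exact ⟨x, .refl, rfl⟩
      · obtain ⟨v, h4, rfl⟩ := hv c hc
        exact ⟨v, (a4.tail a3).trans (Relation.ReflTransGen.mono (fun _ _ h => h.1) _ _ h4), rfl⟩
    · intro c hc c' hc' hne
      rcases mem_insert.1 hc with rfl | hc <;> rcases mem_insert.1 hc' with rfl | hc'
      · exact absurd rfl hne
      · rw [coarse_symm]; exact hfar _ hc'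
      · exact hfar _ hc
      · exact hs _ hc _ hc' hne

theorem coarse_first {V : Type} {r : V → V → Prop} (φ : V → ℕ) (hr : ∀ u v, r u v → φ v ≤ φ u + 1)
    {M : ℕ} {v t : V} (h : Relation.ReflTransGen r v t) (hv : φ v < M) :
    (∃ y, M ≤ φ y ∧ Relation.ReflTransGen (fun a b => φ a ≤ M ∧ φ b ≤ M ∧ r a b) v y) ∨
      (φ t < M ∧ Relation.ReflTransGen (fun a b => φ a ≤ M ∧ φ b ≤ M ∧ r a b) v t) := by
  induction h with
  | refl => exact Or.inr ⟨hv, .refl⟩
  | @tail y z _ h2 ih =>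
    rcases ih with h | ⟨h3, h4⟩
    · exact Or.inl h
    · have h5 := hr _ _ h2
      have h6 := h4.tail (show _ ∧ _ ∧ r y z from ⟨h3.le, by omega, h2⟩)
      by_cases hz : φ z < M
      · exact Or.inr ⟨hz, h6⟩
      · exact Or.inl ⟨z, by omega, h6⟩

theorem coarse_div {L : ℕ} (hL : 1 ≤ L) {a b : ℤ} (h : (a - b).natAbs ≤ 1) :
    (a / L - b / L).natAbs ≤ 1 := by
  have hL' : (0 : ℤ) < L := by exact_mod_cast hL
  have h1 : a / L ≤ (b + 1 * L) / L := Int.ediv_le_ediv hL' (by omega)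
  have h2 : b / L ≤ (a + 1 * L) / L := Int.ediv_le_ediv hL' (by omega)
  rw [Int.add_mul_ediv_right _ _ hL'.ne'] at h1 h2
  omega

theorem coarse_rem {L : ℕ} (hL : 1 ≤ L) (a : ℤ) : 0 ≤ a - L * (a / L) ∧ a - L * (a / L) < L := by
  have hL' : (0 : ℤ) < L := by exact_mod_cast hL
  rw [← Int.emod_def]
  exact ⟨Int.emod_nonneg _ hL'.ne', Int.emod_lt_of_pos _ hL'⟩

theorem coarse_smul (L : ℕ) (k k' : ℤ × ℤ) :
    nrm (((L : ℤ) * k.1, (L : ℤ) * k.2) - ((L : ℤ) * k'.1, (L : ℤ) * k'.2)) = L * nrm (k - k') := by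
  simp only [nrm, Prod.fst_sub, Prod.snd_sub, ← mul_sub, Int.natAbs_mul, Int.natAbs_natCast,
    Nat.mul_max_mul_left]


/-- Cells `k = (⌊x / L⌋, ⌊y / L⌋)` with centre `L k`.  If `x ↔ y` and `nrm (pos x - pos y) > 10 L`,
every cell met by the open path is good (`Cr` occurs) and the good cells contain a self-avoiding
nearest neighbour path with `n ≥ nrm / L - 1` steps from the cell of `x`; at most `4 ^ n` such
paths, each contains `(n + 1) / 49` cells in one residue class mod 7. -/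
theorem coarse (L : ℕ) (hL : 2 ≤ L) : ∃ A m : ℝ, 0 < m ∧
    ∀ (V E : Type) [Fintype V] [DecidableEq V] [Fintype E] [DecidableEq E] (G : Gr V E)
      (pos : V → ℤ × ℤ) (μ : (E → Bool) → ℝ), G.GLat pos → (∀ ω, 0 ≤ μ ω) → ∑ ω, μ ω = 1 →
      (∀ C : Finset (ℤ × ℤ), (∀ c ∈ C, ∀ c' ∈ C, c ≠ c' → 7 * L ≤ nrm (c - c')) →
        (∀ c ∈ C, ∃ v, 3 * L < nrm (pos v - c)) →
        pr μ (fun ω => ∀ c ∈ C, G.Cr (fun v => pos v - c)
          (univ.filter fun v => nrm (pos v - c) ≤ 3 * L) L ω) ≤ ((1 / 8) ^ 49) ^ C.card) →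
      ∀ x y, pr μ (fun ω => G.Conn ω x y) ≤ A * exp (-m * nrm (pos x - pos y)) := by
  classical
  have hL1 : 1 ≤ L := by omega
  have hL0 : (0 : ℝ) < L := by exact_mod_cast hL1
  refine ⟨exp 1, 1 / (7 * L), by positivity, ?_⟩
  intro V E _ _ _ _ G pos μ hG h0 h1 H x y
  rw [← exp_add]
  set D := nrm (pos x - pos y) with hD
  by_cases hD6 : D ≤ 6 * L
  · refine (pr_mono h0 (B := fun _ => True) fun _ _ => trivial).trans ?_
    rw [pr_true, h1]
    refine one_le_exp ?_
    have : (D : ℝ) ≤ 6 * L := by exact_mod_cast hD6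
    have h2 : 1 / (7 * L) * (D : ℝ) ≤ 1 := by
      rw [div_mul_eq_mul_div, div_le_one (by positivity)]; linarith
    linarith
  set κ : V → ℤ × ℤ := fun v => ((pos v).1 / L, (pos v).2 / L) with hκ
  set sc : ℤ × ℤ → ℤ × ℤ := fun k => ((L : ℤ) * k.1, (L : ℤ) * k.2) with hsc
  have hsc1 : ∀ k k', nrm (sc k - sc k') = L * nrm (k - k') := coarse_smul L
  have hrem : ∀ u v, nrm ((pos u - sc (κ u)) - (pos v - sc (κ v))) ≤ L ∧
      nrm (pos u - sc (κ u)) ≤ L := by
    intro u v
    have a1 := coarse_rem hL1 (pos u).1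
    have a2 := coarse_rem hL1 (pos u).2
    have a3 := coarse_rem hL1 (pos v).1
    have a4 := coarse_rem hL1 (pos v).2
    simp only [nrm, Prod.fst_sub, Prod.snd_sub, hsc, hκ]
    omega
  have hadj : ∀ ω u v, G.Adj ω u v → ((pos v).1 - (pos u).1).natAbs ≤ 1 ∧
      ((pos v).2 - (pos u).2).natAbs ≤ 1 := by
    rintro ω u v ⟨e, -, ⟨rfl, rfl⟩ | ⟨rfl, rfl⟩⟩ <;> have := hG.adj e <;> omega
  set n := nrm (κ y - κ x) / 7 with hn
  have hDn : D ≤ 7 * L * (n + 1) := by
    have a1 := (hrem x y).1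
    have a2 := hsc1 (κ x) (κ y)
    have a3 : D ≤ nrm ((pos x - sc (κ x)) - (pos y - sc (κ y))) + nrm (sc (κ x) - sc (κ y)) := by
      simp only [hD, nrm, Prod.fst_sub, Prod.snd_sub]; omega
    have a4 : nrm (κ x - κ y) + 1 ≤ 7 * (n + 1) := by rw [coarse_symm]; omega
    have a5 := Nat.mul_le_mul_left L a4
    nlinarith
  have hfar : ∀ c : ℤ × ℤ, 3 * L < nrm (pos x - c) ∨ 3 * L < nrm (pos y - c) := by
    intro c
    have a1 := coarse_tri (pos x) c (pos y)
    rw [coarse_symm c] at a1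
    omega
  have hinj : Function.Injective sc := by
    intro k k' h
    have a1 := hsc1 k k'
    rw [h, sub_self] at a1
    have a2 : nrm (k - k') = 0 := by
      rcases Nat.mul_eq_zero.1 a1.symm with h | h
      · omega
      · exact h
    simp only [nrm, Prod.fst_sub, Prod.snd_sub] at a2
    exact Prod.ext (by omega) (by omega)
  obtain ⟨F, hF⟩ : ∃ F : Finset (Finset (ℤ × ℤ)), ∀ C, C ∈ F ↔ C ∈ coarseFam n (κ x) ∧
      C.card = n + 1 ∧ ∀ c ∈ C, ∀ c' ∈ C, c ≠ c' → 7 ≤ nrm (c - c') :=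
    ⟨(coarseFam n (κ x)).filter _, fun C => mem_filter⟩
  calc pr μ (fun ω => G.Conn ω x y)
      ≤ pr μ (fun ω => ∃ C ∈ F, ∀ c ∈ C.image sc, G.Cr (fun v => pos v - c)
          (univ.filter fun v => nrm (pos v - c) ≤ 3 * L) L ω) := by
        refine pr_mono h0 fun ω h => ?_
        have b1 : ∀ u v, G.Adj ω u v → nrm (κ v - κ u) ≤ 1 := by
          intro u v h
          have a1 := coarse_div hL1 (hadj ω u v h).1
          have a2 := coarse_div hL1 (hadj ω u v h).2
          simp only [nrm, Prod.fst_sub, Prod.snd_sub, hκ]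
          omega
        obtain ⟨C, hC, hc, hv, hs⟩ := coarse_chain κ y n (G.Adj ω) x b1 h (by omega)
        refine ⟨C, (hF C).2 ⟨hC, hc, hs⟩, fun c hc => ?_⟩
        obtain ⟨k, hk, rfl⟩ := mem_image.1 hc
        obtain ⟨v, hv, rfl⟩ := hv k hk
        have a1 := (hrem v v).2
        obtain ⟨t, ht, hvt⟩ : ∃ t, 3 * L < nrm (pos t - sc (κ v)) ∧ G.Conn ω v t := by
          rcases hfar (sc (κ v)) with a | a
          · exact ⟨x, a, Gr.Conn.symm hv⟩
          · exact ⟨y, a, (Gr.Conn.symm hv).trans h⟩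
        have b2 : ∀ a b, G.Adj ω a b →
            nrm (pos b - sc (κ v)) ≤ nrm (pos a - sc (κ v)) + 1 := by
          intro a b hab
          have := hadj ω a b hab
          simp only [nrm, Prod.fst_sub, Prod.snd_sub]
          omega
        rcases coarse_first (fun w => nrm (pos w - sc (κ v))) (M := 2 * L) b2
          hvt (by omega) with ⟨z, a2, a3⟩ | ⟨a2, -⟩
        · refine ⟨v, z, a1, a2, Relation.ReflTransGen.mono
            (fun a b hab => ⟨⟨?_, hab.1⟩, ⟨?_, hab.2.1⟩, hab.2.2⟩) _ _ a3⟩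
          · exact mem_filter.2 ⟨mem_univ _, by omega⟩
          · exact mem_filter.2 ⟨mem_univ _, by omega⟩
        · omega
    _ ≤ ∑ C ∈ F, pr μ (fun ω => ∀ c ∈ C.image sc, G.Cr (fun v => pos v - c)
          (univ.filter fun v => nrm (pos v - c) ≤ 3 * L) L ω) := pr_exists_le h0 F _
    _ ≤ ∑ _C ∈ F, ((1 / 8 : ℝ) ^ 49) ^ n := by
        refine sum_le_sum fun C hC => ?_
        obtain ⟨-, hc, hs⟩ := (hF C).1 hC
        refine (H _ ?_ fun c _ => ?_).trans ?_
        · intro c hc c' hc' hne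
          obtain ⟨k, hk, rfl⟩ := mem_image.1 hc
          obtain ⟨k', hk', rfl⟩ := mem_image.1 hc'
          rw [hsc1, mul_comm]
          exact Nat.mul_le_mul_left _ (hs k hk k' hk' fun h => hne (by rw [h]))
        · rcases hfar c with a | a
          exacts [⟨x, a⟩, ⟨y, a⟩]
        · rw [card_image_of_injective _ hinj, hc]
          exact pow_le_pow_of_le_one (by positivity) (by norm_num) (Nat.le_succ n)
    _ ≤ 225 ^ n * ((1 / 8 : ℝ) ^ 49) ^ n := by
        rw [sum_const, nsmul_eq_mul]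
        have : F.card ≤ 225 ^ n := 
          (card_le_card fun C hC => ((hF C).1 hC).1).trans (coarseFam_card _ _)
        gcongr
        exact_mod_cast this
    _ ≤ exp (-1) ^ n := by
        rw [← mul_pow]
        refine pow_le_pow_left₀ (by positivity) ?_ n
        rw [exp_neg, le_inv_comm₀ (by positivity) (exp_pos 1)]
        refine exp_one_lt_d9.le.trans ?_
        norm_num
    _ ≤ _ := by
        rw [← exp_nat_mul]
        refine exp_le_exp.2 ?_
        have a1 : (D : ℝ) ≤ 7 * L * (n + 1) := by exact_mod_cast hDn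
        have a2 : 1 / (7 * L) * (D : ℝ) ≤ n + 1 := by
          rw [div_mul_eq_mul_div, div_le_iff₀ (by positivity)]; linarith
        linarith

end Crest.Agent.R167
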