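import Crest.Agent.R167.Basic

/-! Row 167: the covariance lower bound. -/

set_option autoImplicit false
set_option linter.unusedSectionVars false

open MeasureTheory Finset Real

noncomputable section
namespace Crest.Agent.R167

variable {S : Type} [TopologicalSpace S] [CompactSpace S] [T2Space S] [SecondCountableTopology S]
  [MeasurableSpace S] [BorelSpace S] {ν : Measure S} [IsProbabilityMeasure ν] (P : Spin S ν)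
variable {V E : Type} [Fintype V] [DecidableEq V] [Fintype E] [DecidableEq E] (G : Gr V E)

/-- FKG for functions of arbitrary sign -/
theorem cov_fkg (μ f g : (V → Bool) → ℝ) (hμ₀ : ∀ a, 0 ≤ μ a) (hf : Monotone f) (hg : Monotone g)
    (hμ : ∀ a b, μ a * μ b ≤ μ (a ⊓ b) * μ (a ⊔ b)) :
    (∑ a, μ a * f a) * ∑ a, μ a * g a ≤ (∑ a, μ a) * ∑ a, μ a * (f a * g a) := by
  have h := fkg (μ := μ) (f := fun a => f a - f ⊥) (g := fun a => g a - g ⊥) hμ₀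
    (fun a => sub_nonneg.2 (hf bot_le)) (fun a => sub_nonneg.2 (hg bot_le))
    (fun a b hab => sub_le_sub_right (hf hab) _) (fun a b hab => sub_le_sub_right (hg hab) _) hμ
  have e1 : ∑ a, μ a * (f a - f ⊥) = ∑ a, μ a * f a - (∑ a, μ a) * f ⊥ := by
    rw [sum_mul, ← sum_sub_distrib]; exact sum_congr rfl fun a _ => by ring
  have e2 : ∑ a, μ a * (g a - g ⊥) = ∑ a, μ a * g a - (∑ a, μ a) * g ⊥ := by
    rw [sum_mul, ← sum_sub_distrib]; exact sum_congr rfl fun a _ => by ring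
  have e3 : ∑ a, μ a * ((f a - f ⊥) * (g a - g ⊥)) = ∑ a, μ a * (f a * g a)
      - (∑ a, μ a * f a) * g ⊥ - (∑ a, μ a * g a) * f ⊥ + (∑ a, μ a) * (f ⊥ * g ⊥) := by
    rw [sum_mul, sum_mul, sum_mul, ← sum_sub_distrib, ← sum_sub_distrib, ← sum_add_distrib]
    exact sum_congr rfl fun a _ => by ring
  rw [e1, e2, e3] at h
  nlinarith [h]

/-- negation of a sign configuration -/
def covNeg : (V → Bool) ≃ (V → Bool) where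
  toFun ξ v := !ξ v
  invFun ξ v := !ξ v
  left_inv ξ := by funext v; simp
  right_inv ξ := by funext v; simp

theorem cov_cst_neg (ω : E → Bool) (ξ : V → Bool) : G.Cst ω (covNeg ξ) ↔ G.Cst ω ξ := by
  unfold Gr.Cst covNeg
  simp

theorem cov_s_neg (a : V → ℝ) (ξ : V → Bool) :
    (fun v => sg (covNeg ξ v) * a v) = -fun v => sg (ξ v) * a v := by
  funext v
  change sg (!ξ v) * a v = -(sg (ξ v) * a v)
  cases ξ v <;> simp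

theorem cov_s_mono {a : V → ℝ} (ha : ∀ v, 0 ≤ a v) :
    Monotone fun (ξ : V → Bool) v => sg (ξ v) * a v := by
  intro ξ η h v
  refine mul_le_mul_of_nonneg_right ?_ (ha v)
  have := h v
  revert this
  cases ξ v <;> cases η v <;> simp

theorem cov_cst_lat {ω : E → Bool} {ξ η : V → Bool} (h : G.Cst ω ξ) (h' : G.Cst ω η) :
    G.Cst ω (ξ ⊓ η) ∧ G.Cst ω (ξ ⊔ η) :=
  ⟨fun e he => by simp only [Pi.inf_apply, h e he, h' e he],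
    fun e he => by simp only [Pi.sup_apply, h e he, h' e he]⟩

theorem cov_ind_lat {A : (V → Bool) → Prop} (h : ∀ ξ η, A ξ → A η → A (ξ ⊓ η) ∧ A (ξ ⊔ η))
    (ξ η : V → Bool) : ind (A ξ) * ind (A η) ≤ ind (A (ξ ⊓ η)) * ind (A (ξ ⊔ η)) := by
  rw [← ind_and, ← ind_and]
  exact ind_mono fun x => h ξ η x.1 x.2

/-- the pointwise inequality -/
theorem cov_point (ω : E → Bool) (f₁ f₂ u₁ u₂ : (V → Bool) → ℝ) (A₁ A₂ : (V → Bool) → Prop)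
    (H : Prop) (ε : ℝ) (hε : 0 < ε) (m₁ : Monotone f₁) (m₂ : Monotone f₂)
    (o₁ : ∀ ξ, f₁ (covNeg ξ) = -f₁ ξ) (o₂ : ∀ ξ, f₂ (covNeg ξ) = -f₂ ξ)
    (p₁ : ∀ ξ, 0 ≤ u₁ ξ) (p₂ : ∀ ξ, 0 ≤ u₂ ξ)
    (l₁ : ∀ ξ, A₁ ξ → 2 * ε * (1 - u₁ ξ) - ε / 2 ≤ f₁ ξ)
    (l₂ : ∀ ξ, A₂ ξ → 2 * ε * (1 - u₂ ξ) - ε / 2 ≤ f₂ ξ)
    (hH : H → ∃ v₀, ∀ ξ, G.Cst ω ξ → ξ v₀ = true → A₁ ξ ∧ A₂ ξ) :
    ε ^ 2 / 4 * ((∑ ξ, ind (G.Cst ω ξ)) * ind H - 4 * ∑ ξ, ind (G.Cst ω ξ) * (ind (A₁ ξ) * u₁ ξ)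
      - 4 * ∑ ξ, ind (G.Cst ω ξ) * (ind (A₂ ξ) * u₂ ξ)) ≤
    ∑ ξ, ind (G.Cst ω ξ) * (f₁ ξ * f₂ ξ) := by
  have hpos : ∀ A : (V → Bool) → Prop, A (fun _ => true) → 0 < ∑ ξ, ind (A ξ) := fun A hA =>
    sum_pos' (fun ξ _ => ind_nonneg _) ⟨fun _ => true, mem_univ _, by rw [ind_of hA]; norm_num⟩
  have hU₁ : 0 ≤ ∑ ξ, ind (G.Cst ω ξ) * (ind (A₁ ξ) * u₁ ξ) :=
    sum_nonneg fun ξ _ => mul_nonneg (ind_nonneg _) (mul_nonneg (ind_nonneg _) (p₁ ξ))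
  have hU₂ : 0 ≤ ∑ ξ, ind (G.Cst ω ξ) * (ind (A₂ ξ) * u₂ ξ) :=
    sum_nonneg fun ξ _ => mul_nonneg (ind_nonneg _) (mul_nonneg (ind_nonneg _) (p₂ ξ))
  have hε2 : 0 < ε ^ 2 / 4 := by positivity
  have h0 : 0 ≤ ∑ ξ, ind (G.Cst ω ξ) * (f₁ ξ * f₂ ξ) := by
    have h1 := cov_fkg (fun ξ => ind (G.Cst ω ξ)) f₁ f₂ (fun _ => ind_nonneg _) m₁ m₂
      (cov_ind_lat fun ξ η => cov_cst_lat G)
    have h2 : ∑ ξ, ind (G.Cst ω ξ) * f₁ ξ = 0 := by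
      have := (covNeg (V := V)).sum_comp fun ξ => ind (G.Cst ω ξ) * f₁ ξ
      simp only [o₁, ind_congr (cov_cst_neg G ω _), mul_neg, sum_neg_distrib] at this
      linarith
    rw [h2, zero_mul] at h1
    exact nonneg_of_mul_nonneg_right h1 (hpos _ fun e _ => rfl) |> fun h => h
  by_cases hh : H
  swap
  · rw [ind_of_not hh]
    nlinarith
  obtain ⟨v₀, hv₀⟩ := hH hh
  rw [ind_of hh, mul_one]
  set w : (V → Bool) → ℝ := fun ξ => ind (G.Cst ω ξ ∧ ξ v₀ = true) with hw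
  have hhalf : ∀ F : (V → Bool) → ℝ, (∀ ξ, F (covNeg ξ) = F ξ) →
      ∑ ξ, ind (G.Cst ω ξ) * F ξ = 2 * ∑ ξ, w ξ * F ξ := by
    intro F hF
    have := (covNeg (V := V)).sum_comp fun ξ => w ξ * F ξ
    rw [two_mul]
    nth_rewrite 1 [← this]
    rw [← sum_add_distrib]
    refine sum_congr rfl fun ξ _ => ?_
    rw [hF, hw]
    simp only [ind_and, ind_congr (cov_cst_neg G ω _)]
    change _ = _ * ind ((!ξ v₀) = true) * _ + _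
    cases ξ v₀ <;> simp
  have hN : ∑ ξ, ind (G.Cst ω ξ) = 2 * ∑ ξ, w ξ := by
    simpa using hhalf (fun _ => 1) fun _ => rfl
  have hD := hhalf (fun ξ => f₁ ξ * f₂ ξ) fun ξ => by rw [o₁, o₂]; ring
  have hM : 0 < ∑ ξ, w ξ := hpos (fun ξ => G.Cst ω ξ ∧ ξ v₀ = true) ⟨fun e _ => rfl, rfl⟩
  have hlow : ∀ (f u : (V → Bool) → ℝ) (A : (V → Bool) → Prop), (∀ ξ, 0 ≤ u ξ) →
      (∀ ξ, A ξ → 2 * ε * (1 - u ξ) - ε / 2 ≤ f ξ) → (∀ ξ, G.Cst ω ξ → ξ v₀ = true → A ξ) →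
      3 / 2 * ε * ∑ ξ, w ξ - 2 * ε * ∑ ξ, ind (G.Cst ω ξ) * (ind (A ξ) * u ξ)
        ≤ ∑ ξ, w ξ * f ξ := by
    intro f u A hu hl hA
    rw [mul_sum, mul_sum, ← sum_sub_distrib]
    refine sum_le_sum fun ξ _ => ?_
    by_cases hξ : G.Cst ω ξ ∧ ξ v₀ = true
    · have hA' := hA ξ hξ.1 hξ.2
      have := hl ξ hA'
      simp only [hw, ind_of hξ, ind_of hξ.1, ind_of hA']
      linarith
    · simp only [hw, ind_of_not hξ]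
      have := mul_nonneg (ind_nonneg (G.Cst ω ξ)) (mul_nonneg (ind_nonneg (A ξ)) (hu ξ))
      nlinarith
  have hl₁ := hlow f₁ u₁ A₁ p₁ l₁ fun ξ a b => (hv₀ ξ a b).1
  have hl₂ := hlow f₂ u₂ A₂ p₂ l₂ fun ξ a b => (hv₀ ξ a b).2
  have hF := cov_fkg w f₁ f₂ (fun _ => ind_nonneg _) m₁ m₂
    (cov_ind_lat (A := fun ξ => G.Cst ω ξ ∧ ξ v₀ = true) fun ξ η a b =>
      ⟨⟨(cov_cst_lat G a.1 b.1).1, by simp [a.2, b.2]⟩,
        (cov_cst_lat G a.1 b.1).2, by simp [a.2, b.2]⟩)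
  rw [hN]
  set M := ∑ ξ, w ξ
  set U₁ := ∑ ξ, ind (G.Cst ω ξ) * (ind (A₁ ξ) * u₁ ξ)
  set U₂ := ∑ ξ, ind (G.Cst ω ξ) * (ind (A₂ ξ) * u₂ ξ)
  by_cases c₁ : M / 2 ≤ U₁
  · nlinarith
  by_cases c₂ : M / 2 ≤ U₂
  · nlinarith
  push Not at c₁ c₂
  have k₁ : ε * M / 2 ≤ ∑ ξ, w ξ * f₁ ξ := by nlinarith
  have k₂ : ε * M / 2 ≤ ∑ ξ, w ξ * f₂ ξ := by nlinarith
  have k₀ : 0 ≤ ε * M / 2 := by positivity
  have k₃ := (mul_le_mul k₁ k₂ k₀ (k₀.trans k₁)).trans hF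
  have k₄ : ε ^ 2 / 4 * M ≤ ∑ ξ, w ξ * (f₁ ξ * f₂ ξ) := by
    refine le_of_mul_le_mul_left ?_ hM
    nlinarith
  rw [hD]
  nlinarith

theorem cov_int {X : Type} [MeasurableSpace X] {μ : Measure X} {f₀ f₁ f₂ f₃ : X → ℝ}
    (i₀ : Integrable f₀ μ) (i₁ : Integrable f₁ μ) (i₂ : Integrable f₂ μ) (i₃ : Integrable f₃ μ)
    (c : ℝ) : ∫ x, (f₀ x - c * (f₁ x - 4 * f₂ x - 4 * f₃ x)) ∂μ =
      ∫ x, f₀ x ∂μ - c * (∫ x, f₁ x ∂μ - 4 * ∫ x, f₂ x ∂μ - 4 * ∫ x, f₃ x ∂μ) := by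
  have j₁ : Integrable (fun x => f₁ x - 4 * f₂ x) μ := i₁.sub (i₂.const_mul 4)
  have j₂ : Integrable (fun x => f₁ x - 4 * f₂ x - 4 * f₃ x) μ := j₁.sub (i₃.const_mul 4)
  rw [integral_sub i₀ (j₂.const_mul c), integral_const_mul, integral_sub j₁ (i₃.const_mul 4),
    integral_sub i₁ (i₂.const_mul 4), integral_const_mul, integral_const_mul]

/-- `flip_sym0`, `sum_cw`, `cw_sg`. For fixed moduli `a` and bonds `ω` the colourings in `Cst ω`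
form a sublattice of `V → Bool` closed under negation, so (`fkg` with an indicator weight, after
adding constants) `∑ D₁ D₂ ≥ 0`; on `HH` restrict to the sublattice `ξ v₀ = true` (half of the
colourings, `D₁ D₂` is even): the averages `d_i` of `D_i` are `≥ ε / 2` as soon as the average of
`u_i` is `≤ 1 / 2`. -/
theorem Spin.cov_lower {J : E → ℝ} (hJ : ∀ e, 0 ≤ J e) (𝓕₁ 𝓕₂ : Finset (Finset V))
    (D₁ D₂ u₁ u₂ Θ₁ Θ₂ : (V → ℝ) → ℝ) (ε : ℝ) (hε : 0 < ε)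
    (cD₁ : Continuous D₁) (cD₂ : Continuous D₂) (cu₁ : Continuous u₁) (cu₂ : Continuous u₂)
    (cΘ₁ : Continuous Θ₁) (cΘ₂ : Continuous Θ₂) (m₁ : Monotone D₁) (m₂ : Monotone D₂)
    (o₁ : ∀ s, D₁ (-s) = -D₁ s) (o₂ : ∀ s, D₂ (-s) = -D₂ s)
    (p₁ : ∀ s, 0 ≤ u₁ s) (p₂ : ∀ s, 0 ≤ u₂ s)
    (l₁ : ∀ s, (∃ A ∈ 𝓕₁, ∀ v ∈ A, 0 ≤ s v) → 2 * ε * (1 - u₁ s) - ε / 2 ≤ D₁ s)
    (l₂ : ∀ s, (∃ A ∈ 𝓕₂, ∀ v ∈ A, 0 ≤ s v) → 2 * ε * (1 - u₂ s) - ε / 2 ≤ D₂ s)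
    (t₁ : ∀ s : V → ℝ, (∀ v, |s v| ≤ 1) →
      ∑ ω, G.cw J s ω * ind (∃ A ∈ 𝓕₁, ∀ v ∈ A, 0 ≤ s v ∧ G.Alive ω v) ≤
        exp (∑ e, J e * (s (G.p e) * s (G.q e))) * Θ₁ s)
    (t₂ : ∀ s : V → ℝ, (∀ v, |s v| ≤ 1) →
      ∑ ω, G.cw J s ω * ind (∃ A ∈ 𝓕₂, ∀ v ∈ A, 0 ≤ s v ∧ G.Alive ω v) ≤
        exp (∑ e, J e * (s (G.p e) * s (G.q e))) * Θ₂ s) :
    ε ^ 2 / 4 * (pr (P.law G J) (G.HH 𝓕₁ 𝓕₂) * P.Z G J -
      4 * P.Ex G J (fun σ => Θ₁ (fun v => P.s (σ v)) * u₁ fun v => P.s (σ v)) -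
      4 * P.Ex G J (fun σ => Θ₂ (fun v => P.s (σ v)) * u₂ fun v => P.s (σ v))) ≤
    P.Ex G J fun σ => D₁ (fun v => P.s (σ v)) * D₂ fun v => P.s (σ v) := by
  set Ee : (V → ℝ) → ℝ := fun s => exp (∑ e, J e * (s (G.p e) * s (G.q e))) with hEe
  have cE : Continuous Ee := by rw [hEe]; fun_prop
  set W : (V → ℝ) → ℝ := fun s => ∑ ω, G.cw J s ω * ind (G.HH 𝓕₁ 𝓕₂ ω) with hW
  have cW : Continuous W :=
    continuous_finsetSum _ fun ω _ => (G.continuous_cw J ω).mul continuous_const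
  set Φ : (V → ℝ) → ℝ := fun s => Ee s * (D₁ s * D₂ s) -
    ε ^ 2 / 4 * (W s - 4 * (Ee s * (Θ₁ s * u₁ s)) - 4 * (Ee s * (Θ₂ s * u₂ s))) with hΦ
  have cΦ : Continuous Φ := by rw [hΦ]; fun_prop
  have key : ∀ a : V → ℝ, (∀ v, 0 ≤ a v) → (∀ v, a v ≤ 1) →
      0 ≤ ∑ ξ : V → Bool, Φ fun v => sg (ξ v) * a v := by
    intro a ha ha1
    set sx : (V → Bool) → V → ℝ := fun ξ v => sg (ξ v) * a v with hsx
    set A₁ : (E → Bool) → (V → Bool) → Prop := fun ω ξ =>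
      ∃ A ∈ 𝓕₁, ∀ v ∈ A, 0 ≤ sx ξ v ∧ G.Alive ω v with hA₁
    set A₂ : (E → Bool) → (V → Bool) → Prop := fun ω ξ =>
      ∃ A ∈ 𝓕₂, ∀ v ∈ A, 0 ≤ sx ξ v ∧ G.Alive ω v with hA₂
    set K : (E → Bool) → ℝ := ew (fun e => J e * (a (G.p e) * a (G.q e))) with hK
    have hK0 : ∀ ω, 0 ≤ K ω := ew_nonneg fun e => mul_nonneg (hJ e) (mul_nonneg (ha _) (ha _))
    have hcw : ∀ ξ ω, G.cw J (sx ξ) ω = K ω * ind (G.Cst ω ξ) := fun ξ ω => G.cw_sg J a ha ξ ω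
    have hε2 : 0 < ε ^ 2 / 4 := by positivity
    have h1 : ∀ ξ, ∑ ω, K ω * (ind (G.Cst ω ξ) * (D₁ (sx ξ) * D₂ (sx ξ)) -
        ε ^ 2 / 4 * (ind (G.Cst ω ξ) * ind (G.HH 𝓕₁ 𝓕₂ ω)
          - 4 * (ind (G.Cst ω ξ) * (ind (A₁ ω ξ) * u₁ (sx ξ)))
          - 4 * (ind (G.Cst ω ξ) * (ind (A₂ ω ξ) * u₂ (sx ξ))))) ≤ Φ (sx ξ) := by
      intro ξ
      have hb : ∀ v, |sx ξ v| ≤ 1 := fun v => by
        simp only [hsx, abs_mul, abs_sg, one_mul, abs_of_nonneg (ha v)]; exact ha1 v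
      have a₁ := mul_le_mul_of_nonneg_right (t₁ _ hb) (p₁ (sx ξ))
      have a₂ := mul_le_mul_of_nonneg_right (t₂ _ hb) (p₂ (sx ξ))
      have a₃ := G.sum_cw J (sx ξ)
      have a₄ : ∑ ω, K ω * (ind (G.Cst ω ξ) * (D₁ (sx ξ) * D₂ (sx ξ)) -
          ε ^ 2 / 4 * (ind (G.Cst ω ξ) * ind (G.HH 𝓕₁ 𝓕₂ ω)
            - 4 * (ind (G.Cst ω ξ) * (ind (A₁ ω ξ) * u₁ (sx ξ)))
            - 4 * (ind (G.Cst ω ξ) * (ind (A₂ ω ξ) * u₂ (sx ξ)))))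
          = (∑ ω, G.cw J (sx ξ) ω) * (D₁ (sx ξ) * D₂ (sx ξ)) - ε ^ 2 / 4 * (W (sx ξ)
            - 4 * ((∑ ω, G.cw J (sx ξ) ω * ind (A₁ ω ξ)) * u₁ (sx ξ))
            - 4 * ((∑ ω, G.cw J (sx ξ) ω * ind (A₂ ω ξ)) * u₂ (sx ξ))) := by
        simp only [hW, sum_mul, mul_sum, mul_sub, ← sum_sub_distrib, hcw]
        exact sum_congr rfl fun ω _ => by ring
      rw [a₄, a₃]
      simp only [hΦ, hEe, hA₁, hA₂]
      nlinarith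
    refine le_trans ?_ (sum_le_sum fun ξ _ => h1 ξ)
    rw [sum_comm]
    refine sum_nonneg fun ω _ => ?_
    rw [← mul_sum]
    refine mul_nonneg (hK0 ω) ?_
    have := cov_point G ω (fun ξ => D₁ (sx ξ)) (fun ξ => D₂ (sx ξ)) (fun ξ => u₁ (sx ξ))
      (fun ξ => u₂ (sx ξ)) (A₁ ω) (A₂ ω) (G.HH 𝓕₁ 𝓕₂ ω) ε hε (m₁.comp (cov_s_mono ha))
      (m₂.comp (cov_s_mono ha))
      (fun ξ => by rw [← o₁]; exact congrArg D₁ (cov_s_neg a ξ))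
      (fun ξ => by rw [← o₂]; exact congrArg D₂ (cov_s_neg a ξ))
      (fun ξ => p₁ _) (fun ξ => p₂ _)
      (fun ξ ⟨A, hA, h⟩ => l₁ _ ⟨A, hA, fun v hv => (h v hv).1⟩)
      (fun ξ ⟨A, hA, h⟩ => l₂ _ ⟨A, hA, fun v hv => (h v hv).1⟩)
      (by
        rintro ⟨v₀, P₁, hP₁, P₂, hP₂, c₁, c₂⟩
        refine ⟨v₀, fun ξ hξ h0 => ⟨⟨P₁, hP₁, fun v hv => ⟨?_, (c₁ v hv).2⟩⟩,
          P₂, hP₂, fun v hv => ⟨?_, (c₂ v hv).2⟩⟩⟩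
        · simp only [hsx, ← hξ.eq_of_conn (c₁ v hv).1, h0, sg_true, one_mul]; exact ha v
        · simp only [hsx, ← hξ.eq_of_conn (c₂ v hv).1, h0, sg_true, one_mul]; exact ha v)
    rw [sum_sub_distrib, ← mul_sum, sum_sub_distrib, sum_sub_distrib, ← mul_sum, ← mul_sum,
      ← sum_mul]
    linarith
  have hΦ' : ∀ s, Φ s = Ee s * (D₁ s * D₂ s) -
      ε ^ 2 / 4 * (W s - 4 * (Ee s * (Θ₁ s * u₁ s)) - 4 * (Ee s * (Θ₂ s * u₂ s))) := fun _ => rfl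
  clear_value Φ
  have hsym := P.flip_sym0 (fun σ t => P.hk G J σ * Φ t)
    (((P.continuous_hk G J).comp continuous_fst).mul (cΦ.comp continuous_snd))
    (fun σ v t => by rw [P.hk_update])
  have hnn : 0 ≤ ∫ σ, P.hk G J σ * Φ (fun v => P.s (σ v)) ∂(Measure.pi fun _ => ν) := by
    rw [hsym]
    refine mul_nonneg (by positivity) (integral_nonneg fun σ => ?_)
    have k1 := key (fun v => |P.s (σ v)|) (fun v => abs_nonneg _) fun v => P.s1 _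
    have k2 : 0 ≤ P.hk G J σ := (exp_pos _).le
    have k3 := mul_nonneg k2 k1
    rw [mul_sum] at k3
    exact k3
  have hEx : ∀ F : (V → ℝ) → ℝ, P.Ex G J (fun σ => F fun v => P.s (σ v)) =
      ∫ σ, P.hk G J σ * (Ee (fun v => P.s (σ v)) * F fun v => P.s (σ v))
        ∂(Measure.pi fun _ => ν) := fun F => by
    unfold Spin.Ex
    simp only [P.hd_eq, hEe, mul_assoc]
  have hint : ∀ F : (V → ℝ) → ℝ, Continuous F →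
      Integrable (fun σ => P.hk G J σ * F fun v => P.s (σ v)) (Measure.pi fun _ : V => ν) :=
    fun F hF => cint ((P.continuous_hk G J).mul (hF.comp P.continuous_sv))
  have hZ : pr (P.law G J) (G.HH 𝓕₁ 𝓕₂) * P.Z G J =
      ∫ σ, P.hk G J σ * W (fun v => P.s (σ v)) ∂(Measure.pi fun _ => ν) := by
    rw [P.pr_law, div_mul_cancel₀ _ (P.Z_pos G J).ne']
    rfl
  have i₀ := hint (fun s => Ee s * (D₁ s * D₂ s)) (by fun_prop)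
  have i₁ := hint W cW
  have i₂ := hint (fun s => Ee s * (Θ₁ s * u₁ s)) (by fun_prop)
  have i₃ := hint (fun s => Ee s * (Θ₂ s * u₂ s)) (by fun_prop)
  rw [hZ, hEx fun s => Θ₁ s * u₁ s, hEx fun s => Θ₂ s * u₂ s, hEx fun s => D₁ s * D₂ s,
    ← sub_nonneg]
  refine hnn.trans (le_of_eq ?_)
  rw [← cov_int i₀ i₁ i₂ i₃]
  refine integral_congr_ae (Filter.Eventually.of_forall fun σ => ?_)
  simp only [hΦ']
  ring

end Crest.Agent.R167
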