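import Crest.Agent.R167.Basic

/-! Row 167: cylindrical coordinates on the sphere; integrating out transverse components. -/

set_option autoImplicit false
set_option linter.unusedSectionVars false

open MeasureTheory Finset Real

noncomputable section
namespace Crest.Agent.R167

variable {V E : Type} [Fintype V] [DecidableEq V] [Fintype E] [DecidableEq E] (G : Gr V E)

/-- the point with height `σ 2` and longitude `θ` -/
def cyl (x : Sph 3 × T) : Sph 3 :=
  ⟨WithLp.toLp 2 ![√(1 - x.1.1 2 ^ 2) * cs x.2, √(1 - x.1.1 2 ^ 2) * sn x.2, x.1.1 2], by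
    have h : 0 ≤ 1 - x.1.1 2 ^ 2 := by nlinarith [sph_sq x.1]
    rw [mem_sphere_zero_iff_norm, ← sq_eq_sq₀ (norm_nonneg _) zero_le_one,
      EuclideanSpace.real_norm_sq_eq, Fin.sum_univ_three]
    simp only [Matrix.cons_val_zero, Matrix.cons_val_one, Matrix.cons_val, mul_pow,
      Real.sq_sqrt h]
    linear_combination (1 - x.1.1 2 ^ 2) * cs_sq x.2⟩

theorem cyl_0 (x : Sph 3 × T) : (cyl x).1 0 = √(1 - x.1.1 2 ^ 2) * cs x.2 := rfl
theorem cyl_1 (x : Sph 3 × T) : (cyl x).1 1 = √(1 - x.1.1 2 ^ 2) * sn x.2 := rfl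
theorem cyl_2 (x : Sph 3 × T) : (cyl x).1 2 = x.1.1 2 := rfl

theorem continuous_cyl : Continuous cyl := by
  unfold cyl
  fun_prop

/-- rotation by an angle -/
def decomp_rot (x : Sph 3 × T) : Sph 3 :=
  ⟨WithLp.toLp 2 ![cs x.2 * x.1.1 0 - sn x.2 * x.1.1 1, sn x.2 * x.1.1 0 + cs x.2 * x.1.1 1,
      x.1.1 2], by
    rw [mem_sphere_zero_iff_norm, ← sq_eq_sq₀ (norm_nonneg _) zero_le_one,
      EuclideanSpace.real_norm_sq_eq, Fin.sum_univ_three]
    simp only [Matrix.cons_val_zero, Matrix.cons_val_one, Matrix.cons_val]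
    linear_combination sph_sq x.1 + (x.1.1 0 ^ 2 + x.1.1 1 ^ 2) * cs_sq x.2⟩

theorem decomp_continuous_rot : Continuous decomp_rot := by
  unfold decomp_rot
  fun_prop

theorem decomp_rot_eq (σ : Sph 3) : ∃ θ₀ : T, ∀ θ, decomp_rot (σ, θ) = cyl (σ, θ + θ₀) := by
  let z : ℂ := ⟨σ.1 0, σ.1 1⟩
  have hz : ‖z‖ = √(1 - σ.1 2 ^ 2) := by
    rw [Complex.norm_eq_sqrt_sq_add_sq]
    congr 1
    linarith [sph_sq σ]
  have h0 : √(1 - σ.1 2 ^ 2) * cos z.arg = σ.1 0 := hz ▸ Complex.norm_mul_cos_arg z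
  have h1 : √(1 - σ.1 2 ^ 2) * sin z.arg = σ.1 1 := hz ▸ Complex.norm_mul_sin_arg z
  refine ⟨(z.arg : T), fun θ => sph_ext ?_ ?_ rfl⟩
  · rw [cyl_0, cs_add, cs_coe, sn_coe]
    change cs θ * σ.1 0 - sn θ * σ.1 1 = _
    linear_combination (-cs θ) * h0 + sn θ * h1
  · rw [cyl_1, sn_add, cs_coe, sn_coe]
    change sn θ * σ.1 0 + cs θ * σ.1 1 = _
    linear_combination (-sn θ) * h0 - cs θ * h1

/-- `(σ, θ) ↦ r01 θ σ` preserves the measure (Fubini and `mp_actI`), and for fixed `σ` it differs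
from `cyl (σ, ·)` by a translation of `θ` (polar coordinates, `Complex.arg`) -/
theorem mp_cyl : MeasurePreserving cyl ((usph 3).prod hT) (usph 3) := by
  refine ⟨continuous_cyl.measurable, ?_⟩
  ext s hs
  have hr := decomp_continuous_rot.measurable
  have hc := continuous_cyl.measurable
  rw [Measure.map_apply hc hs, Measure.prod_apply (hc hs)]
  have h1 : ∀ σ : Sph 3, hT (Prod.mk σ ⁻¹' (cyl ⁻¹' s)) = hT (Prod.mk σ ⁻¹' (decomp_rot ⁻¹' s)) := by
    intro σ
    obtain ⟨θ₀, h⟩ := decomp_rot_eq σ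
    rw [← measure_preimage_add_right hT θ₀]
    congr 1
    ext θ
    simp only [Set.mem_preimage, h]
  simp only [h1]
  rw [← Measure.prod_apply (hr hs), Measure.prod_apply_symm (hr hs)]
  have h2 : ∀ θ : T, usph 3 ((fun σ => (σ, θ)) ⁻¹' (decomp_rot ⁻¹' s)) = usph 3 s := by
    intro θ
    induction θ using QuotientAddGroup.induction_on with
    | H x =>
      have m : MeasurePreserving (r01 x) (usph 3) (usph 3) := mp_actI _
      rw [← m.measure_preimage hs.nullMeasurableSet]
      congr 1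
      ext σ
      have : decomp_rot (σ, (x : T)) = r01 x σ := by
        refine sph_ext ?_ ?_ ?_
        · rw [r01_0, ← cs_coe, ← sn_coe]; rfl
        · rw [r01_1, ← cs_coe, ← sn_coe]; rfl
        · rw [r01_2]; rfl
      simp only [Set.mem_preimage, this]
  simp only [h2]
  simp

theorem sph_pos : 0 < ∫ σ, max (sph.s σ) 0 ∂usph 3 := by
  have : (usph 3).IsOpenPosMeasure :=
    Measure.isOpenPosMeasure_smul _ (ENNReal.inv_ne_zero.2 (measure_ne_top _ _))
  refine Continuous.integral_pos_of_hasCompactSupport_nonneg_nonzero (x := sph.N)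
    (sph.cs.max continuous_const) (HasCompactSupport.of_compactSpace _)
    (fun σ => le_max_right _ _) ?_
  simp [sph.sN]

theorem sph_dec (J : E → ℝ) : sph.Dec G J (G.YX J) := by
  intro Λ out hout Ψ hΨ
  have c1 := continuous_pw' Λ out
  rw [int_site2 hT (usph 3) cyl continuous_cyl mp_cyl
    (F := fun σ => sph.hk G J (Λ.piecewise σ out) * Ψ fun v => sph.s (Λ.piecewise σ out v))
    (((sph.continuous_hk G J).comp c1).mul (hΨ.comp (sph.continuous_sv.comp c1)))]
  refine integral_congr_ae (Filter.Eventually.of_forall fun σ => ?_)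
  simp only [Gr.YX, Gr.ZX]
  rw [← integral_mul_const]
  refine integral_congr_ae (Filter.Eventually.of_forall fun θ => ?_)
  have h01 : ∀ v, (Λ.piecewise (fun v => cyl (σ v, θ v)) out v).1 0 =
        hat (sph.a (Λ.piecewise σ out v)) * cs (θ v) ∧
      (Λ.piecewise (fun v => cyl (σ v, θ v)) out v).1 1 =
        hat (sph.a (Λ.piecewise σ out v)) * sn (θ v) := by
    intro v
    by_cases hv : v ∈ Λ
    · simp only [piecewise_eq_of_mem _ _ _ hv, cyl_0, cyl_1, hat, Spin.a, sq_abs]
      exact ⟨rfl, rfl⟩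
    · have h1 := hout v hv
      simp only [piecewise_eq_of_notMem _ _ _ hv, hat, Spin.a, h1, one_pow, sub_self, sqrt_zero,
        zero_mul]
      have h2 := sph_sq (out v)
      change |(out v).1 2| = 1 at h1
      rw [← sq_abs ((out v).1 2), h1] at h2
      exact ⟨pow_eq_zero_iff two_ne_zero |>.1 (by nlinarith),
        pow_eq_zero_iff two_ne_zero |>.1 (by nlinarith)⟩
  have h2 : (fun v => sph.s (Λ.piecewise (fun v => cyl (σ v, θ v)) out v)) =
      fun v => sph.s (Λ.piecewise σ out v) := by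
    funext v
    by_cases hv : v ∈ Λ
    · simp only [piecewise_eq_of_mem _ _ _ hv]; rfl
    · simp only [piecewise_eq_of_notMem _ _ _ hv]
  simp only [h2, Spin.hk]
  congr 2
  refine sum_congr rfl fun e _ => ?_
  change J e * (_ * _ + _ * _) = _
  rw [(h01 _).1, (h01 _).1, (h01 _).2, (h01 _).2, cs_sub]
  ring

/-- symmetrise over `θ_v ↦ -θ_v` -/
theorem circ_dec (J : E → ℝ) : circ.Dec G J (G.YI J) := by
  intro Λ out hout Ψ hΨ
  have c1 := continuous_pw' Λ out
  let f : Bool → T → T := fun b θ => if b then θ else -θ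
  have fc : ∀ b, Continuous (f b) := fun b => by cases b <;> simp only [f] <;> simp <;> fun_prop
  have fm : ∀ b, MeasurePreserving (f b) hT hT := fun b => by
    cases b
    · exact Measure.measurePreserving_neg hT
    · exact MeasurePreserving.id hT
  have fcs : ∀ b θ, cs (f b θ) = cs θ := fun b θ => by cases b <;> simp [f, cs_neg]
  have fsn : ∀ b θ, sn (f b θ) = sg b * sn θ := fun b θ => by cases b <;> simp [f, sn_neg]
  have hF : Continuous fun σ : V → T =>
      circ.hk G J (Λ.piecewise σ out) * Ψ fun v => circ.s (Λ.piecewise σ out v) :=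
    ((circ.continuous_hk G J).comp c1).mul (hΨ.comp (circ.continuous_sv.comp c1))
  have h1 := fun ξ : V → Bool => int_site (fun v => f (ξ v)) (fun v => fm (ξ v)) hF
  have h2 : ∑ ξ : V → Bool, ∫ σ : V → T, circ.hk G J (Λ.piecewise (fun v => f (ξ v) (σ v)) out) *
      Ψ (fun v => circ.s (Λ.piecewise (fun v => f (ξ v) (σ v)) out v))
        ∂(Measure.pi fun _ => hT) = 2 ^ Fintype.card V *
      ∫ σ, circ.hk G J (Λ.piecewise σ out) * Ψ (fun v => circ.s (Λ.piecewise σ out v))
        ∂(Measure.pi fun _ => hT) := by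
    simp only [h1]
    simp
  rw [← integral_finsetSum _ fun ξ _ => cint
    (hF.comp (f := fun (σ : V → T) v => f (ξ v) (σ v))
      (continuous_pi fun v => (fc _).comp (continuous_apply v)))] at h2
  rw [← inv_mul_eq_iff_eq_mul₀ (by positivity)] at h2
  rw [← h2, ← integral_const_mul]
  refine integral_congr_ae (Filter.Eventually.of_forall fun σ => ?_)
  have h3 : ∀ ξ : V → Bool, (fun v => circ.s (Λ.piecewise (fun v => f (ξ v) (σ v)) out v)) =
      fun v => circ.s (Λ.piecewise σ out v) := by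
    intro ξ
    funext v
    by_cases hv : v ∈ Λ
    · simp only [piecewise_eq_of_mem _ _ _ hv]; exact fcs _ _
    · simp only [piecewise_eq_of_notMem _ _ _ hv]
  have h4 : ∀ (ξ : V → Bool) v, sn (Λ.piecewise (fun v => f (ξ v) (σ v)) out v) =
      sg (ξ v) * sn (Λ.piecewise σ out v) := by
    intro ξ v
    by_cases hv : v ∈ Λ
    · simp only [piecewise_eq_of_mem _ _ _ hv]; exact fsn _ _
    · simp only [piecewise_eq_of_notMem _ _ _ hv]
      have h5 := cs_sq (out v)
      have h6 : |cs (out v)| = 1 := hout v hv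
      rw [← sq_abs (cs (out v)), h6] at h5
      have : sn (out v) = 0 := pow_eq_zero_iff two_ne_zero |>.1 (by linarith)
      rw [this, mul_zero]
  let η : V → Bool := fun v => decide (0 ≤ sn (Λ.piecewise σ out v))
  have h5 : ∀ v, sn (Λ.piecewise σ out v) = sg (η v) * hat (circ.a (Λ.piecewise σ out v)) := by
    intro v
    have : hat (circ.a (Λ.piecewise σ out v)) = |sn (Λ.piecewise σ out v)| := by
      rw [← sqrt_sq_eq_abs]
      simp only [hat, Spin.a, sq_abs]
      congr 1
      change 1 - cs _ ^ 2 = _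
      linarith [cs_sq (Λ.piecewise σ out v)]
    rw [this]
    by_cases h : 0 ≤ sn (Λ.piecewise σ out v)
    · simp [η, h, abs_of_nonneg h]
    · simp [η, h, abs_of_neg (not_le.1 h)]
  simp only [h3, Gr.YI, Gr.ZI]
  rw [← sum_mul, ← mul_assoc]
  congr 2
  have hinv : Function.Involutive fun (ξ : V → Bool) v => (ξ v == η v) := fun ξ => by
    funext v
    simp only
    cases ξ v <;> cases η v <;> rfl
  refine Fintype.sum_bijective _ hinv.bijective _ _ fun ξ => ?_
  unfold Spin.hk
  congr 1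
  refine sum_congr rfl fun e _ => ?_
  change J e * (sn _ * sn _) = _
  rw [h4, h4, h5, h5, sg_beq, sg_beq]
  ring

end Crest.Agent.R167
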