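import Mathlib

/-! Row 167 (mass gap of the planar O(n) model): definitions (do not edit). -/

set_option autoImplicit false

open MeasureTheory Finset Real Matrix

noncomputable section
namespace Crest.Agent.R167

/-- a finite multigraph: edge `e` joins `p e` and `q e` -/
structure Gr (V E : Type) where
  p : E → V
  q : E → V

/-- the sign of a Boolean -/
def sg (b : Bool) : ℝ := if b then 1 else -1

open Classical in
/-- indicator of a proposition -/
def ind (P : Prop) : ℝ := if P then 1 else 0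

/-- sup norm on the lattice -/
def nrm (z : ℤ × ℤ) : ℕ := max z.1.natAbs z.2.natAbs

section Comb
variable {V E : Type}

/-- increasing events -/
def Up (A : (E → Bool) → Prop) : Prop := ∀ ω ω', ω ≤ ω' → A ω → A ω'

/-- events depending only on the edges in `D` -/
def Dep (D : E → Prop) (A : (E → Bool) → Prop) : Prop :=
  ∀ ω ω', (∀ e, D e → ω e = ω' e) → A ω → A ω'

/-- probability of an event for a weight function -/
def pr [Fintype E] [DecidableEq E] (μ : (E → Bool) → ℝ) (A : (E → Bool) → Prop) : ℝ :=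
  ∑ ω, μ ω * ind (A ω)

/-- Edwards-Sokal edge weights -/
def ew [Fintype E] (K : E → ℝ) (ω : E → Bool) : ℝ :=
  ∏ e, if ω e then 2 * sinh (K e) else exp (-K e)

/-- subgroups of the group of sign configurations (`true` is the unit) -/
def SubG (H : Finset (V → Bool)) : Prop :=
  (fun _ => true) ∈ H ∧ ∀ ξ ∈ H, ∀ η ∈ H, (fun v => ξ v == η v) ∈ H

open Classical in
/-- sign configurations equal to `true` outside `Λ` -/
def pol [Fintype V] [DecidableEq V] (Λ : Finset V) : Finset (V → Bool) :=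
  univ.filter fun ξ => ∀ v, v ∉ Λ → ξ v = true

/-- intersecting families -/
def Inter (𝓕 : Finset (Finset V)) : Prop := ∀ P ∈ 𝓕, ∀ P' ∈ 𝓕, ∃ v ∈ P, v ∈ P'

/-- probability that a product-distributed random set contains a member of `𝓕` -/
def ml [Fintype V] [DecidableEq V] (𝓕 : Finset (Finset V)) (x : V → ℝ) : ℝ :=
  ∑ A : V → Bool, (∏ v, if A v then x v else 1 - x v) * ind (∃ P ∈ 𝓕, ∀ v ∈ P, A v = true)

/-- bound for the probability that a vertex has an open edge -/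
def th (β x : ℝ) : ℝ := 1 - (1 - √(1 - exp (-(2 * β * max x 0)))) ^ 4

/-- smooth monotone functionals of the spins in `Q` with total gradient one -/
structure Fnl (Q : Finset V) [Fintype V] (F : (V → ℝ) → ℝ) : Prop where
  smooth : ContDiff ℝ 1 F
  mono : Monotone F
  shift : ∀ s t, F (fun v => s v + t) = F s + t
  dep : ∀ s s', (∀ v ∈ Q, s v = s' v) → F s = F s'

namespace Gr
variable (G : Gr V E)

/-- `ξ` is constant along open edges -/
def Cst (ω : E → Bool) (ξ : V → Bool) : Prop := ∀ e, ω e = true → ξ (G.p e) = ξ (G.q e)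

def Adj (ω : E → Bool) (u v : V) : Prop :=
  ∃ e, ω e = true ∧ (G.p e = u ∧ G.q e = v ∨ G.p e = v ∧ G.q e = u)

def Conn (ω : E → Bool) : V → V → Prop := Relation.ReflTransGen (G.Adj ω)

def ConnIn (S : Set V) (ω : E → Bool) : V → V → Prop :=
  Relation.ReflTransGen fun u v => u ∈ S ∧ v ∈ S ∧ G.Adj ω u v

def Touch (Λ : Finset V) (e : E) : Prop := G.p e ∈ Λ ∨ G.q e ∈ Λ

instance [DecidableEq V] (Λ : Finset V) (e : E) : Decidable (G.Touch Λ e) :=
  inferInstanceAs (Decidable (_ ∨ _))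

/-- couplings restricted to the edges touching `Λ` -/
def JL [DecidableEq V] (Λ : Finset V) (J : E → ℝ) (e : E) : ℝ := if G.Touch Λ e then J e else 0

def Alive (ω : E → Bool) (v : V) : Prop := ∃ e, ω e = true ∧ (G.p e = v ∨ G.q e = v)

/-- `In` is joined to the complement of `In ∪ Λ` by open edges touching `Λ` -/
def Cross (In Λ : Finset V) (ω : E → Bool) : Prop :=
  ¬ ∃ ξ : V → Bool, (∀ e, G.Touch Λ e → ω e = true → ξ (G.p e) = ξ (G.q e)) ∧
    (∀ v ∈ In, ξ v = false) ∧ ∀ v, v ∉ In → v ∉ Λ → ξ v = true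

/-- number of half-edges at `v` -/
def deg [Fintype E] [DecidableEq V] (v : V) : ℕ :=
  (univ.filter fun e => G.p e = v).card + (univ.filter fun e => G.q e = v).card

/-- joint weight of the spin component `s` and the bond configuration -/
def cw [Fintype E] (J : E → ℝ) (s : V → ℝ) (ω : E → Bool) : ℝ :=
  ∏ e, if ω e then exp (J e * (s (G.p e) * s (G.q e))) - exp (-(J e * |s (G.p e) * s (G.q e)|))
    else exp (-(J e * |s (G.p e) * s (G.q e)|))

/-- effective Ising couplings -/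
def KK (J : E → ℝ) (a : V → unitInterval) (e : E) : ℝ := J e * (a (G.p e) * a (G.q e))

/-- number of elements of `H` constant on the clusters -/
def NH (H : Finset (V → Bool)) (ω : E → Bool) : ℝ := ∑ ξ ∈ H, ind (G.Cst ω ξ)

/-- Ising partition function -/
def ZI [Fintype E] (H : Finset (V → Bool)) (K : E → ℝ) : ℝ :=
  ∑ ξ ∈ H, exp (∑ e, K e * (sg (ξ (G.p e)) * sg (ξ (G.q e))))

/-- one cluster contains a member of `𝓕₁` and a member of `𝓕₂` -/
def HH (𝓕₁ 𝓕₂ : Finset (Finset V)) (ω : E → Bool) : Prop :=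
  ∃ v₀, ∃ P₁ ∈ 𝓕₁, ∃ P₂ ∈ 𝓕₂, (∀ v ∈ P₁, G.Conn ω v₀ v ∧ G.Alive ω v) ∧
    ∀ v ∈ P₂, G.Conn ω v₀ v ∧ G.Alive ω v

/-- crossing of the annulus between radii `L` and `2 L` -/
def Cr (pos : V → ℤ × ℤ) (U : Finset V) (L : ℕ) (ω : E → Bool) : Prop :=
  ∃ x y, nrm (pos x) ≤ L ∧ 2 * L ≤ nrm (pos y) ∧
    G.ConnIn {v | v ∈ U ∧ nrm (pos v) ≤ 2 * L} ω x y

/-- vertical crossing from height `L` to height `2 L` -/
def VC (pos : V → ℤ × ℤ) (U : Finset V) (L : ℕ) (ω : E → Bool) : Prop :=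
  ∃ x y, (pos x).2 ≤ L ∧ 2 * (L : ℤ) ≤ (pos y).2 ∧
    G.ConnIn {v | v ∈ U ∧ nrm (pos v) ≤ 2 * L} ω x y

/-- identify all vertices outside `U` with `v₀` -/
def collapse [DecidableEq V] (U : Finset V) (v₀ : V) : Gr V E :=
  ⟨fun e => if G.p e ∈ U then G.p e else v₀, fun e => if G.q e ∈ U then G.q e else v₀⟩

/-- the part `U` of the graph is a piece of the box of radius `M` of the square lattice -/
structure Lat [Fintype E] [DecidableEq V] (pos : V → ℤ × ℤ) (U : Finset V) (M : ℕ) : Prop where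
  inj : ∀ u ∈ U, ∀ v ∈ U, pos u = pos v → u = v
  sub : ∀ v ∈ U, nrm (pos v) ≤ M
  adj : ∀ e, G.p e ∈ U → G.q e ∈ U →
    ((pos (G.p e)).1 - (pos (G.q e)).1).natAbs + ((pos (G.p e)).2 - (pos (G.q e)).2).natAbs = 1
  deep : ∀ e, (G.p e ∈ U ∧ nrm (pos (G.p e)) < M ∨ G.q e ∈ U ∧ nrm (pos (G.q e)) < M) →
    G.p e ∈ U ∧ G.q e ∈ U
  deg : ∀ v ∈ U, G.deg v ≤ 4

/-- the graph is a piece of the square lattice -/
structure GLat [Fintype E] [DecidableEq V] (pos : V → ℤ × ℤ) : Prop where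
  inj : Function.Injective pos
  adj : ∀ e,
    ((pos (G.p e)).1 - (pos (G.q e)).1).natAbs + ((pos (G.p e)).2 - (pos (G.q e)).2).natAbs = 1
  deg : ∀ v, G.deg v ≤ 4

/-- the properties of the law of the bond configuration used by the geometric arguments -/
structure FKLaw [Fintype E] [DecidableEq E] [DecidableEq V] (β : ℝ) (μ : (E → Bool) → ℝ) :
    Prop where
  nonneg : ∀ ω, 0 ≤ μ ω
  sum_one : ∑ ω, μ ω = 1
  fkg : ∀ A B, Up A → Up B → pr μ A * pr μ B ≤ pr μ fun ω => A ω ∧ B ω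
  ann : ∀ (ι : Type) [Fintype ι] (In Λ : ι → Finset V) (g : ι → V → ℝ) (C : ℝ),
    (∀ i, ∀ v ∈ In i, v ∉ Λ i ∧ g i v = π) → (∀ i v, v ∉ In i → v ∉ Λ i → g i v = 0) →
    (∀ i, ∑ e, (if G.Touch (Λ i) e then (g i (G.p e) - g i (G.q e)) ^ 2 else 0) ≤ C) →
    (∀ i j, i ≠ j → ∀ e, G.Touch (Λ i) e → ¬ G.Touch (Λ j) e) →
    pr μ (fun ω => ∀ i, G.Cross (In i) (Λ i) ω) ≤ (1 - exp (-(β * C / 2))) ^ Fintype.card ι

/-- the (wired) model of moduli and bonds in `Λ`, unnormalised -/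
def Aw [Fintype V] [DecidableEq V] [Fintype E] [DecidableEq E] (lam : Measure unitInterval)
    (Y : (V → unitInterval) → ℝ) (J : E → ℝ) (Λ : Finset V) (A : (E → Bool) → Prop) : ℝ :=
  ∫ a, Y (Λ.piecewise a fun _ => 1) *
    ∑ ω, ew (G.KK (G.JL Λ J) (Λ.piecewise a fun _ => 1)) ω * G.NH (pol Λ) ω * ind (A ω)
    ∂Measure.pi fun _ => lam

end Gr

/-- positive, continuous, log-supermodular functions of the moduli -/
structure YOK (Y : (V → unitInterval) → ℝ) : Prop where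
  cont : Continuous Y
  pos : ∀ a, 0 < Y a
  y4 : ∀ a a', Y a * Y a' ≤ Y (a ⊓ a') * Y (a ⊔ a')

end Comb

/-! ## Spin systems -/

/-- Spins with a distinguished component `s`, interaction `s s + k`, pole `N`, rotations `R` moving
the pole and a reflection `fl` of the component `s`. -/
structure Spin (S : Type) [TopologicalSpace S] [MeasurableSpace S] (ν : Measure S) where
  s : S → ℝ
  k : S → S → ℝ
  N : S
  R : ℝ → S → S
  fl : S → S
  cs : Continuous s
  ck : Continuous fun x : S × S => k x.1 x.2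
  cR : ∀ α, Continuous (R α)
  cfl : Continuous fl
  s1 : ∀ σ, |s σ| ≤ 1
  sN : s N = 1
  R0 : ∀ σ, R 0 σ = σ
  sR : s (R π N) = -1
  sR' : s (R (-π) N) = -1
  mR : ∀ α, MeasurePreserving (R α) ν ν
  mfl : MeasurePreserving fl ν ν
  sfl : ∀ σ, s (fl σ) = -s σ
  kfl : ∀ σ τ, k (fl σ) τ = k σ τ ∧ k σ (fl τ) = k σ τ
  kp : ∀ σ τ, |s σ| = 1 → k σ τ = 0 ∧ k τ σ = 0
  tw : ∀ α β σ τ, 2 * (s σ * s τ + k σ τ) - (α - β) ^ 2 ≤
    (s (R α σ) * s (R β τ) + k (R α σ) (R β τ)) +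
      (s (R (-α) σ) * s (R (-β) τ) + k (R (-α) σ) (R (-β) τ))
  d1 : ∀ σ τ, |s σ * s τ + k σ τ| ≤ 1

namespace Spin
variable {S : Type} [TopologicalSpace S] [MeasurableSpace S] {ν : Measure S} (P : Spin S ν)
  {V E : Type} [Fintype V] [DecidableEq V] [Fintype E] [DecidableEq E] (G : Gr V E) (J : E → ℝ)

/-- modulus of the distinguished component -/
def a (σ : S) : unitInterval := ⟨|P.s σ|, abs_nonneg _, P.s1 σ⟩

/-- Boltzmann factor of the transverse interaction -/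
def hk (σ : V → S) : ℝ := exp (∑ e, J e * P.k (σ (G.p e)) (σ (G.q e)))

/-- Boltzmann factor -/
def hd (σ : V → S) : ℝ :=
  exp (∑ e, J e * (P.s (σ (G.p e)) * P.s (σ (G.q e)) + P.k (σ (G.p e)) (σ (G.q e))))

/-- Boltzmann factor times the conditional probability of a bond event -/
def fk (A : (E → Bool) → Prop) (σ : V → S) : ℝ :=
  P.hk G J σ * ∑ ω, G.cw J (fun v => P.s (σ v)) ω * ind (A ω)

/-- unnormalised expectation, free boundary -/
def Ex (Φ : (V → S) → ℝ) : ℝ := ∫ σ, P.hd G J σ * Φ σ ∂Measure.pi fun _ => ν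

/-- partition function -/
def Z : ℝ := ∫ σ, P.hd G J σ ∂Measure.pi fun _ => ν

/-- law of the bond configuration -/
def law (ω : E → Bool) : ℝ :=
  (∫ σ, P.hk G J σ * G.cw J (fun v => P.s (σ v)) ω ∂Measure.pi fun _ => ν) / P.Z G J

/-- probability of a bond event in `Λ` with all outer spins at the pole -/
def wp (Λ : Finset V) (A : (E → Bool) → Prop) : ℝ :=
  (∫ σ, P.fk G (G.JL Λ J) A (Λ.piecewise σ fun _ => P.N) ∂Measure.pi fun _ => ν) /
    ∫ σ, P.hd G (G.JL Λ J) (Λ.piecewise σ fun _ => P.N) ∂Measure.pi fun _ => ν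

/-- integrating out the transverse components gives the function `Y` of the moduli -/
def Dec (Y : (V → unitInterval) → ℝ) : Prop :=
  ∀ (Λ : Finset V) (out : V → S), (∀ v, v ∉ Λ → |P.s (out v)| = 1) →
    ∀ Ψ : (V → ℝ) → ℝ, Continuous Ψ →
      ∫ σ, P.hk G J (Λ.piecewise σ out) * Ψ (fun v => P.s (Λ.piecewise σ out v))
        ∂(Measure.pi fun _ => ν) =
      ∫ σ, Y (fun v => P.a (Λ.piecewise σ out v)) * Ψ (fun v => P.s (Λ.piecewise σ out v))
        ∂(Measure.pi fun _ => ν)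

end Spin

/-! ## The circle -/

instance fact2pi : Fact (0 < 2 * π) := ⟨two_pi_pos⟩

abbrev T : Type := AddCircle (2 * π)

/-- normalised Haar measure -/
abbrev hT : Measure T := AddCircle.haarAddCircle

def cs (θ : T) : ℝ := Real.Angle.cos θ
def sn (θ : T) : ℝ := Real.Angle.sin θ

theorem cs_coe (x : ℝ) : cs (x : T) = cos x := Real.Angle.cos_coe x
theorem sn_coe (x : ℝ) : sn (x : T) = sin x := Real.Angle.sin_coe x
@[fun_prop] theorem continuous_cs : Continuous cs := Real.Angle.continuous_cos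
@[fun_prop] theorem continuous_sn : Continuous sn := Real.Angle.continuous_sin
theorem cs_add (θ ψ : T) : cs (θ + ψ) = cs θ * cs ψ - sn θ * sn ψ := Real.Angle.cos_add θ ψ
theorem sn_add (θ ψ : T) : sn (θ + ψ) = sn θ * cs ψ + cs θ * sn ψ := Real.Angle.sin_add θ ψ
theorem cs_neg (θ : T) : cs (-θ) = cs θ := Real.Angle.cos_neg θ
theorem sn_neg (θ : T) : sn (-θ) = -sn θ := Real.Angle.sin_neg θ
theorem cs_sq (θ : T) : cs θ ^ 2 + sn θ ^ 2 = 1 := Real.Angle.cos_sq_add_sin_sq θ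
theorem cs_sub (θ ψ : T) : cs (θ - ψ) = cs θ * cs ψ + sn θ * sn ψ := by
  rw [sub_eq_add_neg, cs_add, cs_neg, sn_neg]; ring
theorem sn_sub (θ ψ : T) : sn (θ - ψ) = sn θ * cs ψ - cs θ * sn ψ := by
  rw [sub_eq_add_neg, sn_add, cs_neg, sn_neg]; ring
theorem cs_zero : cs 0 = 1 := Real.Angle.cos_zero
theorem sn_zero : sn 0 = 0 := Real.Angle.sin_zero
theorem abs_cs_le (θ : T) : |cs θ| ≤ 1 := by
  rw [← sq_le_one_iff_abs_le_one]; nlinarith [cs_sq θ]
theorem abs_sn_le (θ : T) : |sn θ| ≤ 1 := by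
  rw [← sq_le_one_iff_abs_le_one]; nlinarith [cs_sq θ]

/-- the XY model -/
def circ : Spin T hT where
  s := cs
  k θ ψ := sn θ * sn ψ
  N := 0
  R α θ := θ + (α : T)
  fl θ := ((π : ℝ) : T) - θ
  cs := continuous_cs
  ck := by fun_prop
  cR α := by fun_prop
  cfl := by fun_prop
  s1 := abs_cs_le
  sN := cs_zero
  R0 θ := by simp
  sR := by rw [zero_add, cs_coe, cos_pi]
  sR' := by rw [zero_add, cs_coe, cos_neg, cos_pi]
  mR α := measurePreserving_add_right _ _
  mfl := Measure.measurePreserving_sub_left _ _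
  sfl θ := by rw [cs_sub, cs_coe, sn_coe]; simp
  kfl θ ψ := by simp [sn_sub, cs_coe, sn_coe]
  kp θ ψ h := by
    have : sn θ = 0 := by
      have h1 := cs_sq θ
      rw [← sq_abs (cs θ), h] at h1
      exact pow_eq_zero_iff two_ne_zero |>.1 (by linarith)
    simp [this]
  tw α β θ ψ := by
    simp only [← cs_sub]
    rw [show θ + (α : T) - (ψ + (β : T)) = θ - ψ + ((α - β : ℝ) : T) by
        rw [AddCircle.coe_sub]; abel,
      show θ + ((-α : ℝ) : T) - (ψ + ((-β : ℝ) : T)) = θ - ψ - ((α - β : ℝ) : T) by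
        rw [AddCircle.coe_sub, AddCircle.coe_neg, AddCircle.coe_neg]; abel,
      cs_add, cs_sub (θ - ψ), cs_coe]
    have h1 := abs_le.1 (abs_cs_le (θ - ψ))
    have h2 := one_sub_sq_div_two_le_cos (x := α - β)
    have h3 := cos_le_one (α - β)
    nlinarith
  d1 θ ψ := by rw [← cs_sub]; exact abs_cs_le _

/-- transverse modulus -/
def hat (a : unitInterval) : ℝ := √(1 - (a : ℝ) ^ 2)

/-- XY partition function -/
def Gr.ZX {V E : Type} [Fintype V] [Fintype E] (G : Gr V E) (K : E → ℝ) : ℝ :=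
  ∫ θ, exp (∑ e, K e * cs (θ (G.p e) - θ (G.q e))) ∂Measure.pi fun _ : V => hT

/-- the function `Y` of the XY model -/
def Gr.YI {V E : Type} [Fintype V] [DecidableEq V] [Fintype E] (G : Gr V E) (J : E → ℝ)
    (a : V → unitInterval) : ℝ :=
  (2 ^ Fintype.card V)⁻¹ * G.ZI univ fun e => J e * (hat (a (G.p e)) * hat (a (G.q e)))

/-- the function `Y` of the Heisenberg model -/
def Gr.YX {V E : Type} [Fintype V] [Fintype E] (G : Gr V E) (J : E → ℝ)
    (a : V → unitInterval) : ℝ :=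
  G.ZX fun e => J e * (hat (a (G.p e)) * hat (a (G.q e)))

/-! ## Spheres -/

abbrev Sph (n : ℕ) : Type := Metric.sphere (0 : EuclideanSpace ℝ (Fin n)) 1

/-- uniform probability measure on the sphere -/
def usph (n : ℕ) : Measure (Sph n) :=
  ((volume : Measure (EuclideanSpace ℝ (Fin n))).toSphere Set.univ)⁻¹ •
    (volume : Measure (EuclideanSpace ℝ (Fin n))).toSphere

instance (n : ℕ) [NeZero n] : IsProbabilityMeasure (usph n) := by
  have : NeZero (volume : Measure (EuclideanSpace ℝ (Fin n))).toSphere :=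
    ⟨Measure.toSphere_ne_zero _⟩
  unfold usph; infer_instance

/-- action of a linear isometry on the sphere -/
def actI {n : ℕ} (A : EuclideanSpace ℝ (Fin n) ≃ₗᵢ[ℝ] EuclideanSpace ℝ (Fin n)) (σ : Sph n) :
    Sph n := ⟨A σ, by simp⟩

theorem continuous_actI {n : ℕ} (A : EuclideanSpace ℝ (Fin n) ≃ₗᵢ[ℝ] EuclideanSpace ℝ (Fin n)) :
    Continuous (actI A) := by unfold actI; fun_prop

theorem mp_actI {n : ℕ} (A : EuclideanSpace ℝ (Fin n) ≃ₗᵢ[ℝ] EuclideanSpace ℝ (Fin n)) :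
    MeasurePreserving (actI A) (usph n) (usph n) := by
  refine MeasurePreserving.smul_measure ⟨(continuous_actI A).measurable, ?_⟩ _
  ext s hs
  rw [Measure.map_apply (continuous_actI A).measurable hs,
    Measure.toSphere_apply' _ ((continuous_actI A).measurable hs), Measure.toSphere_apply' _ hs]
  congr 1
  refine Eq.trans ?_ (A.measurePreserving.measure_preimage_emb A.toHomeomorph.measurableEmbedding _)
  congr 1
  ext x
  simp only [Set.mem_preimage, Set.mem_smul, Set.mem_image]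
  constructor
  · rintro ⟨r, hr, _, ⟨y, hy, rfl⟩, rfl⟩
    exact ⟨r, hr, _, ⟨_, hy, rfl⟩, by simp [actI]⟩
  · rintro ⟨r, hr, _, ⟨y, hy, rfl⟩, e⟩
    refine ⟨r, hr, _, ⟨actI A.symm y, by simpa [actI] using hy, rfl⟩, ?_⟩
    apply A.injective
    simp [actI, e]

/-- the isometry of an orthogonal matrix -/
def isoM {n : ℕ} (M : Matrix (Fin n) (Fin n) ℝ) (h : Mᵀ * M = 1) :
    EuclideanSpace ℝ (Fin n) ≃ₗᵢ[ℝ] EuclideanSpace ℝ (Fin n) :=
  LinearIsometry.toLinearIsometryEquiv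
    ((Matrix.toLpLin 2 2 M).isometryOfInner fun x y => by
      simp only [EuclideanSpace.inner_eq_star_dotProduct, Matrix.ofLp_toLpLin, Matrix.toLin'_apply,
        star_trivial]
      rw [dotProduct_mulVec, vecMul_mulVec, h, vecMul_one]) rfl

theorem isoM_apply {n : ℕ} (M : Matrix (Fin n) (Fin n) ℝ) (h : Mᵀ * M = 1)
    (x : EuclideanSpace ℝ (Fin n)) (i : Fin n) : isoM M h x i = ∑ j, M i j * x j := rfl

theorem sph_sq (σ : Sph 3) : σ.1 0 ^ 2 + σ.1 1 ^ 2 + σ.1 2 ^ 2 = 1 := by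
  have := EuclideanSpace.real_norm_sq_eq σ.1
  rw [mem_sphere_zero_iff_norm.1 σ.2, Fin.sum_univ_three] at this
  linarith

/-- rotation in the plane of the coordinates `0, 1` -/
def r01 (α : ℝ) : Sph 3 → Sph 3 :=
  actI (isoM !![cos α, -sin α, 0; sin α, cos α, 0; 0, 0, 1] (by
    ext i j
    fin_cases i <;> fin_cases j <;> simp [Matrix.mul_apply, Fin.sum_univ_three] <;>
      nlinarith [sin_sq_add_cos_sq α]))

/-- rotation in the plane of the coordinates `1, 2` -/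
def r12 (α : ℝ) : Sph 3 → Sph 3 :=
  actI (isoM !![1, 0, 0; 0, cos α, sin α; 0, -sin α, cos α] (by
    ext i j
    fin_cases i <;> fin_cases j <;> simp [Matrix.mul_apply, Fin.sum_univ_three] <;>
      nlinarith [sin_sq_add_cos_sq α]))

/-- reflection of the coordinate `2` -/
def rf2 : Sph 3 → Sph 3 :=
  actI (isoM !![1, 0, 0; 0, 1, 0; 0, 0, -1] (by
    ext i j
    fin_cases i <;> fin_cases j <;> simp [Matrix.mul_apply, Fin.sum_univ_three]))

theorem r01_0 (α : ℝ) (σ : Sph 3) : (r01 α σ).1 0 = cos α * σ.1 0 - sin α * σ.1 1 := by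
  simp [r01, actI, isoM_apply, Fin.sum_univ_three]; ring
theorem r01_1 (α : ℝ) (σ : Sph 3) : (r01 α σ).1 1 = sin α * σ.1 0 + cos α * σ.1 1 := by
  simp [r01, actI, isoM_apply, Fin.sum_univ_three]
theorem r01_2 (α : ℝ) (σ : Sph 3) : (r01 α σ).1 2 = σ.1 2 := by
  simp [r01, actI, isoM_apply, Fin.sum_univ_three]
theorem r12_0 (α : ℝ) (σ : Sph 3) : (r12 α σ).1 0 = σ.1 0 := by
  simp [r12, actI, isoM_apply, Fin.sum_univ_three]
theorem r12_1 (α : ℝ) (σ : Sph 3) : (r12 α σ).1 1 = cos α * σ.1 1 + sin α * σ.1 2 := by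
  simp [r12, actI, isoM_apply, Fin.sum_univ_three]
theorem r12_2 (α : ℝ) (σ : Sph 3) : (r12 α σ).1 2 = cos α * σ.1 2 - sin α * σ.1 1 := by
  simp [r12, actI, isoM_apply, Fin.sum_univ_three]; ring
theorem rf2_0 (σ : Sph 3) : (rf2 σ).1 0 = σ.1 0 := by
  simp [rf2, actI, isoM_apply, Fin.sum_univ_three]
theorem rf2_1 (σ : Sph 3) : (rf2 σ).1 1 = σ.1 1 := by
  simp [rf2, actI, isoM_apply, Fin.sum_univ_three]
theorem rf2_2 (σ : Sph 3) : (rf2 σ).1 2 = -σ.1 2 := by
  simp [rf2, actI, isoM_apply, Fin.sum_univ_three]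

theorem sph_ext {σ τ : Sph 3} (h0 : σ.1 0 = τ.1 0) (h1 : σ.1 1 = τ.1 1) (h2 : σ.1 2 = τ.1 2) :
    σ = τ := by
  ext i
  fin_cases i
  exacts [h0, h1, h2]

/-- the Heisenberg model -/
def sph : Spin (Sph 3) (usph 3) where
  s σ := σ.1 2
  k σ τ := σ.1 0 * τ.1 0 + σ.1 1 * τ.1 1
  N := ⟨EuclideanSpace.single 2 1, by simp⟩
  R := r12
  fl := rf2
  cs := by fun_prop
  ck := by fun_prop
  cR _ := continuous_actI _
  cfl := continuous_actI _
  s1 σ := by rw [← sq_le_one_iff_abs_le_one]; nlinarith [sph_sq σ]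
  sN := by simp
  R0 σ := sph_ext (r12_0 _ _) (by simp [r12_1]) (by simp [r12_2])
  sR := by simp [r12_2]
  sR' := by simp [r12_2]
  mR _ := mp_actI _
  mfl := mp_actI _
  sfl := rf2_2
  kfl σ τ := by simp [rf2_0, rf2_1]
  kp σ τ h := by
    have h1 := sph_sq σ
    rw [← sq_abs (σ.1 2), h] at h1
    have a : σ.1 0 = 0 := pow_eq_zero_iff two_ne_zero |>.1 (by nlinarith)
    have b : σ.1 1 = 0 := pow_eq_zero_iff two_ne_zero |>.1 (by nlinarith)
    simp [a, b]
  tw α β σ τ := by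
    simp only [r12_0, r12_1, r12_2, cos_neg, sin_neg]
    have h1 : σ.1 1 * τ.1 1 + σ.1 2 * τ.1 2 ≤ 1 := by
      nlinarith [sph_sq σ, sph_sq τ, sq_nonneg (σ.1 1 - τ.1 1), sq_nonneg (σ.1 2 - τ.1 2),
        sq_nonneg (σ.1 0), sq_nonneg (τ.1 0)]
    have h2 := one_sub_sq_div_two_le_cos (x := α - β)
    have h3 := cos_le_one (α - β)
    have h4 := mul_le_mul_of_nonneg_left h1 (sub_nonneg.2 h3)
    rw [cos_sub] at h2 h4
    linarith
  d1 σ τ := by
    rw [abs_le]
    constructor <;>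
      nlinarith [sph_sq σ, sph_sq τ, sq_nonneg (σ.1 1 - τ.1 1), sq_nonneg (σ.1 2 - τ.1 2),
        sq_nonneg (σ.1 0 - τ.1 0), sq_nonneg (σ.1 1 + τ.1 1), sq_nonneg (σ.1 2 + τ.1 2),
        sq_nonneg (σ.1 0 + τ.1 0)]

end Crest.Agent.R167
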