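import Crest.Agent.R167.Arm
import Crest.Agent.R167.Planar

/-! Row 167: a likely crossing produces two tripods in one cluster. -/

set_option autoImplicit false
set_option linter.unusedSectionVars false

open MeasureTheory Finset Real

noncomputable section
namespace Crest.Agent.R167

section
variable {V E : Type} [Fintype V] [DecidableEq V] [Fintype E] [DecidableEq E] {G : Gr V E}

theorem Gr.ConnIn.end {A : Set V} {ω : E → Bool} {u v : V} (h : G.ConnIn A ω u v) (hne : u ≠ v) :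
    v ∈ A ∧ G.Alive ω v := by
  rcases Relation.ReflTransGen.cases_tail h with rfl | ⟨_, -, -, a, e, b, c⟩
  · exact absurd rfl hne
  · exact ⟨a, e, b, by tauto⟩

theorem Gr.ConnIn.cluster {A : Set V} {ω : E → Bool} {t a : V} (h : G.ConnIn A ω t a) :
    G.ConnIn {v | v ∈ A ∧ G.ConnIn A ω t v} ω t a := by
  induction h with
  | refl => exact .refl
  | tail p s ih => exact ih.tail ⟨⟨s.1, p⟩, ⟨s.2.1, p.tail s⟩, s.2.2⟩

/-- `ϖ` embeds the part `S` of the graph into the square lattice -/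
structure Chart (G : Gr V E) (ϖ : V → ℤ × ℤ) (S : Set V) : Prop where
  inj : ∀ u ∈ S, ∀ v ∈ S, ϖ u = ϖ v → u = v
  adj : ∀ ω, ∀ u ∈ S, ∀ v ∈ S, G.Adj ω u v →
    ((ϖ u).1 - (ϖ v).1).natAbs + ((ϖ u).2 - (ϖ v).2).natAbs = 1

theorem first_hit {S : Set V} {ω : E → Bool} (f : V → ℤ)
    (hf : ∀ u ∈ S, ∀ v ∈ S, G.Adj ω u v → f v ≤ f u + 1) {x y : V} (h : G.ConnIn S ω x y) {H : ℤ}
    (hx : f x ≤ H) (hy : H ≤ f y) :
    ∃ t, f t = H ∧ G.ConnIn {v | v ∈ S ∧ f v ≤ H} ω x t ∧ G.ConnIn S ω t y := by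
  induction h using Relation.ReflTransGen.head_induction_on with
  | refl => exact ⟨y, le_antisymm hx hy, .refl, .refl⟩
  | @head a c s p ih =>
    rcases hx.eq_or_lt with e | e
    · exact ⟨a, e, .refl, .head s p⟩
    · have := hf _ s.1 _ s.2.1 s.2.2
      obtain ⟨t, h1, h2, h3⟩ := ih (by omega)
      exact ⟨t, h1, .head ⟨⟨s.1, hx⟩, ⟨s.2.1, by omega⟩, s.2.2⟩ h2, h3⟩

/-- the strip between two heights -/
def strip (ϖ : V → ℤ × ℤ) (S : Set V) (h H : ℤ) : Set V := {v | v ∈ S ∧ h ≤ (ϖ v).2 ∧ (ϖ v).2 ≤ H}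

theorem Chart.cross {ϖ : V → ℤ × ℤ} {S : Set V} (C : Chart G ϖ S) {h H : ℤ} (hh : h < H)
    {A B : Set V} (hA : A ⊆ strip ϖ S h H) (hB : B ⊆ strip ϖ S h H) {ω ω' : E → Bool}
    {a t b t' : V} (ha : (ϖ a).2 = h) (ht : (ϖ t).2 = H) (hb : (ϖ b).2 = h) (ht' : (ϖ t').2 = H)
    (h1 : (ϖ a).1 ≤ (ϖ b).1) (h2 : (ϖ t').1 ≤ (ϖ t).1) (pa : G.ConnIn A ω a t)
    (pb : G.ConnIn B ω' b t') : ∃ v ∈ A, v ∈ B := by
  have lift : ∀ {A : Set V} {ω : E → Bool} {a t : V}, A ⊆ strip ϖ S h H → G.ConnIn A ω a t →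
      Relation.ReflTransGen (NN (ϖ '' A)) (ϖ a) (ϖ t) := fun hA p => by
    induction p with
    | refl => exact .refl
    | tail _ s ih =>
      exact ih.tail ⟨⟨_, s.1, rfl⟩, ⟨_, s.2.1, rfl⟩, C.adj _ _ (hA s.1).1 _ (hA s.2.1).1 s.2.2⟩
  obtain ⟨_, ⟨u, hu, rfl⟩, v, hv, e⟩ := strip_cross hh
    (by rintro _ ⟨v, hv, rfl⟩; exact (hA hv).2) (by rintro _ ⟨v, hv, rfl⟩; exact (hB hv).2)
    ha ht hb ht' h1 h2 (lift hA pa) (lift hB pb)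
  exact ⟨u, hu, C.inj _ (hB hv).1 _ (hA hu).1 e ▸ hv⟩

theorem Chart.join {ϖ : V → ℤ × ℤ} {S : Set V} (C : Chart G ϖ S) {h H : ℤ} (hh : h < H)
    {ω : E → Bool} {a t b t' : V} (ha : (ϖ a).2 = h) (ht : (ϖ t).2 = H) (hb : (ϖ b).2 = h)
    (ht' : (ϖ t').2 = H) (h1 : (ϖ a).1 ≤ (ϖ b).1) (h2 : (ϖ t').1 ≤ (ϖ t).1)
    (pa : G.ConnIn (strip ϖ S h H) ω a t) (pb : G.ConnIn (strip ϖ S h H) ω b t') :
    G.ConnIn (strip ϖ S h H) ω t t' := by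
  obtain ⟨v, c, d⟩ := C.cross hh (fun _ h => h.1) (fun _ h => h.1) ha ht hb ht' h1 h2
    pa.symm.cluster.symm pb.symm.cluster.symm
  exact c.2.trans d.2.symm

theorem Chart.tri {ϖ : V → ℤ × ℤ} {S : Set V} (C : Chart G ϖ S) {h H : ℤ} (hh : h < H)
    (γ : V → ℕ) (hγ : ∀ u v, γ u < γ v → (ϖ u).1 ≤ (ϖ v).1) (k : ℕ) :
    ∃ (𝓕 : Finset (Finset V)) (Q : Finset V), (∀ A ∈ 𝓕, A ⊆ Q) ∧ Inter 𝓕 ∧
      (∀ v ∈ Q, v ∈ S ∧ (ϖ v).2 ≤ H) ∧ ∀ ω t a a', (ϖ t).2 = H → (ϖ a).2 = h → (ϖ a').2 = h →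
        γ a ≤ k → k < γ a' → G.ConnIn (strip ϖ S h H) ω a t → G.ConnIn (strip ϖ S h H) ω a' t →
        ∃ P ∈ 𝓕, ∀ v ∈ P, G.Conn ω t v ∧ G.Alive ω v := by
  classical
  refine ⟨univ.filter fun A : Finset V => ↑A ⊆ strip ϖ S h H ∧ ∃ t a a', (ϖ t).2 = H ∧
      (ϖ a).2 = h ∧ (ϖ a').2 = h ∧ γ a ≤ k ∧ k < γ a' ∧ G.ConnIn A (fun _ => true) a t ∧
      G.ConnIn A (fun _ => true) a' t, univ.filter (· ∈ strip ϖ S h H),
    fun A hA v hv => mem_filter.2 ⟨mem_univ _, (mem_filter.1 hA).2.1 hv⟩, fun A hA B hB => ?_,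
    fun v hv => ⟨(mem_filter.1 hv).2.1, (mem_filter.1 hv).2.2.2⟩,
    fun ω t a a' ht ha ha' k1 k2 p p' => ?_⟩
  · obtain ⟨-, sA, t, a, a', ht, ha, ha', k1, k2, p, p'⟩ := mem_filter.1 hA
    obtain ⟨-, sB, s, b, b', hs, hb, hb', l1, l2, r, r'⟩ := mem_filter.1 hB
    rcases le_total (ϖ s).1 (ϖ t).1 with c | c
    · exact C.cross hh sA sB ha ht hb' hs (hγ _ _ (k1.trans_lt l2)) c p r'
    · obtain ⟨v, x, y⟩ := C.cross hh sB sA hb hs ha' ht (hγ _ _ (l1.trans_lt k2)) c r p'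
      exact ⟨v, y, x⟩
  · refine ⟨univ.filter fun v => v ∈ strip ϖ S h H ∧ G.ConnIn (strip ϖ S h H) ω t v,
      mem_filter.2 ⟨mem_univ _, fun v hv => (mem_filter.1 hv).2.1, t, a, a', ht, ha, ha', k1, k2,
        p.symm.cluster.symm.mono (fun v hv => by simpa using hv) fun _ => le_top,
        p'.symm.cluster.symm.mono (fun v hv => by simpa using hv) fun _ => le_top⟩, fun v hv => ?_⟩
    have c := (mem_filter.1 hv).2.2
    refine ⟨c.conn, ?_⟩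
    by_cases e : t = v
    · exact e ▸ (p.end (by rintro rfl; omega)).2
    · exact (c.end e).2

/-- the vertex `t` at height `H` is joined to the gate `g i` of the line `h i` for all `i` -/
def Low (G : Gr V E) (ϖ : V → ℤ × ℤ) (S : Set V) {m : ℕ} (h : Fin m → ℤ) (H : ℤ) (γ : V → ℕ)
    (g : Fin m → ℕ) (t : V) (ω : E → Bool) : Prop :=
  (ϖ t).2 = H ∧ ∀ i, ∃ z, (ϖ z).2 = h i ∧ γ z = g i ∧ G.ConnIn (strip ϖ S (h i) H) ω z t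

theorem Chart.low {ϖ : V → ℤ × ℤ} {S : Set V} (C : Chart G ϖ S) {m : ℕ} {h : Fin m → ℤ} {H : ℤ}
    (hh : ∀ i, h i < H) (γ : V → ℕ) {N : ℕ} (hN : ∀ v ∈ S, γ v < N) {ω : E → Bool} {x y : V}
    (p : G.ConnIn S ω x y) (hx : ∀ i, (ϖ x).2 ≤ h i) (hx' : (ϖ x).2 ≤ H) (hy : H ≤ (ϖ y).2) :
    ∃ g ∈ Fintype.piFinset fun _ => range N, ∃ t, Low G ϖ S h H γ g t ω ∧ G.Conn ω t y := by
  obtain ⟨t, ht, p1, p2⟩ := first_hit (fun v => (ϖ v).2)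
    (fun u a v b c => by have := C.adj _ u a v b c; omega) p hx' hy
  have : ∀ i, ∃ z, (ϖ z).2 = h i ∧ G.ConnIn (strip ϖ S (h i) H) ω z t := fun i => by
    obtain ⟨z, hz, q, -⟩ := first_hit (fun v => -(ϖ v).2)
      (fun u a v b c => by have := C.adj _ u a.1 v b.1 c; omega) p1.symm (H := -h i)
      (by have := hh i; omega) (by have := hx i; omega)
    exact ⟨z, by omega, q.symm.mono (fun v a => ⟨a.1.1, neg_le_neg_iff.1 a.2, a.1.2⟩) le_rfl⟩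
  choose z hz q using this
  refine ⟨fun i => γ (z i), Fintype.mem_piFinset.2 fun i => mem_range.2 (hN _ ?_), t,
    ⟨ht, fun i => ⟨z i, hz i, rfl, q i⟩⟩, p2.conn⟩
  exact ((q i).symm.end fun e => by have := hh i; have := hz i; rw [← e] at this; omega).1.1

theorem Chart.tripod {ϖ : V → ℤ × ℤ} {S : Set V} (C : Chart G ϖ S) {m : ℕ} {h : Fin m → ℤ} {H : ℤ}
    (hh : ∀ i, h i < H) (γ : V → ℕ) (hγ : ∀ u v, γ u < γ v → (ϖ u).1 ≤ (ϖ v).1)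
    {g g' : Fin m → ℕ} (h1 : ¬ g ≤ g') (h2 : ¬ g' ≤ g) :
    ∃ (𝓕 : Finset (Finset V)) (Q : Finset V), (∀ A ∈ 𝓕, A ⊆ Q) ∧ Inter 𝓕 ∧
      (∀ v ∈ Q, v ∈ S ∧ (ϖ v).2 ≤ H) ∧ ∀ ω t t', Low G ϖ S h H γ g t ω → Low G ϖ S h H γ g' t' ω →
        ∃ P ∈ 𝓕, ∀ v ∈ P, G.Conn ω t v ∧ G.Alive ω v := by
  simp only [Pi.le_def, not_forall, not_le] at h1 h2
  obtain ⟨j, hj⟩ := h1
  obtain ⟨i, hi⟩ := h2
  have meet : ∀ l, l ≤ h i → l ≤ h j → ∀ ω t t', Low G ϖ S h H γ g t ω →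
      Low G ϖ S h H γ g' t' ω → G.ConnIn (strip ϖ S l H) ω t t' := by
    rintro l li lj ω t t' ⟨ht, p⟩ ⟨ht', p'⟩
    rcases le_total (ϖ t').1 (ϖ t).1 with c | c
    · obtain ⟨z, a, b, d⟩ := p i
      obtain ⟨z', a', b', d'⟩ := p' i
      exact (C.join (hh i) a ht a' ht' (hγ _ _ (by omega)) c d d').mono
        (fun v e => ⟨e.1, li.trans e.2.1, e.2.2⟩) le_rfl
    · obtain ⟨z, a, b, d⟩ := p j
      obtain ⟨z', a', b', d'⟩ := p' j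
      exact (C.join (hh j) a' ht' a ht (hγ _ _ (by omega)) c d' d).symm.mono
        (fun v e => ⟨e.1, lj.trans e.2.1, e.2.2⟩) le_rfl
  rcases le_total (h i) (h j) with c | c
  · obtain ⟨𝓕, Q, a1, a2, a3, a4⟩ := C.tri (hh i) γ hγ (g i)
    refine ⟨𝓕, Q, a1, a2, a3, fun ω t t' p p' => ?_⟩
    obtain ⟨z, a, b, d⟩ := p.2 i
    obtain ⟨z', a', b', d'⟩ := p'.2 i
    exact a4 ω t z z' p.1 a a' b.le (by omega) d (d'.trans (meet _ le_rfl c ω t t' p p').symm)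
  · obtain ⟨𝓕, Q, a1, a2, a3, a4⟩ := C.tri (hh j) γ hγ (g' j)
    refine ⟨𝓕, Q, a1, a2, a3, fun ω t t' p p' => ?_⟩
    obtain ⟨z, a, b, d⟩ := p.2 j
    obtain ⟨z', a', b', d'⟩ := p'.2 j
    exact a4 ω t z' z p.1 a' a b'.le (by omega) (d'.trans (meet _ c le_rfl ω t t' p p').symm) d

theorem chain_card {m N : ℕ} {C : Finset (Fin m → ℕ)} (hC : C ⊆ Fintype.piFinset fun _ => range N)
    (h : ∀ g ∈ C, ∀ g' ∈ C, g ≤ g' ∨ g' ≤ g) : C.card ≤ m * N + 1 := by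
  rw [← card_range (m * N + 1)]
  refine card_le_card_of_injOn (fun g => ∑ i, g i) (fun g hg => ?_) fun g hg g' hg' e => ?_
  · have := sum_le_card_nsmul univ g N fun i _ =>
      (mem_range.1 (Fintype.mem_piFinset.1 (hC hg) i)).le
    simpa [Nat.lt_succ_iff] using this
  · funext i
    rcases h g hg g' hg' with c | c
    · exact (sum_eq_sum_iff_of_le fun i _ => c i).1 e i (mem_univ _)
    · exact ((sum_eq_sum_iff_of_le fun i _ => c i).1 e.symm i (mem_univ _)).symm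

theorem types_pick {μ : (E → Bool) → ℝ} (h0 : ∀ ω, 0 ≤ μ ω) {X : Type} [LE X] (T : Finset X)
    (N : ℕ) (hN : ∀ C ⊆ T, (∀ g ∈ C, ∀ g' ∈ C, g ≤ g' ∨ g' ≤ g) → C.card ≤ N)
    (A : X → X → (E → Bool) → Prop) {c x : ℝ} (hc : 0 ≤ c) (hx : 0 ≤ x)
    (h1 : ∀ g ∈ T, pr μ (fun ω => ∃ g', A g g' ω) ≤ x)
    (h2 : ∀ g' ∈ T, pr μ (fun ω => ∃ g, A g g' ω) ≤ x)
    (h : T.card ^ 2 * c + 2 * (N * x) < pr μ fun ω => ∃ g ∈ T, ∃ g' ∈ T, A g g' ω) :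
    ∃ g g' a a' b b', c ≤ pr μ (A g g') ∧ c ≤ pr μ (A a a') ∧ c ≤ pr μ (A b b') ∧
      (¬ g ≤ a ∧ ¬ a ≤ g) ∧ ¬ g' ≤ b' ∧ ¬ b' ≤ g' := by
  classical
  by_contra hcon
  set K := (T ×ˢ T).filter fun τ => c ≤ pr μ (A τ.1 τ.2) with hK
  set C₁ := T.filter fun g => (∃ τ ∈ K, τ.1 = g) ∧ ∀ τ ∈ K, g ≤ τ.1 ∨ τ.1 ≤ g with hC₁
  set C₂ := T.filter fun g => (∃ τ ∈ K, τ.2 = g) ∧ ∀ τ ∈ K, g ≤ τ.2 ∨ τ.2 ≤ g with hC₂
  have n₁ : (C₁.card : ℝ) ≤ N := Nat.cast_le.2 (hN _ (filter_subset _ _) fun g a g' b => by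
    obtain ⟨τ, c, rfl⟩ := (mem_filter.1 b).2.1
    exact (mem_filter.1 a).2.2 τ c)
  have n₂ : (C₂.card : ℝ) ≤ N := Nat.cast_le.2 (hN _ (filter_subset _ _) fun g a g' b => by
    obtain ⟨τ, c, rfl⟩ := (mem_filter.1 b).2.1
    exact (mem_filter.1 a).2.2 τ c)
  have e₀ := (pr_exists_le h0 (T ×ˢ T \ K) fun τ => A τ.1 τ.2).trans
    (sum_le_card_nsmul _ _ c fun τ hτ => by
      simp only [hK, mem_sdiff, mem_filter, not_and, not_le] at hτ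
      exact (hτ.2 hτ.1).le)
  have e₁ := (pr_exists_le h0 C₁ fun g ω => ∃ g', A g g' ω).trans
    (sum_le_card_nsmul _ _ x fun g hg => h1 g (mem_filter.1 hg).1)
  have e₂ := (pr_exists_le h0 C₂ fun g' ω => ∃ g, A g g' ω).trans
    (sum_le_card_nsmul _ _ x fun g hg => h2 g (mem_filter.1 hg).1)
  have n₀ : ((T ×ˢ T \ K).card : ℝ) ≤ T.card ^ 2 := by
    rw [sq, ← Nat.cast_mul, ← card_product]; exact Nat.cast_le.2 (card_le_card sdiff_subset)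
  have cov := h.trans_le ((pr_mono h0 (B := fun ω => (∃ τ ∈ T ×ˢ T \ K, A τ.1 τ.2 ω) ∨
    (∃ g ∈ C₁, ∃ g', A g g' ω) ∨ ∃ g' ∈ C₂, ∃ g, A g g' ω) ?_).trans
    ((pr_or_le h0 _ _).trans (add_le_add e₀ ((pr_or_le h0 _ _).trans (add_le_add e₁ e₂)))))
  · simp only [nsmul_eq_mul] at cov
    nlinarith [mul_le_mul_of_nonneg_right n₀ hc, mul_le_mul_of_nonneg_right n₁ hx,
      mul_le_mul_of_nonneg_right n₂ hx]
  rintro ω ⟨g, a, g', b, d⟩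
  by_cases k : (g, g') ∈ K
  · by_contra hn
    simp only [not_or, not_exists, not_and] at hn
    have f₁ : g ∉ C₁ := fun f => hn.2.1 g f g' d
    have f₂ : g' ∉ C₂ := fun f => hn.2.2 g' f g d
    simp only [hC₁, hC₂, mem_filter, not_and, not_forall, not_or] at f₁ f₂
    obtain ⟨τ, t1, t2⟩ := f₁ a ⟨_, k, rfl⟩
    obtain ⟨σ, s1, s2⟩ := f₂ b ⟨_, k, rfl⟩
    exact hcon ⟨g, g', τ.1, τ.2, σ.1, σ.2, (mem_filter.1 k).2, (mem_filter.1 t1).2,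
      (mem_filter.1 s1).2, t2, s2⟩
  · exact Or.inl ⟨(g, g'), mem_sdiff.2 ⟨mem_product.2 ⟨a, b⟩, k⟩, d⟩

theorem Low.mono {ϖ : V → ℤ × ℤ} {S : Set V} {m : ℕ} {h : Fin m → ℤ} {H : ℤ} {γ : V → ℕ}
    {g : Fin m → ℕ} {t : V} {ω ω' : E → Bool} (p : Low G ϖ S h H γ g t ω) (hω : ω ≤ ω') :
    Low G ϖ S h H γ g t ω' :=
  ⟨p.1, fun i => let ⟨z, a, b, c⟩ := p.2 i; ⟨z, a, b, c.mono subset_rfl hω⟩⟩

theorem types_half {β : ℝ} (hβ : 0 ≤ β) {μ : (E → Bool) → ℝ} (hμ : G.FKLaw β μ) {pos : V → ℤ × ℤ}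
    {U : Finset V} {w κ m a L R : ℕ} (hw : 2 ≤ w) (hm : 1 ≤ m) (hR : R = w * 2 ^ κ)
    (hL : L = 4 * (R * m) + w) (ha : L = a * w) (hl : G.Lat pos U (3 * L)) (f : ℤ → ℤ)
    (hf : (∀ y, f y = y) ∨ ∀ y, f y = 3 * L - y) :
    Chart G (fun v => ((pos v).1, f (pos v).2)) {v | v ∈ U ∧ nrm (pos v) ≤ 2 * L} ∧
    ∀ g ∈ Fintype.piFinset fun _ => range (4 * a + 1), pr μ (fun ω => ∃ t,
      Low G (fun v => ((pos v).1, f (pos v).2)) {v | v ∈ U ∧ nrm (pos v) ≤ 2 * L}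
        (fun i : Fin m => L + 2 * (R * i : ℕ)) (L + 2 * (R * m : ℕ))
        (fun v => ((pos v).1 + 2 * L).toNat / w) g t ω) ≤ (1 - exp (-(320 * β))) ^ (κ * m) := by
  refine ⟨⟨fun u a v b e => hl.inj u a.1 v b.1 ?_, ?_⟩, fun g hg => ?_⟩
  · rcases hf with hf | hf <;> simp only [hf, Prod.ext_iff] at e ⊢ <;> omega
  · rintro ω u a v b ⟨e, -, ⟨rfl, rfl⟩ | ⟨rfl, rfl⟩⟩
    · have := hl.adj e a.1 b.1
      rcases hf with hf | hf <;> simp only [hf] <;> omega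
    · have := hl.adj e b.1 a.1
      rcases hf with hf | hf <;> simp only [hf] <;> omega
  have hi : ∀ i : Fin m, R * i + R ≤ R * m := fun i => Nat.mul_le_mul_left R i.2
  have hg' : ∀ i, g i * w ≤ 4 * L := fun i => by
    have := mem_range.1 (Fintype.mem_piFinset.1 hg i)
    rw [ha, ← mul_assoc]; exact Nat.mul_le_mul_right w (by omega)
  have := lat_arm G hβ hμ hl (Fin m)
    (fun i => (((g i * w : ℕ) : ℤ) - 2 * L, f (L + 2 * (R * i : ℕ)))) w κ hw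
    (fun i => by
      have := hi i; have := hg' i
      rcases hf with hf | hf <;> simp only [hf, nrm, ← hR] <;> omega)
    (fun i j ij => by
      have : R * i + R ≤ R * j ∨ R * j + R ≤ R * i :=
        (lt_or_gt_of_ne ij).imp (fun h => Nat.mul_le_mul_left R h) fun h => Nat.mul_le_mul_left R h
      rcases hf with hf | hf <;> simp only [hf, nrm, ← hR, Prod.fst_sub, Prod.snd_sub] <;> omega)
  rw [Fintype.card_fin] at this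
  refine (pr_mono hμ.nonneg ?_).trans this
  rintro ω ⟨t, ht, p⟩ i
  obtain ⟨z, a, b, c⟩ := p i
  have := hi i
  have R0 : 0 < R := by rw [hR]; positivity
  have hz := (c.symm.end fun e => by rw [← e, ht] at a; simp only at a; omega).1.1
  refine ⟨z, t, hz.1, ?_, fun _ => ?_, c.conn⟩
  · have h1 := Nat.div_mul_le_self ((pos z).1 + 2 * L).toNat w
    have h2 := Nat.lt_div_mul_add (a := ((pos z).1 + 2 * L).toNat) (show 0 < w by omega)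
    have h3 := hz.2
    simp only at b
    rw [b] at h1 h2
    rcases hf with hf | hf <;> simp only [hf, nrm, Prod.fst_sub, Prod.snd_sub] at a h3 ⊢ <;> omega
  · rcases hf with hf | hf <;> simp only [hf, nrm, ← hR, Prod.fst_sub, Prod.snd_sub] at ht ⊢ <;>
      omega

end

theorem exists_HH {β δ : ℝ} (hβ : 0 ≤ β) (hδ : 0 < δ) :
    ∃ c₀ : ℝ, 0 < c₀ ∧ ∃ a : ℕ, 2 ≤ a ∧ ∀ w : ℕ, 2 ≤ w →
      ∀ (V E : Type) [Fintype V] [DecidableEq V] [Fintype E] [DecidableEq E] (G : Gr V E)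
        (pos : V → ℤ × ℤ) (U : Finset V) (μ : (E → Bool) → ℝ), G.FKLaw β μ →
        G.Lat pos U (3 * (a * w)) → δ ≤ pr μ (G.VC pos U (a * w)) →
        ∃ (𝓕₁ 𝓕₂ : Finset (Finset V)) (Q₁ Q₂ : Finset V), (∀ A ∈ 𝓕₁, A ⊆ Q₁) ∧ (∀ A ∈ 𝓕₂, A ⊆ Q₂) ∧
          Inter 𝓕₁ ∧ Inter 𝓕₂ ∧ Q₁ ⊆ U ∧ Q₂ ⊆ U ∧ (∀ y ∈ Q₂, nrm (pos y) ≤ 2 * (a * w)) ∧
          (∀ y ∈ Q₂, ∀ v ∈ Q₁, w ≤ nrm (pos v - pos y)) ∧ c₀ ≤ pr μ (G.HH 𝓕₁ 𝓕₂) := by
  have q0 : 0 ≤ 1 - exp (-(320 * β)) := sub_nonneg.2 (exp_le_one_iff.2 (by linarith))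
  obtain ⟨m₀, hm₀⟩ := exists_pow_lt_of_lt_one (show (0 : ℝ) < 1 / 4 by norm_num)
    (show 1 - exp (-(320 * β)) < 1 by linarith [exp_pos (-(320 * β))])
  obtain ⟨m, hm, hq⟩ : ∃ m : ℕ, 1 ≤ m ∧ (1 - exp (-(320 * β))) ^ m ≤ 1 / 4 :=
    ⟨m₀ + 1, by omega, (pow_le_pow_of_le_one q0 (by linarith [exp_pos (-(320 * β))])
      (by omega)).trans hm₀.le⟩
  have m1 : (1 : ℝ) ≤ m := by exact_mod_cast hm
  obtain ⟨κ, hκ⟩ := exists_pow_lt_of_lt_one (show 0 < δ / (88 * m ^ 2) by positivity)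
    (show (1 / 2 : ℝ) < 1 by norm_num)
  set a := 4 * (2 ^ κ * m) + 1 with ha
  set c := δ / 2 / ((4 * a + 1) ^ m) ^ 2 with hc
  have c0 : 0 < c := by positivity
  refine ⟨c * c * c, by positivity, a, by have := Nat.one_le_two_pow (n := κ); nlinarith,
    fun w hw V E _ _ _ _ G pos U μ hμ hl hδ' => ?_⟩
  obtain ⟨L, hL⟩ : ∃ L, L = a * w := ⟨_, rfl⟩
  obtain ⟨R, hR⟩ : ∃ R, R = w * 2 ^ κ := ⟨_, rfl⟩
  have hL' : L = 4 * (R * m) + w := by rw [hL, hR, ha]; ring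
  rw [← hL] at hl hδ' ⊢
  obtain ⟨C₁, A₁⟩ := types_half hβ hμ hw hm hR hL' hL hl (fun y => y) (Or.inl fun _ => rfl)
  obtain ⟨C₂, A₂⟩ := types_half hβ hμ hw hm hR hL' hL hl (fun y => 3 * L - y) (Or.inr fun _ => rfl)
  set S : Set V := {v | v ∈ U ∧ nrm (pos v) ≤ 2 * L} with hS
  set h : Fin m → ℤ := fun i => L + 2 * (R * i : ℕ) with hh
  set H : ℤ := L + 2 * (R * m : ℕ) with hH
  set γ : V → ℕ := fun v => ((pos v).1 + 2 * L).toNat / w with hγ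
  set ϖ₁ : V → ℤ × ℤ := fun v => ((pos v).1, (pos v).2) with hϖ₁
  set ϖ₂ : V → ℤ × ℤ := fun v => ((pos v).1, 3 * L - (pos v).2) with hϖ₂
  have R0 : 0 < R := by rw [hR]; positivity
  have hlt : ∀ i, h i < H := fun i => by
    have := (Nat.mul_lt_mul_left R0).2 i.2
    simp only [hh, hH]; omega
  have γ1 : ∀ u v, γ u < γ v → (pos u).1 ≤ (pos v).1 := fun u v e => by
    have := Nat.lt_of_div_lt_div e; omega
  have γ2 : ∀ v ∈ S, γ v < 4 * a + 1 := fun v hv => by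
    have := hv.2
    rw [Nat.lt_succ_iff]
    refine Nat.div_le_of_le_mul ?_
    rw [mul_left_comm, mul_comm w, ← hL]
    simp only [nrm] at this; omega
  set A : (Fin m → ℕ) → (Fin m → ℕ) → (E → Bool) → Prop := fun g g' ω =>
    ∃ t t', Low G ϖ₁ S h H γ g t ω ∧ Low G ϖ₂ S h H γ g' t' ω ∧ G.Conn ω t t' with hA
  have up : ∀ g g', Up (A g g') := by
    rintro g g' ω ω' e ⟨t, t', p, p', r⟩
    exact ⟨t, t', p.mono e, p'.mono e, r.mono e⟩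
  have num : ((Fintype.piFinset fun _ : Fin m => range (4 * a + 1)).card : ℝ) ^ 2 * c +
      2 * ((m * (4 * a + 1) + 1 : ℕ) * (1 - exp (-(320 * β))) ^ (κ * m)) < δ := by
    have e₁ : (1 - exp (-(320 * β))) ^ (κ * m) ≤ (1 / 2) ^ κ * (1 / 2) ^ κ := by
      rw [mul_comm κ, pow_mul, ← mul_pow]
      exact pow_le_pow_left₀ (pow_nonneg q0 _) (by linarith) _
    have e₂ : (2 : ℝ) ^ κ * (1 / 2) ^ κ = 1 := by rw [← mul_pow]; simp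
    have e₃ : (1 : ℝ) ≤ 2 ^ κ := one_le_pow₀ one_le_two
    have e₄ : ((m * (4 * a + 1) + 1 : ℕ) : ℝ) ≤ 22 * m ^ 2 * 2 ^ κ := by
      simp only [ha]; push_cast
      nlinarith [mul_le_mul e₃ m1 zero_le_one (by positivity), mul_nonneg (sub_nonneg.2 m1)
        (show (0 : ℝ) ≤ m * 2 ^ κ by positivity)]
    have e₅ := mul_le_mul e₄ e₁ (pow_nonneg q0 _) (by positivity)
    rw [lt_div_iff₀ (by positivity)] at hκ
    simp only [Fintype.card_piFinset, card_range, prod_const, card_univ, Fintype.card_fin, hc]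
    rw [Nat.cast_pow, Nat.cast_add, Nat.cast_mul, Nat.cast_ofNat, Nat.cast_one,
      mul_div_cancel₀ _ (by positivity)]
    rw [show 22 * (m : ℝ) ^ 2 * 2 ^ κ * ((1 / 2) ^ κ * (1 / 2) ^ κ) =
      22 * m ^ 2 * (2 ^ κ * (1 / 2) ^ κ) * (1 / 2) ^ κ by ring, e₂] at e₅
    linarith
  have cov : ∀ ω, G.VC pos U L ω → ∃ g ∈ Fintype.piFinset fun _ => range (4 * a + 1),
      ∃ g' ∈ Fintype.piFinset fun _ => range (4 * a + 1), A g g' ω := by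
    rintro ω ⟨x, y, hx, hy, p⟩
    obtain ⟨g, a₁, t, b₁, c₁⟩ := C₁.low hlt γ γ2 p (fun i => by simp only [hϖ₁, hh]; omega)
      (by simp only [hϖ₁, hH]; omega) (by simp only [hϖ₁, hH]; omega)
    obtain ⟨g', a₂, t', b₂, c₂⟩ := C₂.low hlt γ γ2 p.symm (fun i => by simp only [hϖ₂, hh]; omega)
      (by simp only [hϖ₂, hH]; omega) (by simp only [hϖ₂, hH]; omega)
    exact ⟨g, a₁, g', a₂, t, t', b₁, b₂, c₁.trans (p.conn.symm.trans c₂.symm)⟩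
  obtain ⟨g, g', b, b', d, d', p₀, p₁, p₂, i₁, i₂⟩ := types_pick hμ.nonneg
    (Fintype.piFinset fun _ : Fin m => range (4 * a + 1)) _ (fun C => chain_card) A c0.le
    (pow_nonneg q0 (κ * m))
    (fun g hg => (pr_mono hμ.nonneg fun ω ⟨_, t, _, p, _⟩ => ⟨t, p⟩).trans (A₁ g hg))
    (fun g hg => (pr_mono hμ.nonneg fun ω ⟨_, _, t, _, p, _⟩ => ⟨t, p⟩).trans (A₂ g hg))
    (lt_of_lt_of_le num (hδ'.trans (pr_mono hμ.nonneg cov)))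
  · obtain ⟨𝓕₁, Q₁, s₁, n₁, u₁, v₁⟩ := C₁.tripod hlt γ γ1 i₁.1 i₁.2
    obtain ⟨𝓕₂, Q₂, s₂, n₂, u₂, v₂⟩ := C₂.tripod hlt γ γ1 i₂.1 i₂.2
    refine ⟨𝓕₁, 𝓕₂, Q₁, Q₂, s₁, s₂, n₁, n₂, fun v hv => (u₁ v hv).1.1, fun v hv => (u₂ v hv).1.1,
      fun v hv => (u₂ v hv).1.2, fun y hy v hv => ?_, ?_⟩
    · have e₁ := (u₁ v hv).2
      have e₂ := (u₂ y hy).2
      simp only [hϖ₁, hϖ₂, hH, nrm, Prod.fst_sub, Prod.snd_sub] at e₁ e₂ ⊢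
      omega
    have f₁ := hμ.fkg _ _ (up g g') (up b b')
    have f₂ := hμ.fkg (fun ω => A g g' ω ∧ A b b' ω) _
      (fun ω ω' e x => ⟨up _ _ _ _ e x.1, up _ _ _ _ e x.2⟩) (up d d')
    refine (mul_le_mul ((mul_le_mul p₀ p₁ c0.le (pr_nonneg hμ.nonneg _)).trans f₁) p₂ c0.le
      (pr_nonneg hμ.nonneg _)).trans (f₂.trans (pr_mono hμ.nonneg ?_))
    rintro ω ⟨⟨⟨t, t', x, x', r⟩, s, -, y, -⟩, -, s', -, y', -⟩
    obtain ⟨P₁, a₁, b₁⟩ := v₁ ω t s x y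
    obtain ⟨P₂, a₂, b₂⟩ := v₂ ω t' s' x' y'
    exact ⟨t, P₁, a₁, P₂, a₂, b₁, fun v hv => ⟨r.trans (b₂ v hv).1, (b₂ v hv).2⟩⟩

end Crest.Agent.R167
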