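import Crest.Agent.R167.Basic

/-! Row 167: smooth max-min functionals. -/

set_option autoImplicit false
set_option linter.unusedSectionVars false

open MeasureTheory Finset Real

noncomputable section
namespace Crest.Agent.R167

variable {V E : Type} [Fintype V] [DecidableEq V] [Fintype E] [DecidableEq E] (G : Gr V E)

/-- `F s = γ⁻¹ log ∑_{A ∈ 𝓕} (∑_{v ∈ A} exp (-γ s_v))⁻¹` with `γ` large -/
theorem exists_fnl {𝓕 : Finset (Finset V)} {Q : Finset V} (hQ : ∀ A ∈ 𝓕, A ⊆ Q)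
    (hne : 𝓕.Nonempty) (hI : Inter 𝓕) {η : ℝ} (hη : 0 < η) :
    ∃ F, Fnl Q F ∧ ∀ s l, (∃ A ∈ 𝓕, ∀ v ∈ A, l ≤ s v) → 2 * l - η ≤ F s - F (-s) := by
  have hA : ∀ A ∈ 𝓕, A.Nonempty := fun A h => by
    obtain ⟨v, hv, -⟩ := hI A h A h
    exact ⟨v, hv⟩
  set N : ℝ := (Fintype.card V : ℝ) with hN
  set M : ℝ := (𝓕.card : ℝ) with hM
  have hM0 : 0 < M := by rw [hM]; exact_mod_cast hne.card_pos
  have hN0 : 0 < N := by
    obtain ⟨A, h⟩ := hne
    obtain ⟨v, -⟩ := hA A h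
    rw [hN]
    exact_mod_cast Fintype.card_pos_iff.2 ⟨v⟩
  set γ : ℝ := (N + M) / η with hγ
  have hγ0 : 0 < γ := by positivity
  have p1 : ∀ (s : V → ℝ), ∀ A ∈ 𝓕, 0 < ∑ v ∈ A, exp (-γ * s v) := fun s A h =>
    sum_pos (fun _ _ => exp_pos _) (hA A h)
  have p2 : ∀ s : V → ℝ, 0 < ∑ A ∈ 𝓕, (∑ v ∈ A, exp (-γ * s v))⁻¹ := fun s =>
    sum_pos (fun A h => inv_pos.2 (p1 s A h)) hne
  refine ⟨fun s => γ⁻¹ * log (∑ A ∈ 𝓕, (∑ v ∈ A, exp (-γ * s v))⁻¹), ⟨?_, ?_, ?_, ?_⟩, ?_⟩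
  · refine contDiff_const.mul (ContDiff.log (ContDiff.sum fun A h => ContDiff.inv ?_ ?_) ?_)
    · exact ContDiff.sum fun v _ => by fun_prop
    · exact fun s => (p1 s A h).ne'
    · exact fun s => (p2 s).ne'
  · intro s s' hs
    refine mul_le_mul_of_nonneg_left (log_le_log (p2 s) (sum_le_sum fun A h => ?_)) (by positivity)
    refine inv_anti₀ (p1 s' A h) (sum_le_sum fun v _ => exp_le_exp.2 ?_)
    have := hs v
    nlinarith
  · intro s t
    have e : ∑ A ∈ 𝓕, (∑ v ∈ A, exp (-γ * (s v + t)))⁻¹ =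
        (∑ A ∈ 𝓕, (∑ v ∈ A, exp (-γ * s v))⁻¹) * exp (γ * t) := by
      rw [sum_mul]
      refine sum_congr rfl fun A _ => ?_
      have : ∑ v ∈ A, exp (-γ * (s v + t)) = (∑ v ∈ A, exp (-γ * s v)) * (exp (γ * t))⁻¹ := by
        rw [sum_mul]
        refine sum_congr rfl fun v _ => ?_
        rw [← exp_neg, ← exp_add]
        congr 1
        ring
      rw [this, mul_inv, inv_inv]
    rw [e, log_mul (p2 s).ne' (exp_pos _).ne', log_exp]
    field_simp
  · intro s s' hs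
    congr 2
    refine sum_congr rfl fun A h => ?_
    congr 1
    exact sum_congr rfl fun v hv => by rw [hs v (hQ A h hv)]
  · rintro s l ⟨A₀, h₀, hl⟩
    have b1 : γ * l - N ≤ log (∑ A ∈ 𝓕, (∑ v ∈ A, exp (-γ * s v))⁻¹) := by
      rw [le_log_iff_exp_le (p2 s)]
      refine le_trans ?_ (single_le_sum (f := fun A => (∑ v ∈ A, exp (-γ * s v))⁻¹)
        (fun A h => (inv_pos.2 (p1 s A h)).le) h₀)
      rw [le_inv_comm₀ (exp_pos _) (p1 s A₀ h₀), ← exp_neg]
      calc ∑ v ∈ A₀, exp (-γ * s v) ≤ ∑ _v ∈ A₀, exp (-γ * l) :=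
            sum_le_sum fun v hv => exp_le_exp.2 (by have := hl v hv; nlinarith)
        _ = A₀.card * exp (-γ * l) := by rw [sum_const, nsmul_eq_mul]
        _ ≤ exp N * exp (-γ * l) := by
            refine mul_le_mul_of_nonneg_right ?_ (exp_pos _).le
            have : (A₀.card : ℝ) ≤ N := by rw [hN]; exact_mod_cast card_le_univ A₀
            linarith [add_one_le_exp N]
        _ = _ := by rw [← exp_add]; congr 1; ring
    have b2 : log (∑ A ∈ 𝓕, (∑ v ∈ A, exp (-γ * (-s) v))⁻¹) ≤ M - γ * l := by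
      rw [log_le_iff_le_exp (p2 _)]
      calc ∑ A ∈ 𝓕, (∑ v ∈ A, exp (-γ * (-s) v))⁻¹ ≤ ∑ _A ∈ 𝓕, exp (-(γ * l)) := by
            refine sum_le_sum fun A h => ?_
            obtain ⟨v, hv, hv'⟩ := hI A h A₀ h₀
            rw [exp_neg]
            refine inv_anti₀ (exp_pos _) (le_trans ?_ (single_le_sum
              (f := fun v => exp (-γ * (-s) v)) (fun _ _ => (exp_pos _).le) hv))
            refine exp_le_exp.2 ?_
            have := hl v hv'
            simp only [Pi.neg_apply]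
            nlinarith
        _ = M * exp (-(γ * l)) := by rw [sum_const, nsmul_eq_mul]
        _ ≤ exp M * exp (-(γ * l)) :=
            mul_le_mul_of_nonneg_right (by linarith [add_one_le_exp M]) (exp_pos _).le
        _ = _ := by rw [← exp_add]; congr 1
    simp only
    rw [← mul_sub]
    have e : 2 * l - η = γ⁻¹ * ((γ * l - N) - (M - γ * l)) := by
      have : η = γ⁻¹ * (N + M) := by rw [hγ]; field_simp
      rw [this]
      field_simp
      ring
    rw [e]
    exact mul_le_mul_of_nonneg_left (by linarith) (by positivity)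

theorem exists_u (𝓕 : Finset (Finset V)) {ε : ℝ} (hε : 0 < ε) :
    ∃ u : (V → ℝ) → ℝ, Continuous u ∧ (∀ s, 0 ≤ u s ∧ u s ≤ 1) ∧
      (∀ s, (∃ A ∈ 𝓕, ∀ v ∈ A, 2 * ε ≤ s v) → u s = 0) ∧
      ∀ s, u s < 1 → ∃ A ∈ 𝓕, ∀ v ∈ A, ε ≤ s v := by
  have c0 : ∀ x : ℝ, 0 ≤ max 0 (min 1 x) := fun x => le_max_left _ _
  have c1 : ∀ x : ℝ, max 0 (min 1 x) ≤ 1 := fun x => max_le zero_le_one (min_le_left _ _)
  have d0 : ∀ (s : V → ℝ) (A : Finset V), 0 ≤ ∏ v ∈ A, max 0 (min 1 ((s v - ε) / ε)) :=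
    fun s A => prod_nonneg fun _ _ => c0 _
  have d1 : ∀ (s : V → ℝ) (A : Finset V), ∏ v ∈ A, max 0 (min 1 ((s v - ε) / ε)) ≤ 1 :=
    fun s A => prod_le_one (fun _ _ => c0 _) fun _ _ => c1 _
  refine ⟨fun s => ∏ A ∈ 𝓕, (1 - ∏ v ∈ A, max 0 (min 1 ((s v - ε) / ε))), by fun_prop,
    fun s => ⟨prod_nonneg fun A _ => sub_nonneg.2 (d1 s A),
      prod_le_one (fun A _ => sub_nonneg.2 (d1 s A)) fun A _ => by linarith [d0 s A]⟩, ?_, ?_⟩
  · rintro s ⟨A, hA, h⟩
    refine prod_eq_zero hA ?_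
    rw [prod_eq_one, sub_self]
    intro v hv
    have : 1 ≤ (s v - ε) / ε := by rw [le_div_iff₀ hε]; linarith [h v hv]
    rw [min_eq_left this, max_eq_right zero_le_one]
  · intro s hs
    by_contra hc
    push Not at hc
    refine hs.ne (prod_eq_one fun A hA => ?_)
    obtain ⟨v, hv, h⟩ := hc A hA
    rw [prod_eq_zero hv, sub_zero]
    have : (s v - ε) / ε ≤ 0 := div_nonpos_of_nonpos_of_nonneg (by linarith) hε.le
    exact max_eq_left ((min_le_right _ _).trans this)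

/-- the gradient of a functional is a probability vector supported on `Q` -/
theorem Fnl.grad {Q : Finset V} {F : (V → ℝ) → ℝ} (h : Fnl Q F) :
    ∃ w : (V → ℝ) → V → ℝ, Continuous w ∧ (∀ s v, 0 ≤ w s v) ∧ (∀ s, ∑ v, w s v = 1) ∧
      (∀ s v, v ∉ Q → w s v = 0) ∧ ∀ s t, fderiv ℝ F s t = ∑ v, w s v * t v := by
  have hd : ∀ s x : V → ℝ, HasDerivAt (fun t : ℝ => F (s + t • x)) (fderiv ℝ F s x) 0 :=
    fun s x => ((h.smooth.differentiable one_ne_zero) s).hasFDerivAt.hasLineDerivAt x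
  have hsum : ∀ s t, fderiv ℝ F s t = ∑ v, fderiv ℝ F s (Pi.single v 1) * t v := by
    intro s t
    conv_lhs => rw [pi_eq_sum_univ' t]
    rw [map_sum]
    exact sum_congr rfl fun v _ => by rw [map_smul, smul_eq_mul, mul_comm]
  refine ⟨fun s v => fderiv ℝ F s (Pi.single v 1), ?_, ?_, ?_, ?_, hsum⟩
  · have := h.smooth.continuous_fderiv one_ne_zero
    fun_prop
  · intro s v
    refine (hd s _).nonneg_of_monotone fun a b hab => h.mono fun u => ?_
    have : (0 : ℝ) ≤ (Pi.single v 1 : V → ℝ) u := by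
      rw [Pi.single_apply]; split_ifs <;> norm_num
    simp only [Pi.add_apply, Pi.smul_apply, smul_eq_mul]
    nlinarith
  · intro s
    have h1 := hsum s fun _ => 1
    simp only [mul_one] at h1
    rw [← h1]
    refine (hd s _).unique ?_
    have : (fun t : ℝ => F (s + t • fun _ => (1 : ℝ))) = fun t => F s + t := by
      funext t
      rw [← h.shift s t]
      congr 1
      funext v
      simp
    rw [this]
    exact (hasDerivAt_id (0 : ℝ)).const_add _
  · intro s v hv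
    refine (hd s _).unique ?_
    have : (fun t : ℝ => F (s + t • (Pi.single v 1 : V → ℝ))) = fun _ => F s := by
      funext t
      refine h.dep _ _ fun u hu => ?_
      have : u ≠ v := fun e => hv (e ▸ hu)
      simp [this]
    rw [this]
    exact hasDerivAt_const _ _

end Crest.Agent.R167
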