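import Crest.Agent.R167.Basic

/-! Row 167: the Ward identity. -/

set_option autoImplicit false
set_option linter.unusedSectionVars false

open MeasureTheory Finset Real

noncomputable section
namespace Crest.Agent.R167

variable {V E : Type} [Fintype V] [DecidableEq V] [Fintype E] [DecidableEq E] (G : Gr V E)

theorem ward_inv (J : E → ℝ) (R : Sph 3 → Sph 3) (hR : MeasurePreserving R (usph 3) (usph 3))
    (hk : ∀ σ τ, sph.s (R σ) * sph.s (R τ) + sph.k (R σ) (R τ) = sph.s σ * sph.s τ + sph.k σ τ)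
    {Φ : (V → Sph 3) → ℝ} (hΦ : Continuous Φ) :
    sph.Ex G J (fun σ => Φ fun v => R (σ v)) = sph.Ex G J Φ := by
  unfold Spin.Ex
  rw [← int_site (fun _ => R) (fun _ => hR) (F := fun σ => sph.hd G J σ * Φ σ)
    ((sph.continuous_hd G J).mul hΦ)]
  simp only [Spin.hd, hk]

theorem ward_r12 (α : ℝ) (σ τ : Sph 3) :
    sph.s (r12 α σ) * sph.s (r12 α τ) + sph.k (r12 α σ) (r12 α τ) =
      sph.s σ * sph.s τ + sph.k σ τ := by
  simp only [sph, r12_0, r12_1, r12_2]
  linear_combination (σ.1 1 * τ.1 1 + σ.1 2 * τ.1 2) * sin_sq_add_cos_sq α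

theorem ward_r01 (α : ℝ) (σ τ : Sph 3) :
    sph.s (r01 α σ) * sph.s (r01 α τ) + sph.k (r01 α σ) (r01 α τ) =
      sph.s σ * sph.s τ + sph.k σ τ := by
  simp only [sph, r01_0, r01_1, r01_2]
  linear_combination (σ.1 0 * τ.1 0 + σ.1 1 * τ.1 1) * sin_sq_add_cos_sq α

theorem ward_add (J : E → ℝ) {Φ Ψ : (V → Sph 3) → ℝ} (hΦ : Continuous Φ) (hΨ : Continuous Ψ) :
    sph.Ex G J (fun σ => Φ σ + Ψ σ) = sph.Ex G J Φ + sph.Ex G J Ψ := by
  unfold Spin.Ex
  simp only [mul_add]
  exact integral_add (cint ((sph.continuous_hd G J).mul hΦ)) (cint ((sph.continuous_hd G J).mul hΨ))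

theorem ward_smul (J : E → ℝ) (a : ℝ) (Φ : (V → Sph 3) → ℝ) :
    sph.Ex G J (fun σ => a * Φ σ) = a * sph.Ex G J Φ := by
  unfold Spin.Ex
  rw [← integral_const_mul]
  congr 1
  funext σ
  ring

theorem ward_deriv (J : E → ℝ) (Φ Φ' : ℝ → (V → Sph 3) → ℝ)
    (hΦ : Continuous fun x : ℝ × (V → Sph 3) => Φ x.1 x.2)
    (hΦ' : Continuous fun x : ℝ × (V → Sph 3) => Φ' x.1 x.2)
    (hd : ∀ t σ, HasDerivAt (fun t => Φ t σ) (Φ' t σ) t) (t : ℝ) :
    HasDerivAt (fun t => sph.Ex G J (Φ t)) (sph.Ex G J (Φ' t)) t := by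
  have hh := sph.continuous_hd G J
  have c1 : ∀ t, Continuous fun σ => sph.hd G J σ * Φ t σ := fun t =>
    hh.mul (hΦ.comp (Continuous.prodMk_right t))
  have c2 : Continuous fun x : ℝ × (V → Sph 3) => sph.hd G J x.2 * Φ' x.1 x.2 :=
    (hh.comp continuous_snd).mul hΦ'
  obtain ⟨C, hC⟩ := ((isCompact_closedBall t 1).prod isCompact_univ).exists_bound_of_continuousOn
    c2.continuousOn
  refine (hasDerivAt_integral_of_dominated_loc_of_deriv_le (μ := Measure.pi fun _ => usph 3)
    (F := fun t σ => sph.hd G J σ * Φ t σ) (F' := fun t σ => sph.hd G J σ * Φ' t σ)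
    (bound := fun _ => C) (Metric.closedBall_mem_nhds t one_pos)
    (Filter.Eventually.of_forall fun t => (c1 t).aestronglyMeasurable) (cint (c1 t))
    (c2.comp (Continuous.prodMk_right t)).aestronglyMeasurable
    (Filter.Eventually.of_forall fun σ x hx => hC (x, σ) ⟨hx, Set.mem_univ _⟩)
    (integrable_const C)
    (Filter.Eventually.of_forall fun σ x _ => (hd x σ).const_mul _)).2

/-- `c φ = Ex (F (sin φ σ¹ + cos φ σ²) * D σ²)`.  Global rotation `r12 t` (`int_site`, `hd` is
invariant) moves the `φ`-dependence to `D`, so `c' φ = - Ex (F * fderiv D σ² σ¹)`; differentiating at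
`u = 0` the `u`-independent quantity `Ex (Ψ ∘ r01 u)`, `Ψ = F (..) * fderiv D σ² σ⁰`, gives
`Ex (F * fderiv D σ² σ¹) = sin φ * M φ`.  Differentiate under the integral with
`hasDerivAt_integral_of_dominated_loc_of_deriv_le`; conclude with `exists_hasDerivAt_eq_slope`. -/
theorem ward (J : E → ℝ) (F D : (V → ℝ) → ℝ) (hF : ContDiff ℝ 1 F) (hD : ContDiff ℝ 1 D) (m : ℝ)
    (h0 : 0 ≤ m) (hm : ∀ φ : ℝ, sph.Ex G J (fun σ =>
      fderiv ℝ F (fun v => sin φ * (σ v).1 1 + cos φ * (σ v).1 2) (fun v => (σ v).1 0) *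
        fderiv ℝ D (fun v => (σ v).1 2) fun v => (σ v).1 0) ≤ m) :
    sph.Ex G J (fun σ => (F (fun v => (σ v).1 2) - F (-fun v => (σ v).1 2)) *
      D fun v => (σ v).1 2) ≤ π * m := by
  have hF' := hF.continuous_fderiv one_ne_zero
  have hD' := hD.continuous_fderiv one_ne_zero
  have hFc := hF.continuous
  have hDc := hD.continuous
  have hFd := hF.differentiable one_ne_zero
  have hDd := hD.differentiable one_ne_zero
  set c : ℝ → ℝ := fun φ => sph.Ex G J fun σ =>
    F (fun v => sin φ * (σ v).1 1 + cos φ * (σ v).1 2) * D fun v => (σ v).1 2 with hc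
  have key : ∀ φ : ℝ, HasDerivAt c (-(sin φ * sph.Ex G J (fun σ =>
      fderiv ℝ F (fun v => sin φ * (σ v).1 1 + cos φ * (σ v).1 2) (fun v => (σ v).1 0) *
        fderiv ℝ D (fun v => (σ v).1 2) fun v => (σ v).1 0))) φ := by
    intro φ
    -- first rotation
    have e1 : c = fun ψ => sph.Ex G J fun σ =>
        F (fun v => sin φ * (σ v).1 1 + cos φ * (σ v).1 2) *
          D fun v => cos (ψ - φ) * (σ v).1 2 - sin (ψ - φ) * (σ v).1 1 := by
      funext ψ
      rw [hc]
      simp only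
      rw [← ward_inv G J (r12 (ψ - φ)) (mp_actI _) (ward_r12 _) (by fun_prop)]
      simp only [r12_1, r12_2]
      congr 1
      funext σ
      congr 2
      funext v
      have h1 : sin φ = sin ψ * cos (ψ - φ) - cos ψ * sin (ψ - φ) := by
        rw [← sin_sub]; congr 1; ring
      have h2 : cos φ = cos ψ * cos (ψ - φ) + sin ψ * sin (ψ - φ) := by
        rw [← cos_sub]; congr 1; ring
      rw [h1, h2]
      ring
    have d1 := ward_deriv G J
      (fun ψ σ => F (fun v => sin φ * (σ v).1 1 + cos φ * (σ v).1 2) *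
          D fun v => cos (ψ - φ) * (σ v).1 2 - sin (ψ - φ) * (σ v).1 1)
      (fun ψ σ => F (fun v => sin φ * (σ v).1 1 + cos φ * (σ v).1 2) *
          fderiv ℝ D (fun v => cos (ψ - φ) * (σ v).1 2 - sin (ψ - φ) * (σ v).1 1)
            fun v => -sin (ψ - φ) * (σ v).1 2 - cos (ψ - φ) * (σ v).1 1)
      (by fun_prop) (by fun_prop) (by
        intro ψ σ
        refine HasDerivAt.const_mul _ ((hDd _).hasFDerivAt.comp_hasDerivAt ψ ?_)
        refine hasDerivAt_pi.2 fun v => ?_
        have := ((((hasDerivAt_id ψ).sub_const φ).cos).mul_const ((σ v).1 2)).fun_sub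
          ((((hasDerivAt_id ψ).sub_const φ).sin).mul_const ((σ v).1 1))
        simpa using this) φ
    rw [← e1] at d1
    -- second rotation
    have d2 := ward_deriv G J
      (fun u σ => F (fun v => sin φ * (sin u * (σ v).1 0 + cos u * (σ v).1 1) +
            cos φ * (σ v).1 2) *
          fderiv ℝ D (fun v => (σ v).1 2) fun v => cos u * (σ v).1 0 - sin u * (σ v).1 1)
      (fun u σ => fderiv ℝ F (fun v => sin φ * (sin u * (σ v).1 0 + cos u * (σ v).1 1) +
            cos φ * (σ v).1 2) (fun v => sin φ * (cos u * (σ v).1 0 - sin u * (σ v).1 1)) *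
          (fderiv ℝ D (fun v => (σ v).1 2) fun v => cos u * (σ v).1 0 - sin u * (σ v).1 1) +
        F (fun v => sin φ * (sin u * (σ v).1 0 + cos u * (σ v).1 1) + cos φ * (σ v).1 2) *
          fderiv ℝ D (fun v => (σ v).1 2) fun v => -sin u * (σ v).1 0 - cos u * (σ v).1 1)
      (by fun_prop) (by fun_prop) (by
        intro u σ
        refine HasDerivAt.mul ((hFd _).hasFDerivAt.comp_hasDerivAt u ?_)
          ((fderiv ℝ D (fun v => (σ v).1 2)).hasFDerivAt.comp_hasDerivAt u ?_)
        · refine hasDerivAt_pi.2 fun v => ?_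
          have := (((((hasDerivAt_sin u).mul_const ((σ v).1 0)).fun_add
            ((hasDerivAt_cos u).mul_const ((σ v).1 1))).const_mul (sin φ)).add_const
              (cos φ * (σ v).1 2))
          exact this.congr_deriv (by ring)
        · refine hasDerivAt_pi.2 fun v => ?_
          exact ((hasDerivAt_cos u).mul_const ((σ v).1 0)).sub
            ((hasDerivAt_sin u).mul_const ((σ v).1 1))) 0
    have e2 : (fun u : ℝ => sph.Ex G J fun σ =>
        F (fun v => sin φ * (sin u * (σ v).1 0 + cos u * (σ v).1 1) + cos φ * (σ v).1 2) *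
          fderiv ℝ D (fun v => (σ v).1 2) fun v => cos u * (σ v).1 0 - sin u * (σ v).1 1) =
        fun _ => sph.Ex G J fun σ => F (fun v => sin φ * (σ v).1 1 + cos φ * (σ v).1 2) *
          fderiv ℝ D (fun v => (σ v).1 2) fun v => (σ v).1 0 := by
      funext u
      rw [← ward_inv G J (r01 u) (mp_actI _) (ward_r01 _) (Φ := fun σ =>
        F (fun v => sin φ * (σ v).1 1 + cos φ * (σ v).1 2) *
          fderiv ℝ D (fun v => (σ v).1 2) fun v => (σ v).1 0) (by fun_prop)]
      simp only [r01_0, r01_1, r01_2]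
    rw [e2] at d2
    have z := d2.unique (hasDerivAt_const _ _)
    simp only [sin_zero, cos_zero, zero_mul, one_mul, zero_add, sub_zero, neg_zero, zero_sub,
      sub_self] at z d1
    rw [ward_add G J (by fun_prop) (by fun_prop)] at z
    convert d1 using 1
    rw [eq_neg_of_add_eq_zero_right z, ← ward_smul]
    congr 2
    funext σ
    rw [show (fun v => sin φ * (σ v).1 0) = sin φ • fun v => (σ v).1 0 from rfl, map_smul,
      smul_eq_mul, mul_assoc]
  obtain ⟨φ, hφ, h⟩ := exists_hasDerivAt_eq_slope c _ pi_pos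
    (fun φ _ => (key φ).continuousAt.continuousWithinAt) fun φ _ => key φ
  have e : sph.Ex G J (fun σ => (F (fun v => (σ v).1 2) - F (-fun v => (σ v).1 2)) *
      D fun v => (σ v).1 2) = c 0 - c π := by
    rw [eq_sub_iff_add_eq, hc]
    simp only
    rw [← ward_add G J (by fun_prop) (by fun_prop)]
    congr 1
    funext σ
    simp only [sin_zero, cos_zero, sin_pi, cos_pi, zero_mul, one_mul, zero_add, neg_mul]
    rw [show (-fun v => (σ v).1 2) = fun v => -(σ v).1 2 from rfl]
    ring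
  rw [e]
  rw [sub_zero, eq_div_iff pi_pos.ne'] at h
  have s0 := sin_nonneg_of_nonneg_of_le_pi hφ.1.le hφ.2.le
  have s1 := sin_le_one φ
  have := mul_le_mul_of_nonneg_left (hm φ) s0
  have s2 : sin φ * m ≤ m := mul_le_of_le_one_left h0 s1
  nlinarith [pi_pos]

end Crest.Agent.R167
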