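import Crest.Agent.R167.Two
import Crest.Agent.R167.Decomp
import Crest.Agent.R167.Smooth
import Crest.Agent.R167.Ward

/-! Row 167: decorrelation of odd functionals. -/

set_option autoImplicit false
set_option linter.unusedSectionVars false

open MeasureTheory Finset Real

noncomputable section
namespace Crest.Agent.R167

variable {V E : Type} [Fintype V] [DecidableEq V] [Fintype E] [DecidableEq E] (G : Gr V E)

/-- `int_site2` with `cyl`: for fixed heights the longitudes form an XY model with couplings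
`J r_p r_q ≤ β`; apply `circ.two_point_le` for every `y ∈ Q₂`. -/
theorem xy_bound {β : ℝ} {J : E → ℝ} (hJ : ∀ e, 0 ≤ J e ∧ J e ≤ β) (Q₁ Q₂ : Finset V)
    (w₁ : (V → ℝ) → (V → ℝ) → V → ℝ) (w₂ : (V → ℝ) → V → ℝ)
    (c₁ : Continuous fun x : (V → ℝ) × (V → ℝ) => w₁ x.1 x.2) (c₂ : Continuous w₂)
    (p₁ : ∀ s t v, 0 ≤ w₁ s t v) (p₂ : ∀ s v, 0 ≤ w₂ s v) (s₁ : ∀ s t, ∑ v, w₁ s t v ≤ 1)
    (s₂ : ∀ s, ∑ v, w₂ s v ≤ 2) (q₁ : ∀ s t v, v ∉ Q₁ → w₁ s t v = 0)
    (q₂ : ∀ s v, v ∉ Q₂ → w₂ s v = 0) (x : ℝ) (hx : 0 ≤ x)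
    (harm : ∀ J' : E → ℝ, (∀ e, 0 ≤ J' e ∧ J' e ≤ β) → ∀ y ∈ Q₂,
      pr (circ.law G J') (fun ω => ∃ v ∈ Q₁, G.Conn ω y v) ≤ x) :
    sph.Ex G J (fun σ => (∑ v, w₁ (fun v => (σ v).1 1) (fun v => (σ v).1 2) v * (σ v).1 0) *
      ∑ v, w₂ (fun v => (σ v).1 2) v * (σ v).1 0) ≤ 2 * x * sph.Z G J := by
  have hcyl : Continuous fun z : (V → Sph 3) × (V → T) => fun v => cyl (z.1 v, z.2 v) :=
    continuous_pi fun v => continuous_cyl.comp (by fun_prop)
  have hco : ∀ i : Fin 3, Continuous fun σ : V → Sph 3 => fun v => (σ v).1 i := fun i => by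
    fun_prop
  have hΦ : Continuous fun σ : V → Sph 3 => sph.hd G J σ *
      ((∑ v, w₁ (fun v => (σ v).1 1) (fun v => (σ v).1 2) v * (σ v).1 0) *
        ∑ v, w₂ (fun v => (σ v).1 2) v * (σ v).1 0) := by
    refine (sph.continuous_hd G J).mul (Continuous.mul ?_ ?_)
    · refine continuous_finset_sum _ fun v _ => Continuous.mul ?_ (by fun_prop)
      exact (continuous_apply v).comp (c₁.comp ((hco 1).prodMk (hco 2)))
    · refine continuous_finset_sum _ fun v _ => Continuous.mul ?_ (by fun_prop)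
      exact (continuous_apply v).comp (c₂.comp (hco 2))
  unfold Spin.Ex Spin.Z
  rw [int_site2 hT (usph 3) cyl continuous_cyl mp_cyl hΦ,
    int_site2 hT (usph 3) cyl continuous_cyl mp_cyl (sph.continuous_hd G J), ← integral_const_mul]
  refine integral_mono (cint (μ := (Measure.pi fun _ => usph 3).prod (Measure.pi fun _ => hT))
    (hΦ.comp hcyl)).integral_prod_left
    ((cint (μ := (Measure.pi fun _ => usph 3).prod (Measure.pi fun _ => hT))
      ((sph.continuous_hd G J).comp hcyl)).integral_prod_left.const_mul _) fun σ => ?_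
  simp only
  set z : V → ℝ := fun v => (σ v).1 2 with hz
  set r : V → ℝ := fun v => √(1 - (σ v).1 2 ^ 2) with hr
  have hr0 : ∀ v, 0 ≤ r v := fun v => Real.sqrt_nonneg _
  have hr1 : ∀ v, r v ≤ 1 := fun v => Real.sqrt_le_one.2 (by nlinarith [sq_nonneg ((σ v).1 2)])
  set J' : E → ℝ := fun e => J e * (r (G.p e) * r (G.q e)) with hJ'
  have hJb : ∀ e, 0 ≤ J' e ∧ J' e ≤ β := fun e =>
    ⟨mul_nonneg (hJ e).1 (mul_nonneg (hr0 _) (hr0 _)),
      (mul_le_of_le_one_right (hJ e).1 (mul_le_one₀ (hr1 _) (hr0 _) (hr1 _))).trans (hJ e).2⟩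
  set c : ℝ := exp (∑ e, J e * (z (G.p e) * z (G.q e))) with hc
  have hc0 : 0 < c := exp_pos _
  have hh : ∀ θ : V → T, sph.hd G J (fun v => cyl (σ v, θ v)) = c * circ.hd G J' θ := by
    intro θ
    simp only [Spin.hd, hc, ← exp_add, ← sum_add_distrib]
    congr 1
    refine sum_congr rfl fun e _ => ?_
    simp only [sph, circ, cyl_0, cyl_1, cyl_2, hJ', hz, hr]
    ring
  let W : (V → T) → V → ℝ := fun θ v => w₁ (fun v => r v * sn (θ v)) z v * r v
  have hW : Continuous W := continuous_pi fun v =>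
    ((continuous_apply v).comp (c₁.comp (Continuous.prodMk (by fun_prop) continuous_const))).mul
      continuous_const
  have h2 : ∀ y ∈ Q₂, circ.Ex G J' (fun θ => circ.s (θ y) * ∑ v, W θ v * circ.s (θ v)) ≤
      x * circ.Z G J' := by
    intro y hy
    refine (circ.two_point_le G (fun e => (hJb e).1) y Q₁ W hW
      (fun θ v => mul_nonneg (p₁ _ _ _) (hr0 v)) (fun θ => le_trans (sum_le_sum fun v _ =>
        mul_le_of_le_one_right (p₁ _ _ _) (hr1 v)) (s₁ _ _))
      (fun θ v hv => by simp [W, q₁ _ _ v hv]) (fun θ v => ?_)).trans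
      (mul_le_mul_of_nonneg_right (harm J' hJb y hy) (circ.Z_pos G J').le)
    have : (fun u => r u * sn (Function.update θ v (circ.fl (θ v)) u)) = fun u => r u * sn (θ u) := by
      funext u
      by_cases h : u = v
      · subst h; simp [circ, sn_sub, cs_coe, sn_coe]
      · rw [Function.update_of_ne h]
    simp only [W, this]
  have hI : ∀ y, Integrable (fun θ : V → T => circ.hd G J' θ *
      (circ.s (θ y) * ∑ v, W θ v * circ.s (θ v))) (Measure.pi fun _ => hT) := fun y => by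
    refine cint ((circ.continuous_hd G J').mul (Continuous.mul
      (circ.cs.comp (continuous_apply y)) (continuous_finset_sum _ fun v _ =>
        ((continuous_apply v).comp hW).mul (circ.cs.comp (continuous_apply v)))))
  calc _ = ∫ θ : V → T, ∑ y, c * (w₂ z y * r y) * (circ.hd G J' θ *
        (circ.s (θ y) * ∑ v, W θ v * circ.s (θ v))) ∂Measure.pi fun _ => hT := by
        refine integral_congr_ae (Filter.Eventually.of_forall fun θ => ?_)
        simp only [hh, cyl_0, cyl_1, cyl_2]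
        have e : ∑ v, W θ v * circ.s (θ v) =
            ∑ v, w₁ (fun v => r v * sn (θ v)) z v * (r v * cs (θ v)) :=
          sum_congr rfl fun v _ => by simp only [W, circ]; ring
        rw [e, mul_sum, mul_sum]
        refine sum_congr rfl fun y _ => ?_
        simp only [circ, hr, hz]
        ring
    _ = ∑ y, c * (w₂ z y * r y) *
        circ.Ex G J' (fun θ => circ.s (θ y) * ∑ v, W θ v * circ.s (θ v)) := by
        rw [integral_finset_sum _ fun y _ => (hI y).const_mul _]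
        exact sum_congr rfl fun y _ => integral_const_mul _ _
    _ ≤ ∑ y, c * w₂ z y * (x * circ.Z G J') := by
        refine sum_le_sum fun y _ => ?_
        by_cases hy : y ∈ Q₂
        · have hZ := mul_nonneg hx (circ.Z_pos G J').le
          exact (mul_le_mul_of_nonneg_left (h2 y hy)
            (mul_nonneg hc0.le (mul_nonneg (p₂ _ _) (hr0 y)))).trans
            (mul_le_mul_of_nonneg_right (mul_le_mul_of_nonneg_left
              (mul_le_of_le_one_right (p₂ _ _) (hr1 y)) hc0.le) hZ)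
        · simp [q₂ z y hy]
    _ ≤ _ := by
        simp only [hh]
        rw [integral_const_mul, ← sum_mul, ← mul_sum]
        have hZ := mul_nonneg hx (circ.Z_pos G J').le
        calc c * (∑ y, w₂ z y) * (x * circ.Z G J') ≤ c * 2 * (x * circ.Z G J') :=
              mul_le_mul_of_nonneg_right (mul_le_mul_of_nonneg_left (s₂ z) hc0.le) hZ
          _ = _ := by unfold Spin.Z; ring

theorem decor {β : ℝ} {J : E → ℝ} (hJ : ∀ e, 0 ≤ J e ∧ J e ≤ β) {Q₁ Q₂ : Finset V}
    {F₁ F₂ : (V → ℝ) → ℝ} (h₁ : Fnl Q₁ F₁) (h₂ : Fnl Q₂ F₂) (x : ℝ) (hx : 0 ≤ x)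
    (harm : ∀ J' : E → ℝ, (∀ e, 0 ≤ J' e ∧ J' e ≤ β) → ∀ y ∈ Q₂,
      pr (circ.law G J') (fun ω => ∃ v ∈ Q₁, G.Conn ω y v) ≤ x) :
    sph.Ex G J (fun σ => (F₁ (fun v => sph.s (σ v)) - F₁ (-fun v => sph.s (σ v))) *
      (F₂ (fun v => sph.s (σ v)) - F₂ (-fun v => sph.s (σ v)))) ≤ 2 * π * x * sph.Z G J := by
  obtain ⟨w₁, c₁, p₁, s₁, q₁, g₁⟩ := h₁.grad
  obtain ⟨w₂, c₂, p₂, s₂, q₂, g₂⟩ := h₂.grad
  have hD : ContDiff ℝ 1 fun s : V → ℝ => F₂ s - F₂ (-s) :=
    h₂.smooth.sub (h₂.smooth.comp contDiff_neg)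
  have gD : ∀ s t, fderiv ℝ (fun s : V → ℝ => F₂ s - F₂ (-s)) s t =
      ∑ v, (w₂ s v + w₂ (-s) v) * t v := by
    intro s t
    have hd := h₂.smooth.differentiable one_ne_zero
    have := ((hd s).hasFDerivAt.sub ((hd (-s)).hasFDerivAt.comp s (hasFDerivAt_id s).neg)).fderiv
    rw [show (fun s : V → ℝ => F₂ s - F₂ (-s)) = F₂ - F₂ ∘ Neg.neg from rfl, this]
    simp only [ContinuousLinearMap.sub_apply, ContinuousLinearMap.comp_apply,
      ContinuousLinearMap.neg_apply, ContinuousLinearMap.id_apply, g₂, add_mul,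
      sum_add_distrib, Pi.neg_apply, mul_neg, sum_neg_distrib, sub_neg_eq_add]
  have hZ := (sph.Z_pos G J).le
  have := ward G J F₁ (fun s => F₂ s - F₂ (-s)) h₁.smooth hD (2 * x * sph.Z G J) (by positivity)
    fun φ => by
      simp only [g₁, gD]
      exact xy_bound G hJ Q₁ Q₂ (fun s t => w₁ fun v => sin φ * s v + cos φ * t v)
        (fun s v => w₂ s v + w₂ (-s) v) (c₁.comp (by fun_prop))
        (c₂.add (c₂.comp continuous_neg)) (fun _ _ _ => p₁ _ _)
        (fun _ _ => add_nonneg (p₂ _ _) (p₂ _ _)) (fun _ _ => (s₁ _).le)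
        (fun s => by rw [sum_add_distrib, s₂, s₂]; norm_num) (fun _ _ v hv => q₁ _ v hv)
        (fun s v hv => by rw [q₂ _ v hv, q₂ _ v hv, add_zero]) x hx harm
  calc _ ≤ π * (2 * x * sph.Z G J) := this
    _ = _ := by ring

end Crest.Agent.R167
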