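import Crest.Agent.R167.M2
import Crest.Agent.R167.Gks
import Crest.Agent.R167.Types
import Crest.Agent.R167.AG
import Crest.Agent.R167.Cov
import Crest.Agent.R167.XY

/-! Row 167: the finite size criterion holds at every temperature. -/

set_option autoImplicit false
set_option linter.unusedSectionVars false

open MeasureTheory Finset Real

noncomputable section
namespace Crest.Agent.R167

theorem vc_small {β δ : ℝ} (hβ : 0 < β) (hδ : 0 < δ) : ∃ L : ℕ, 2 ≤ L ∧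
    ∀ (V E : Type) [Fintype V] [DecidableEq V] [Fintype E] [DecidableEq E] (G : Gr V E)
      (pos : V → ℤ × ℤ) (U : Finset V) (J : E → ℝ), (∀ e, 0 ≤ J e ∧ J e ≤ β) →
      G.Lat pos U (3 * L) → pr (sph.law G J) (G.VC pos U L) ≤ δ := by
  obtain ⟨c₀, hc, a, ha, H⟩ := exists_HH hβ.le hδ
  obtain ⟨t1, t2, t3, t4, t5⟩ := th_spec hβ
  obtain ⟨ε, hε, hag⟩ := sph.ag sph_pos hβ.le (th β) (th β 1) t1 t2 t3 t4 t5 (c₀ / 16)
    (by positivity)
  have hq : 0 < exp (-(320 * β)) := exp_pos _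
  have hq' : exp (-(320 * β)) ≤ 1 := exp_le_one_iff.2 (by linarith)
  obtain ⟨κ, hκ⟩ := exists_pow_lt_of_lt_one
    (show 0 < ε ^ 2 * c₀ / 8 / (2 * π) by positivity) (show 1 - exp (-(320 * β)) < 1 by linarith)
  have hw : 2 ≤ 2 * 2 ^ κ := by have := Nat.one_le_two_pow (n := κ); omega
  refine ⟨a * (2 * 2 ^ κ), by nlinarith, fun V E _ _ _ _ G pos U J hJ hL => ?_⟩
  by_contra hcon
  have J0 : ∀ e, 0 ≤ J e := fun e => (hJ e).1
  obtain ⟨𝓕₁, 𝓕₂, Q₁, Q₂, s₁, s₂, i₁, i₂, u₁, u₂, hy, hd, hH⟩ := H _ hw V E G pos U _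
    (sph.fkLaw G hβ.le hJ (yok_YX G J0) (sph_dec G J)) hL (not_le.1 hcon).le
  have hne : ∃ ω, G.HH 𝓕₁ 𝓕₂ ω := by
    by_contra h
    have := pr_mono (sph.law_nonneg G J0) (A := G.HH 𝓕₁ 𝓕₂) (B := fun _ => False)
      fun ω hω => h ⟨ω, hω⟩
    rw [pr_false] at this
    linarith
  obtain ⟨_, _, P₁, hP₁, P₂, hP₂, -⟩ := hne
  obtain ⟨F₁, f₁, g₁⟩ := exists_fnl s₁ ⟨_, hP₁⟩ i₁ (half_pos hε)
  obtain ⟨F₂, f₂, g₂⟩ := exists_fnl s₂ ⟨_, hP₂⟩ i₂ (half_pos hε)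
  obtain ⟨w₁, a₁, b₁, c₁, d₁⟩ := exists_u 𝓕₁ hε
  obtain ⟨w₂, a₂, b₂, c₂, d₂⟩ := exists_u 𝓕₂ hε
  have key : ∀ {𝓕 : Finset (Finset V)} {F w : (V → ℝ) → ℝ},
      (∀ s l, (∃ A ∈ 𝓕, ∀ v ∈ A, l ≤ s v) → 2 * l - ε / 2 ≤ F s - F (-s)) →
      (∀ s, 0 ≤ w s ∧ w s ≤ 1) → (∀ s, w s < 1 → ∃ A ∈ 𝓕, ∀ v ∈ A, ε ≤ s v) →
      ∀ s, (∃ A ∈ 𝓕, ∀ v ∈ A, 0 ≤ s v) → 2 * ε * (1 - w s) - ε / 2 ≤ F s - F (-s) := by
    intro 𝓕 F w g b d s hs
    rcases (b s).2.lt_or_eq with h | h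
    · have := g s ε (d s h)
      nlinarith [(b s).1]
    · have := g s 0 hs
      rw [h]; linarith
  have cth : ∀ 𝓕 : Finset (Finset V), Continuous fun s : V → ℝ => ml 𝓕 fun v => th β (s v) :=
    fun 𝓕 => (continuous_ml 𝓕).comp (continuous_pi fun v => t1.comp (continuous_apply v))
  have cD : ∀ {Q F}, Fnl Q F → Continuous fun s : V → ℝ => F s - F (-s) := fun f =>
    f.smooth.continuous.sub (f.smooth.continuous.comp continuous_neg)
  have mD : ∀ {Q F}, Fnl Q F → Monotone fun s : V → ℝ => F s - F (-s) := fun f _ _ h =>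
    sub_le_sub (f.mono h) (f.mono (neg_le_neg h))
  have dg₁ : ∀ v ∈ Q₁, G.deg v ≤ 4 := fun v hv => hL.deg v (u₁ hv)
  have dg₂ : ∀ v ∈ Q₂, G.deg v ≤ 4 := fun v hv => hL.deg v (u₂ hv)
  have low := sph.cov_lower G J0 𝓕₁ 𝓕₂ _ _ w₁ w₂ _ _ ε hε (cD f₁) (cD f₂) a₁ a₂ (cth 𝓕₁) (cth 𝓕₂)
    (mD f₁) (mD f₂) (fun s => by simp) (fun s => by simp) (fun s => (b₁ s).1) (fun s => (b₂ s).1)
    (key g₁ b₁ d₁) (key g₂ b₂ d₂) (lss G hβ hJ dg₁ s₁) (lss G hβ hJ dg₂ s₂)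
  have e₁ := hag V E G J Q₁ 𝓕₁ w₁ hJ dg₁ s₁ a₁ b₁ c₁
  have e₂ := hag V E G J Q₂ 𝓕₂ w₂ hJ dg₂ s₂ a₂ b₂ c₂
  have up := decor G hJ f₁ f₂ ((1 - exp (-(320 * β))) ^ κ) (pow_nonneg (by linarith) _)
    fun J' hJ' y hyQ => by
      have := lat_arm G hβ.le
        (circ.fkLaw G hβ.le hJ' (yok_YI G fun e => (hJ' e).1) (circ_dec G J')) hL Unit
        (fun _ => pos y) 2 κ le_rfl (fun _ => by have := hy y hyQ; nlinarith)
        (fun i j h => absurd (Subsingleton.elim i j) h)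
      rw [Fintype.card_unit, mul_one] at this
      refine (pr_mono (circ.law_nonneg G fun e => (hJ' e).1) ?_).trans this
      rintro ω ⟨v, hv, hc⟩ _
      exact ⟨y, v, u₂ hyQ, by simp [nrm], fun _ => hd y hyQ v hv, hc⟩
  have hZ := sph.Z_pos G J
  rw [lt_div_iff₀ (by positivity)] at hκ
  have h1 := mul_lt_mul_of_pos_right hκ hZ
  have h2 := mul_le_mul_of_nonneg_right hH hZ.le
  have h3 : ε ^ 2 / 4 * (c₀ / 2 * sph.Z G J) ≤ _ :=
    (mul_le_mul_of_nonneg_left (by linarith) (by positivity)).trans (low.trans up)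
  linarith

theorem Gr.Lat.comp {V E : Type} [Fintype E] [DecidableEq V] {G : Gr V E} {pos : V → ℤ × ℤ}
    {U : Finset V} {M : ℕ} (h : G.Lat pos U M) (f : ℤ × ℤ → ℤ × ℤ) (hi : Function.Injective f)
    (hn : ∀ z, nrm (f z) = nrm z)
    (ha : ∀ z w, ((f z).1 - (f w).1).natAbs + ((f z).2 - (f w).2).natAbs =
      (z.1 - w.1).natAbs + (z.2 - w.2).natAbs) : G.Lat (fun v => f (pos v)) U M :=
  ⟨fun u hu v hv e => h.inj u hu v hv (hi e), fun v hv => (hn _).trans_le (h.sub v hv),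
    fun e hp hq => (ha _ _).trans (h.adj e hp hq), fun e he => h.deep e (by simpa [hn] using he),
    h.deg⟩

theorem cr_small {β δ : ℝ} (hβ : 0 < β) (hδ : 0 < δ) : ∃ L : ℕ, 2 ≤ L ∧
    ∀ (V E : Type) [Fintype V] [DecidableEq V] [Fintype E] [DecidableEq E] (G : Gr V E)
      (pos : V → ℤ × ℤ) (U : Finset V) (J : E → ℝ), (∀ e, 0 ≤ J e ∧ J e ≤ β) →
      G.Lat pos U (3 * L) → pr (sph.law G J) (G.Cr pos U L) ≤ δ := by
  obtain ⟨L, hL, H⟩ := vc_small hβ (show 0 < δ / 4 by positivity)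
  refine ⟨L, hL, fun V E _ _ _ _ G pos U J hJ hl => ?_⟩
  let f : Fin 4 → ℤ × ℤ → ℤ × ℤ :=
    ![fun z => z, fun z => (z.1, -z.2), fun z => (z.2, z.1), fun z => (z.2, -z.1)]
  have hn : ∀ i z, nrm (f i z) = nrm z := fun i z => by
    fin_cases i <;> simp [f, nrm, max_comm]
  have h0 := sph.law_nonneg G fun e => (hJ e).1
  have h1 : ∀ i, pr (sph.law G J) (G.VC (fun v => f i (pos v)) U L) ≤ δ / 4 := fun i =>
    H V E G _ U J hJ (hl.comp (f i)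
      (fun z w e => by
        fin_cases i <;> simp only [f, Prod.ext_iff] at e ⊢ <;> simp at e <;> omega)
      (hn i) fun z w => by fin_cases i <;> simp [f] <;> omega)
  refine (pr_mono h0 (B := fun ω => ∃ i ∈ univ, G.VC (fun v => f i (pos v)) U L ω) ?_).trans
    ((pr_exists_le h0 _ _).trans ((sum_le_sum fun i _ => h1 i).trans (by simp; linarith)))
  rintro ω ⟨x, y, hx, hy, hc⟩
  have : ∃ i, (f i (pos x)).2 ≤ L ∧ 2 * (L : ℤ) ≤ (f i (pos y)).2 := by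
    simp only [nrm] at hx hy
    simp [Fin.exists_fin_succ, f]
    omega
  obtain ⟨i, a, b⟩ := this
  exact ⟨i, mem_univ _, x, y, a, b, by simpa only [hn] using hc⟩

theorem finite_size {β δ : ℝ} (hβ : 0 < β) (hδ : 0 < δ) : ∃ L : ℕ, 2 ≤ L ∧
    ∀ (V E : Type) [Fintype V] [DecidableEq V] [Fintype E] [DecidableEq E] (G : Gr V E)
      (pos : V → ℤ × ℤ) (U : Finset V) (J : E → ℝ), (∀ e, 0 ≤ J e ∧ J e ≤ β) → G.GLat pos →
      (∀ v, v ∈ U ↔ nrm (pos v) ≤ 3 * L) → (∃ v, v ∉ U) → sph.wp G J U (G.Cr pos U L) ≤ δ := by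
  obtain ⟨L, hL, H⟩ := cr_small hβ
    (show 0 < exp (-(β * (π ^ 2 * 196) / 2)) * δ by positivity)
  refine ⟨L, hL, fun V E _ _ _ _ G pos U J hJ hG hU ⟨v₀, hv⟩ => ?_⟩
  set G' := G.collapse U v₀ with hG'
  have ep : ∀ e, ∀ v ∈ U, G'.p e = v ↔ G.p e = v := fun e v h => by
    simp only [hG', Gr.collapse]
    split_ifs with c
    · rfl
    · exact ⟨fun e => (hv (e ▸ h)).elim, fun e => (c (e ▸ h)).elim⟩
  have eq : ∀ e, ∀ v ∈ U, G'.q e = v ↔ G.q e = v := fun e v h => by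
    simp only [hG', Gr.collapse]
    split_ifs with c
    · rfl
    · exact ⟨fun e => (hv (e ▸ h)).elim, fun e => (c (e ▸ h)).elim⟩
  have mp : ∀ e, G'.p e ∈ U ↔ G.p e ∈ U := fun e =>
    ⟨fun h => (ep e _ h).1 rfl ▸ h, fun h => (ep e _ h).2 rfl ▸ h⟩
  have mq : ∀ e, G'.q e ∈ U ↔ G.q e ∈ U := fun e =>
    ⟨fun h => (eq e _ h).1 rfl ▸ h, fun h => (eq e _ h).2 rfl ▸ h⟩
  have hl : G'.Lat pos U (3 * L) := by
    refine ⟨fun u _ v _ e => hG.inj e, fun v h => (hU v).1 h, fun e a b => ?_, fun e h => ?_,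
      fun v h => ?_⟩
    · rw [← (ep e _ a).1 rfl, ← (eq e _ b).1 rfl]; exact hG.adj e
    · have := hG.adj e
      rw [mp, mq, hU, hU]
      rcases h with ⟨a, b⟩ | ⟨a, b⟩
      · rw [← (ep e _ a).1 rfl] at b
        simp only [nrm] at b ⊢
        omega
      · rw [← (eq e _ a).1 rfl] at b
        simp only [nrm] at b ⊢
        omega
    · simpa only [Gr.deg, ep _ v h, eq _ v h] using hG.deg v
  have eJ : G'.JL U J = G.JL U J := by
    funext e; exact if_congr (or_congr (mp e) (mq e)) rfl rfl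
  have eC : G'.Cr pos U L = G.Cr pos U L := by
    funext ω
    simp only [Gr.Cr, Gr.ConnIn]
    congr! 7 with x y
    funext u v
    exact propext (and_congr_right fun a => and_congr_right fun b => by
      simp only [Gr.Adj, ep _ u a.1, ep _ v b.1, eq _ u a.1, eq _ v b.1])
  have sp : ∀ (σ : V → Sph 3) e, U.piecewise σ (fun _ => sph.N) (G'.p e) =
      U.piecewise σ (fun _ => sph.N) (G.p e) := fun σ e => by
    by_cases c : G.p e ∈ U
    · rw [(ep e _ c).2 rfl]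
    · rw [piecewise_eq_of_notMem _ _ _ c, piecewise_eq_of_notMem _ _ _ (by rwa [mp])]
  have sq : ∀ (σ : V → Sph 3) e, U.piecewise σ (fun _ => sph.N) (G'.q e) =
      U.piecewise σ (fun _ => sph.N) (G.q e) := fun σ e => by
    by_cases c : G.q e ∈ U
    · rw [(eq e _ c).2 rfl]
    · rw [piecewise_eq_of_notMem _ _ _ c, piecewise_eq_of_notMem _ _ _ (by rwa [mq])]
  have eW : sph.wp G' J U (G'.Cr pos U L) = sph.wp G J U (G.Cr pos U L) := by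
    simp only [Spin.wp, Spin.fk, Spin.hk, Spin.hd, Gr.cw, eJ, eC, sp, sq]
  obtain ⟨g, g1, g0, gC⟩ := lat_g G' (by omega) hl
  have h1 := wp_le G' hβ.le hJ U v₀ hv
    (fun e => by simp only [hG', Gr.collapse]; split_ifs with c <;> simp [c])
    (fun e => by simp only [hG', Gr.collapse]; split_ifs with c <;> simp [c]) g (g1 _ hv) 196 gC
    (A := G'.Cr pos U L) (by
      rintro ω ω' h ⟨x, y, a, b, c⟩
      refine ⟨x, y, a, b, Relation.ReflTransGen.mono ?_ _ _ c⟩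
      rintro u v ⟨hu, hv, e, he, hh⟩
      refine ⟨hu, hv, e, (h e ?_).symm.trans he, hh⟩
      rcases hh with ⟨rfl, rfl⟩ | ⟨rfl, rfl⟩
      exacts [⟨g0 _ hu.1 hu.2, g0 _ hv.1 hv.2⟩, ⟨g0 _ hv.1 hv.2, g0 _ hu.1 hu.2⟩])
  rw [← eW]
  exact le_of_mul_le_mul_left (h1.trans (H V E G' pos U _ (G'.JL_bd hJ U) hl)) (exp_pos _)

end Crest.Agent.R167
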