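import Crest.Agent.R167.Basic

/-! Row 167: the four functions theorem for product measures. -/

set_option autoImplicit false
set_option linter.unusedSectionVars false

open MeasureTheory Finset Real

noncomputable section
namespace Crest.Agent.R167

variable {V E : Type} [Fintype V] [DecidableEq V] [Fintype E] [DecidableEq E] (G : Gr V E)

open scoped ENNReal in
theorem four_ineq {p q r t : ℝ≥0∞} (hp : p ≤ r) (hq : q ≤ r) (h : p * q ≤ r * t) :
    p + q ≤ r + t := by
  rcases eq_or_ne r ⊤ with rfl | hr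
  · simp
  rcases eq_or_ne t ⊤ with rfl | ht
  · simp
  lift r to NNReal using hr
  lift t to NNReal using ht
  lift p to NNReal using ne_top_of_le_ne_top ENNReal.coe_ne_top hp
  lift q to NNReal using ne_top_of_le_ne_top ENNReal.coe_ne_top hq
  have hp' : (p : ℝ) ≤ r := by exact_mod_cast hp
  have hq' : (q : ℝ) ≤ r := by exact_mod_cast hq
  have h' : (p : ℝ) * q ≤ r * t := by exact_mod_cast h
  have goal : (p : ℝ) + q ≤ r + t := by
    rcases r.2.eq_or_lt with h0 | h0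
    · have h1 : (r : ℝ) = 0 := h0.symm
      have := t.2
      simp only [NNReal.val_eq_coe] at this
      linarith
    · have h1 : (0 : ℝ) < r := h0
      refine le_of_mul_le_mul_left ?_ h1
      nlinarith [mul_nonneg (sub_nonneg.2 hp') (sub_nonneg.2 hq')]
  exact_mod_cast goal

open scoped ENNReal in
theorem four_one {X : Type} [LinearOrder X] [MeasurableSpace X] (μ : Measure X)
    {g₁ g₂ g₃ g₄ : X → ℝ≥0∞} (m₁ : Measurable g₁) (m₂ : Measurable g₂) (m₃ : Measurable g₃)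
    (m₄ : Measurable g₄) (h : ∀ x y, g₁ x * g₂ y ≤ g₃ (x ⊓ y) * g₄ (x ⊔ y)) :
    (∫⁻ x, g₁ x ∂μ) * ∫⁻ x, g₂ x ∂μ ≤ (∫⁻ x, g₃ x ∂μ) * ∫⁻ x, g₄ x ∂μ := by
  have e : ∀ {f g : X → ℝ≥0∞}, Measurable f → Measurable g →
      ∫⁻ x, ∫⁻ y, f x * g y + f y * g x ∂μ ∂μ = 2 * ((∫⁻ x, f x ∂μ) * ∫⁻ x, g x ∂μ) := by
    intro f g hf hg
    have h1 : ∀ x, ∫⁻ y, f x * g y + f y * g x ∂μ
        = f x * (∫⁻ y, g y ∂μ) + (∫⁻ y, f y ∂μ) * g x := by
      intro x
      rw [lintegral_add_left (hg.const_mul _), lintegral_const_mul _ hg, lintegral_mul_const _ hf]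
    simp_rw [h1]
    rw [lintegral_add_left (hf.mul_const _), lintegral_mul_const _ hf, lintegral_const_mul _ hg,
      two_mul]
  have key : ∀ x y, x ≤ y → g₁ x * g₂ y + g₁ y * g₂ x ≤ g₃ x * g₄ y + g₃ y * g₄ x := by
    intro x y hxy
    have h1 := h x y
    have h2 := h y x
    have h3 := h x x
    have h4 := h y y
    rw [inf_of_le_left hxy, sup_of_le_right hxy] at h1
    rw [inf_of_le_right hxy, sup_of_le_left hxy] at h2
    rw [inf_idem, sup_idem] at h3 h4
    refine four_ineq h1 h2 ?_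
    calc g₁ x * g₂ y * (g₁ y * g₂ x) = (g₁ x * g₂ x) * (g₁ y * g₂ y) := by ring
      _ ≤ (g₃ x * g₄ x) * (g₃ y * g₄ y) := mul_le_mul' h3 h4
      _ = _ := by ring
  have h2 : 2 * ((∫⁻ x, g₁ x ∂μ) * ∫⁻ x, g₂ x ∂μ) ≤ 2 * ((∫⁻ x, g₃ x ∂μ) * ∫⁻ x, g₄ x ∂μ) := by
    rw [← e m₁ m₂, ← e m₃ m₄]
    refine lintegral_mono fun x => lintegral_mono fun y => ?_
    rcases le_total x y with hxy | hxy
    · exact key x y hxy
    · have := key y x hxy
      rwa [add_comm, add_comm (g₃ y * g₄ x)] at this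
  exact (ENNReal.mul_le_mul_iff_right two_ne_zero ENNReal.ofNat_ne_top).1 h2

open scoped ENNReal in
theorem four_marginal {X : Type} [LinearOrder X] [MeasurableSpace X] (μ : Measure X)
    [SigmaFinite μ] {g₁ g₂ g₃ g₄ : (V → X) → ℝ≥0∞} (m₁ : Measurable g₁) (m₂ : Measurable g₂)
    (m₃ : Measurable g₃) (m₄ : Measurable g₄)
    (h : ∀ a b, g₁ a * g₂ b ≤ g₃ (a ⊓ b) * g₄ (a ⊔ b)) (s : Finset V) (a b : V → X) :
    (∫⋯∫⁻_s, g₁ ∂fun _ => μ) a * (∫⋯∫⁻_s, g₂ ∂fun _ => μ) b ≤
      (∫⋯∫⁻_s, g₃ ∂fun _ => μ) (a ⊓ b) * (∫⋯∫⁻_s, g₄ ∂fun _ => μ) (a ⊔ b) := by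
  induction s using Finset.induction_on generalizing a b with
  | empty => simpa using h a b
  | insert i s hi ih =>
    rw [lmarginal_insert _ m₁ hi, lmarginal_insert _ m₂ hi, lmarginal_insert _ m₃ hi,
      lmarginal_insert _ m₄ hi]
    refine four_one μ ((m₁.lmarginal _).comp (measurable_update _))
      ((m₂.lmarginal _).comp (measurable_update _)) ((m₃.lmarginal _).comp (measurable_update _))
      ((m₄.lmarginal _).comp (measurable_update _)) fun x y => ?_
    have e1 : Function.update a i x ⊓ Function.update b i y = Function.update (a ⊓ b) i (x ⊓ y) := by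
      funext j
      by_cases hj : j = i
      · subst hj; simp
      · simp [hj]
    have e2 : Function.update a i x ⊔ Function.update b i y = Function.update (a ⊔ b) i (x ⊔ y) := by
      funext j
      by_cases hj : j = i
      · subst hj; simp
      · simp [hj]
    have := ih (Function.update a i x) (Function.update b i y)
    rwa [e1, e2] at this

theorem four_int (lam : Measure unitInterval) [IsProbabilityMeasure lam]
    (f₁ f₂ f₃ f₄ : (V → unitInterval) → ℝ) (c₁ : Continuous f₁) (c₂ : Continuous f₂)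
    (c₃ : Continuous f₃) (c₄ : Continuous f₄) (h₁ : ∀ a, 0 ≤ f₁ a) (h₂ : ∀ a, 0 ≤ f₂ a)
    (h₃ : ∀ a, 0 ≤ f₃ a) (h₄ : ∀ a, 0 ≤ f₄ a)
    (h : ∀ a b, f₁ a * f₂ b ≤ f₃ (a ⊓ b) * f₄ (a ⊔ b)) :
    (∫ a, f₁ a ∂Measure.pi fun _ => lam) * (∫ a, f₂ a ∂Measure.pi fun _ => lam) ≤
      (∫ a, f₃ a ∂Measure.pi fun _ => lam) * ∫ a, f₄ a ∂Measure.pi fun _ => lam := by
  have key := four_marginal lam (g₁ := fun a => ENNReal.ofReal (f₁ a))
    (g₂ := fun a => ENNReal.ofReal (f₂ a)) (g₃ := fun a => ENNReal.ofReal (f₃ a))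
    (g₄ := fun a => ENNReal.ofReal (f₄ a)) c₁.measurable.ennreal_ofReal
    c₂.measurable.ennreal_ofReal c₃.measurable.ennreal_ofReal c₄.measurable.ennreal_ofReal
    (fun a b => by
      rw [← ENNReal.ofReal_mul (h₁ a), ← ENNReal.ofReal_mul (h₃ _)]
      exact ENNReal.ofReal_le_ofReal (h a b)) univ 0 0
  simp only [lmarginal_univ] at key
  rw [← ofReal_integral_eq_lintegral_ofReal (cint c₁) (Filter.Eventually.of_forall h₁),
    ← ofReal_integral_eq_lintegral_ofReal (cint c₂) (Filter.Eventually.of_forall h₂),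
    ← ofReal_integral_eq_lintegral_ofReal (cint c₃) (Filter.Eventually.of_forall h₃),
    ← ofReal_integral_eq_lintegral_ofReal (cint c₄) (Filter.Eventually.of_forall h₄),
    ← ENNReal.ofReal_mul (integral_nonneg h₁), ← ENNReal.ofReal_mul (integral_nonneg h₃)] at key
  exact (ENNReal.ofReal_le_ofReal_iff (mul_nonneg (integral_nonneg h₃) (integral_nonneg h₄))).1 key

end Crest.Agent.R167
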