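import Crest.Agent.R167.Defs

/-! Row 167: product Bernoulli expectations (auxiliary to `LSS`). -/

set_option autoImplicit false
set_option linter.unusedSectionVars false

open Finset Real

noncomputable section
namespace Crest.Agent.R167

variable {ι κ : Type} [Fintype ι] [DecidableEq ι] [Fintype κ] [DecidableEq κ]

/-- expectation under the product Bernoulli law with parameters `x` -/
def lssE (x : ι → ℝ) (f : (ι → Bool) → ℝ) : ℝ :=
  ∑ A : ι → Bool, (∏ i, if A i then x i else 1 - x i) * f A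

theorem lss_sum_w (x : ι → ℝ) : ∑ A : ι → Bool, (∏ i, if A i then x i else 1 - x i) = 1 := by
  have := Finset.prod_univ_sum (fun _ : ι => (univ : Finset Bool))
    (fun i (b : Bool) => if b then x i else 1 - x i)
  rw [Fintype.piFinset_univ] at this
  rw [← this]
  simp

theorem lss_w_nonneg {x : ι → ℝ} (hx : ∀ v, 0 ≤ x v ∧ x v ≤ 1) (A : ι → Bool) :
    0 ≤ ∏ i, if A i then x i else 1 - x i :=
  prod_nonneg fun i _ => by
    have := hx i
    split_ifs <;> linarith

theorem lss_push {D : ι → Type} [∀ i, Fintype (D i)]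
    (W : ∀ i, D i → ℝ) (hW : ∀ i, ∑ t, W i t = 1) (ψ : ∀ i, D i → Bool) (x : ι → ℝ)
    (hx : ∀ i, ∑ t, W i t * (if ψ i t then 1 else 0) = x i) (f : (ι → Bool) → ℝ) :
    ∑ d : ∀ i, D i, (∏ i, W i (d i)) * f (fun i => ψ i (d i)) = lssE x f := by
  have key : ∀ i (b : Bool),
      (if b then x i else 1 - x i) = ∑ t, if ψ i t = b then W i t else 0 := by
    intro i b
    cases b
    · rw [if_neg (by simp), ← hx i, ← hW i, ← sum_sub_distrib]
      refine sum_congr rfl fun t _ => ?_
      cases ψ i t <;> simp [hW i]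
    · rw [if_pos rfl, ← hx i]
      refine sum_congr rfl fun t _ => ?_
      cases ψ i t <;> simp
  unfold lssE
  simp_rw [key, Finset.prod_univ_sum, Fintype.piFinset_univ, Finset.sum_mul]
  rw [sum_comm]
  refine sum_congr rfl fun d _ => ?_
  rw [sum_eq_single (fun i => ψ i (d i))]
  · simp
  · intro A _ hA
    obtain ⟨i, hi⟩ := Function.ne_iff.1 hA
    rw [prod_eq_zero (mem_univ i) (if_neg (Ne.symm hi)), zero_mul]
  · simp

theorem lss_mono_f {x : ι → ℝ} (hx : ∀ v, 0 ≤ x v ∧ x v ≤ 1) {f g : (ι → Bool) → ℝ}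
    (h : ∀ A, f A ≤ g A) : lssE x f ≤ lssE x g :=
  sum_le_sum fun A _ => mul_le_mul_of_nonneg_left (h A) (lss_w_nonneg hx A)

theorem lss_mono {x y : ι → ℝ} (hx : ∀ v, 0 ≤ x v) (hxy : x ≤ y) (hy : ∀ v, y v ≤ 1)
    {f : (ι → Bool) → ℝ} (hf : Monotone f) : lssE x f ≤ lssE y f := by
  let W : ι → Fin 3 → ℝ := fun i => ![x i, y i - x i, 1 - y i]
  have hW : ∀ i, ∑ t, W i t = 1 := fun i => by simp [W, Fin.sum_univ_three]
  rw [← lss_push W hW (fun _ => ![true, false, false]) x (fun i => by simp [W, Fin.sum_univ_three]),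
    ← lss_push W hW (fun _ => ![true, true, false]) y (fun i => by simp [W, Fin.sum_univ_three])]
  refine sum_le_sum fun d _ => mul_le_mul_of_nonneg_left (hf fun i => ?_)
    (prod_nonneg fun i _ => ?_)
  · generalize d i = t
    fin_cases t <;> simp
  · have h1 := hx i
    have h2 := hxy i
    have h3 := hy i
    generalize d i = t
    fin_cases t <;> simp [W] <;> linarith

theorem lss_congr {Q : Finset ι} {x y : ι → ℝ} (h : ∀ v ∈ Q, x v = y v) {f : (ι → Bool) → ℝ}
    (hf : ∀ A B : ι → Bool, (∀ v ∈ Q, A v = B v) → f A = f B) : lssE x f = lssE y f := by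
  let W : ι → Bool × Bool → ℝ := fun i t =>
    (if t.1 then x i else 1 - x i) * (if t.2 then y i else 1 - y i)
  have hW : ∀ i, ∑ t, W i t = 1 := fun i => by
    simp [W, Fintype.sum_prod_type]; ring
  rw [← lss_push W hW (fun _ t => t.1) x (fun i => by simp [W, Fintype.sum_prod_type]; ring),
    ← lss_push W hW (fun i t => if i ∈ Q then t.1 else t.2) y (fun i => by
      by_cases hi : i ∈ Q
      · simp [W, Fintype.sum_prod_type, hi, h i hi]; ring
      · simp [W, Fintype.sum_prod_type, hi]; ring)]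
  refine sum_congr rfl fun d _ => ?_
  rw [hf _ (fun i => if i ∈ Q then (d i).1 else (d i).2) fun v hv => by simp [hv]]

theorem lss_block (ρ : κ → ι) (y : κ → ℝ) (ψ : ∀ i, ({k // ρ k = i} → Bool) → Bool) (x : ι → ℝ)
    (hx : ∀ i, lssE (fun k : {k // ρ k = i} => y k) (fun t => if ψ i t then 1 else 0) = x i)
    (f : (ι → Bool) → ℝ) :
    lssE y (fun c => f fun i => ψ i fun k => c k.1) = lssE x f := by
  rw [← lss_push (fun i (t : {k // ρ k = i} → Bool) => ∏ k, if t k then y k else 1 - y k)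
    (fun i => lss_sum_w _) ψ x hx f]
  let e : (κ → Bool) ≃ (∀ i, {k // ρ k = i} → Bool) :=
    ⟨fun c _ k => c k.1, fun d k => d (ρ k) ⟨k, rfl⟩, fun _ => rfl, fun d => by
      funext i ⟨k, hk⟩; subst hk; rfl⟩
  refine Fintype.sum_equiv e _ _ fun c => ?_
  rw [← Fintype.prod_fiberwise ρ]
  rfl

theorem lss_all (y : κ → ℝ) :
    lssE y (fun t => if decide (∀ k, t k = true) then 1 else 0) = ∏ k, y k := by
  unfold lssE
  rw [sum_eq_single (fun _ => true)]
  · simp
  · intro A _ hA
    obtain ⟨i, hi⟩ := Function.ne_iff.1 hA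
    have : ¬ ∀ k, A k = true := fun h => hi (h i)
    simp [this]
  · simp

theorem lss_any (y : κ → ℝ) :
    lssE y (fun t => if decide (∃ k, t k = true) then 1 else 0) = 1 - ∏ k, (1 - y k) := by
  have h1 : lssE y (fun t => if decide (∃ k, t k = true) then 0 else 1) = ∏ k, (1 - y k) := by
    unfold lssE
    rw [sum_eq_single (fun _ => false)]
    · simp
    · intro A _ hA
      obtain ⟨i, hi⟩ := Function.ne_iff.1 hA
      have : ∃ k, A k = true := ⟨i, by simpa using hi⟩
      simp [this]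
    · simp
  rw [← h1, eq_sub_iff_add_eq]
  refine Eq.trans ?_ (lss_sum_w y)
  unfold lssE
  rw [← sum_add_distrib]
  refine sum_congr rfl fun A _ => ?_
  by_cases h : ∃ k, A k = true <;> simp [h]

theorem lss_zero (y : κ → ℝ) : lssE y (fun _ => 0) = 0 := by simp [lssE]

end Crest.Agent.R167
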