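import Crest.Agent.R167.Basic
import Crest.Agent.R167.LSSAux

/-! Row 167: domination of the set of vertices with an open edge by a product law. -/

set_option autoImplicit false
set_option linter.unusedSectionVars false

open MeasureTheory Finset Real

noncomputable section
namespace Crest.Agent.R167

variable {V E : Type} [Fintype V] [DecidableEq V] [Fintype E] [DecidableEq E] (G : Gr V E)

theorem lss_ml (𝓕 : Finset (Finset V)) (x : V → ℝ) :
    ml 𝓕 x = lssE x fun A => ind (∃ P ∈ 𝓕, ∀ v ∈ P, A v = true) := rfl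

theorem continuous_ml (𝓕 : Finset (Finset V)) : Continuous (ml 𝓕) := by
  unfold ml
  refine continuous_finsetSum _ fun A _ => Continuous.mul ?_ continuous_const
  refine continuous_finsetProd _ fun v _ => ?_
  split_ifs <;> fun_prop

theorem ml_nonneg (𝓕 : Finset (Finset V)) {x : V → ℝ} (hx : ∀ v, 0 ≤ x v ∧ x v ≤ 1) :
    0 ≤ ml 𝓕 x := by
  exact sum_nonneg fun A _ => mul_nonneg (lss_w_nonneg hx A) (ind_nonneg _)

theorem ml_le_one (𝓕 : Finset (Finset V)) {x : V → ℝ} (hx : ∀ v, 0 ≤ x v ∧ x v ≤ 1) :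
    ml 𝓕 x ≤ 1 := by
  rw [← lss_sum_w x]
  exact sum_le_sum fun A _ => mul_le_of_le_one_right (lss_w_nonneg hx A) (ind_le_one _)

/-- `ml` is affine in each coordinate, with nonnegative slope -/
theorem ml_update (𝓕 : Finset (Finset V)) (x : V → ℝ) (v : V) (t : ℝ) :
    ml 𝓕 (Function.update x v t) = ml 𝓕 (Function.update x v 0) +
      t * (ml 𝓕 (Function.update x v 1) - ml 𝓕 (Function.update x v 0)) := by
  have key : ∀ (A : V → Bool) (r : ℝ),
      (∏ u, if A u then Function.update x v r u else 1 - Function.update x v r u) =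
        (if A v then r else 1 - r) * ∏ u ∈ univ.erase v, if A u then x u else 1 - x u := by
    intro A r
    rw [← mul_prod_erase _ _ (mem_univ v), Function.update_self]
    congr 1
    refine prod_congr rfl fun u hu => ?_
    rw [Function.update_of_ne (ne_of_mem_erase hu)]
  unfold ml
  simp_rw [key]
  rw [← sum_sub_distrib, mul_sum, ← sum_add_distrib]
  refine sum_congr rfl fun A _ => ?_
  split_ifs <;> ring

theorem ml_mono (𝓕 : Finset (Finset V)) {x y : V → ℝ} (hx : ∀ v, 0 ≤ x v) (hxy : x ≤ y)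
    (hy : ∀ v, y v ≤ 1) : ml 𝓕 x ≤ ml 𝓕 y := by
  refine lss_mono hx hxy hy fun A B hAB => ind_mono ?_
  rintro ⟨P, hP, h⟩
  exact ⟨P, hP, fun v hv => Bool.le_iff_imp.1 (hAB v) (h v hv)⟩

theorem ml_congr {𝓕 : Finset (Finset V)} {Q : Finset V} (hQ : ∀ A ∈ 𝓕, A ⊆ Q) {x y : V → ℝ}
    (h : ∀ v ∈ Q, x v = y v) : ml 𝓕 x = ml 𝓕 y := by
  refine lss_congr h fun A B hAB => ind_congr ?_
  refine exists_congr fun P => and_congr_right fun hP => forall₂_congr fun v hv => ?_
  rw [hAB v (hQ P hP hv)]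

theorem ml_eq_zero {𝓕 : Finset (Finset V)} {x : V → ℝ} (h : ∀ A ∈ 𝓕, ∃ v ∈ A, x v = 0) :
    ml 𝓕 x = 0 := by
  refine sum_eq_zero fun A _ => ?_
  by_cases hA : ∃ P ∈ 𝓕, ∀ v ∈ P, A v = true
  · obtain ⟨P, hP, hA⟩ := hA
    obtain ⟨v, hv, h0⟩ := h P hP
    rw [prod_eq_zero (mem_univ v) (by simp [hA v hv, h0]), zero_mul]
  · rw [ind_of_not hA, mul_zero]

/-- probability of a half-edge coin -/
def lssR (β x : ℝ) : ℝ := √(1 - exp (-(2 * β * x)))

theorem lssR_nonneg (β x : ℝ) : 0 ≤ lssR β x := sqrt_nonneg _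

theorem lssR_lt_one (β x : ℝ) : lssR β x < 1 := by
  unfold lssR
  rw [sqrt_lt' one_pos]
  linarith [exp_pos (-(2 * β * x))]

theorem lssR_mono {β x y : ℝ} (hβ : 0 < β) (h : x ≤ y) : lssR β x ≤ lssR β y := by
  refine sqrt_le_sqrt ?_
  have : exp (-(2 * β * y)) ≤ exp (-(2 * β * x)) := exp_le_exp.2 (by nlinarith)
  linarith

theorem lssR_pos {β x : ℝ} (hβ : 0 < β) (h : 0 < x) : 0 < lssR β x := by
  refine sqrt_pos.2 ?_
  have : exp (-(2 * β * x)) < 1 := exp_lt_one_iff.2 (by nlinarith [mul_pos hβ h])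
  linarith

theorem lss_th (β x : ℝ) : th β x = 1 - (1 - lssR β (max x 0)) ^ 4 := rfl

theorem lss_th_nonneg (β x : ℝ) : 0 ≤ th β x := by
  rw [lss_th, sub_nonneg]
  exact pow_le_one₀ (sub_nonneg.2 (lssR_lt_one _ _).le) (sub_le_self _ (lssR_nonneg _ _))

theorem lss_th_lt_one (β x : ℝ) : th β x < 1 := by
  rw [lss_th]
  linarith [pow_pos (sub_pos.2 (lssR_lt_one β (max x 0))) 4]

theorem lss_edge {β j a b : ℝ} (hj : 0 ≤ j ∧ j ≤ β) (ha : |a| ≤ 1) (hb : |b| ≤ 1) :
    0 ≤ 1 - exp (-(j * |a * b|) - j * (a * b)) ∧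
      1 - exp (-(j * |a * b|) - j * (a * b)) ≤ lssR β |a| * lssR β |b| := by
  have h1 := mul_le_mul_of_nonneg_left (le_abs_self (a * b)) hj.1
  have h2 := mul_le_mul_of_nonneg_left (neg_abs_le (a * b)) hj.1
  have h0 : 0 ≤ 1 - exp (-(j * |a * b|) - j * (a * b)) :=
    sub_nonneg.2 (exp_le_one_iff.2 (by linarith))
  refine ⟨h0, ?_⟩
  have ha0 := abs_nonneg a
  have hb0 := abs_nonneg b
  have hβ : 0 ≤ β := hj.1.trans hj.2
  have h3 : j * |a * b| ≤ β * |a| := by
    rw [abs_mul]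
    exact mul_le_mul hj.2 (mul_le_of_le_one_right ha0 hb) (mul_nonneg ha0 hb0) hβ
  have h4 : j * |a * b| ≤ β * |b| := by
    rw [abs_mul]
    exact mul_le_mul hj.2 (mul_le_of_le_one_left hb0 ha) (mul_nonneg ha0 hb0) hβ
  have h5 : exp (-(2 * β * |a|)) ≤ exp (-(j * |a * b|) - j * (a * b)) :=
    exp_le_exp.2 (by linarith)
  have h6 : exp (-(2 * β * |b|)) ≤ exp (-(j * |a * b|) - j * (a * b)) :=
    exp_le_exp.2 (by linarith)
  rw [← mul_self_sqrt h0]
  exact mul_le_mul (sqrt_le_sqrt (by linarith)) (sqrt_le_sqrt (by linarith)) (sqrt_nonneg _)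
    (lssR_nonneg _ _)

theorem th_spec {β : ℝ} (hβ : 0 < β) : Continuous (th β) ∧ (∀ x, x ≤ 0 → th β x = 0) ∧
    (∀ x, 0 < x → 0 < th β x) ∧ (∀ x, x ≤ 1 → th β x ≤ th β 1) ∧ th β 1 < 1 := by
  refine ⟨?_, fun x hx => ?_, fun x hx => ?_, fun x hx => ?_, lss_th_lt_one _ _⟩
  · unfold th; fun_prop
  · simp [th, max_eq_right hx]
  · rw [lss_th, max_eq_left hx.le, sub_pos]
    exact pow_lt_one₀ (sub_nonneg.2 (lssR_lt_one _ _).le) (sub_lt_self _ (lssR_pos hβ hx))
      (by norm_num)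
  · rw [lss_th, lss_th]
    have := lssR_mono hβ (max_le_max_right 0 hx)
    have h := pow_le_pow_left₀ (sub_nonneg.2 (lssR_lt_one β (max 1 0)).le)
      (sub_le_sub_left this 1) 4
    linarith

/-- Given `s` the bonds are independent, edge `e` being open with probability
`≤ r |s_p| * r |s_q|`, `r x = √(1 - exp (-2 β x))`.  Dominate by the minimum of two independent
half-edge coins; a vertex all of whose (at most four) half-edge coins are off is not alive, and
these events are independent over vertices.  Restrict first to the members of `𝓕` on which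
`s ≥ 0`. -/
theorem lss {β : ℝ} (hβ : 0 < β) {J : E → ℝ} (hJ : ∀ e, 0 ≤ J e ∧ J e ≤ β) {Q : Finset V}
    (hd : ∀ v ∈ Q, G.deg v ≤ 4) {𝓕 : Finset (Finset V)} (hQ : ∀ A ∈ 𝓕, A ⊆ Q) (s : V → ℝ)
    (hs : ∀ v, |s v| ≤ 1) :
    ∑ ω, G.cw J s ω * ind (∃ A ∈ 𝓕, ∀ v ∈ A, 0 ≤ s v ∧ G.Alive ω v) ≤
      exp (∑ e, J e * (s (G.p e) * s (G.q e))) * ml 𝓕 fun v => th β (s v) := by
  classical
  let pe : E → ℝ := fun e =>
    1 - exp (-(J e * |s (G.p e) * s (G.q e)|) - J e * (s (G.p e) * s (G.q e)))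
  have hpe := fun e => lss_edge (hJ e) (hs (G.p e)) (hs (G.q e))
  have hcw : ∀ ω, G.cw J s ω = exp (∑ e, J e * (s (G.p e) * s (G.q e))) *
      ∏ e, if ω e then pe e else 1 - pe e := by
    intro ω
    rw [exp_sum, ← prod_mul_distrib]
    refine prod_congr rfl fun e _ => ?_
    have := exp_ne_zero (J e * (s (G.p e) * s (G.q e)))
    simp only [pe, exp_sub]
    split_ifs <;> field_simp
    ring
  simp_rw [hcw, mul_assoc]
  rw [← mul_sum]
  refine mul_le_mul_of_nonneg_left ?_ (exp_pos _).le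
  let f : (E → Bool) → ℝ := fun ω => ind (∃ A ∈ 𝓕, ∀ v ∈ A, 0 ≤ s v ∧ G.Alive ω v)
  let ed : E ⊕ E → E := Sum.elim id id
  let vx : E ⊕ E → V := Sum.elim G.p G.q
  let y : E ⊕ E → ℝ := fun k => lssR β |s (vx k)|
  have hy : ∀ k, 0 ≤ y k ∧ y k ≤ 1 := fun k => ⟨lssR_nonneg _ _, (lssR_lt_one _ _).le⟩
  have hf : Monotone f := by
    refine fun ω ω' h => ind_mono ?_
    rintro ⟨A, hA, h'⟩
    refine ⟨A, hA, fun v hv => ⟨(h' v hv).1, ?_⟩⟩
    obtain ⟨e, he, h''⟩ := (h' v hv).2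
    exact ⟨e, Bool.le_iff_imp.1 (h e) he, h''⟩
  let x : V → ℝ := fun v => if v ∈ Q ∧ 0 ≤ s v then 1 - (1 - lssR β |s v|) ^ G.deg v else 0
  have h1 : lssE pe f ≤ lssE (fun e => lssR β |s (G.p e)| * lssR β |s (G.q e)|) f :=
    lss_mono (fun e => (hpe e).1) (fun e => (hpe e).2) (fun e =>
      mul_le_one₀ (lssR_lt_one _ _).le (lssR_nonneg _ _) (lssR_lt_one _ _).le) hf
  have h2 := lss_block ed y (fun _ t => decide (∀ k, t k = true))
    (fun e => lssR β |s (G.p e)| * lssR β |s (G.q e)|) (fun e => by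
      rw [lss_all, ← Finset.prod_subtype (univ.filter fun k => ed k = e) (by simp) y,
        prod_filter, Fintype.prod_sum_type]
      rw [prod_eq_single e, prod_eq_single e] <;> simp +contextual [ed, y, vx]) f
  have h3 := lss_block vx y (fun v t => decide ((v ∈ Q ∧ 0 ≤ s v) ∧ ∃ k, t k = true)) x
    (fun v => by
      by_cases hv : v ∈ Q ∧ 0 ≤ s v
      · simp only [hv, true_and, x, and_self, if_true]
        rw [lss_any, ← Finset.prod_subtype (univ.filter fun k => vx k = v) (by simp)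
          (fun k => 1 - y k), prod_congr rfl (g := fun _ => 1 - lssR β |s v|) (fun k hk => by
            simp only [y, (mem_filter.1 hk).2]), prod_const, card_filter,
            Fintype.sum_sum_type, Gr.deg, card_filter, card_filter]
        rfl
      · simp [hv, x, lss_zero])
    (fun A => ind (∃ P ∈ 𝓕, ∀ v ∈ P, A v = true))
  have h4 : ml 𝓕 x ≤ ml 𝓕 fun v => th β (s v) := by
    refine ml_mono _ (fun v => ?_) (fun v => ?_) fun v => (lss_th_lt_one _ _).le
    · simp only [x]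
      split_ifs
      · exact sub_nonneg.2 (pow_le_one₀ (sub_nonneg.2 (lssR_lt_one _ _).le)
          (sub_le_self _ (lssR_nonneg _ _)))
      · exact le_rfl
    · simp only [x]
      split_ifs with hv
      · rw [lss_th, max_eq_left hv.2, abs_of_nonneg hv.2]
        exact sub_le_sub_left (pow_le_pow_of_le_one (sub_nonneg.2 (lssR_lt_one _ _).le)
          (sub_le_self _ (lssR_nonneg _ _)) (hd v hv.1)) 1
      · exact lss_th_nonneg _ _
  refine h1.trans (le_trans ?_ h4)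
  rw [← h2, lss_ml, ← h3]
  refine lss_mono_f hy fun c => ind_mono ?_
  rintro ⟨A, hA, h⟩
  refine ⟨A, hA, fun v hv => ?_⟩
  obtain ⟨h0, e, he, hev⟩ := h v hv
  rw [decide_eq_true_iff] at he ⊢
  refine ⟨⟨hQ A hA hv, h0⟩, ?_⟩
  rcases hev with hev | hev
  · exact ⟨⟨Sum.inl e, hev⟩, he ⟨Sum.inl e, rfl⟩⟩
  · exact ⟨⟨Sum.inr e, hev⟩, he ⟨Sum.inr e, rfl⟩⟩

end Crest.Agent.R167
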