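import Crest.Agent.R167.Twist
import Crest.Agent.R167.FK

/-! Row 167: comparison of the wired model with the rotation invariant model. -/

set_option autoImplicit false
set_option linter.unusedSectionVars false

open MeasureTheory Finset Real

noncomputable section
namespace Crest.Agent.R167

variable {V E : Type} [Fintype V] [DecidableEq V] [Fintype E] [DecidableEq E] (G : Gr V E)

theorem m2_N0 : sph.N.1 0 = 0 := by simp [sph]
theorem m2_N1 : sph.N.1 1 = 0 := by simp [sph]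
theorem m2_N2 : sph.N.1 2 = 1 := by simp [sph]

theorem m2_decomp (τ : Sph 3) : ∃ u α : ℝ, α ^ 2 ≤ π ^ 2 ∧ τ = r01 u (r12 α sph.N) ∧
    τ = r01 (u + π) (r12 (-α) sph.N) := by
  have hs := sph_sq τ
  have hz := abs_le.1 (sph.s1 τ)
  have hz1 : -1 ≤ τ.1 2 := hz.1
  have hz2 : τ.1 2 ≤ 1 := hz.2
  set w : ℂ := ⟨τ.1 1, -τ.1 0⟩ with hw
  have h1 : sin (arccos (τ.1 2)) = ‖w‖ := by
    rw [sin_arccos, Complex.norm_eq_sqrt_sq_add_sq]
    congr 1
    simp only [hw]
    linarith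
  have h2 : ‖w‖ * cos w.arg = τ.1 1 := Complex.norm_mul_cos_arg w
  have h3 : ‖w‖ * sin w.arg = -τ.1 0 := Complex.norm_mul_sin_arg w
  have h4 := cos_arccos hz1 hz2
  refine ⟨w.arg, arccos (τ.1 2), pow_le_pow_left₀ (arccos_nonneg _) (arccos_le_pi _) 2,
    sph_ext ?_ ?_ ?_, sph_ext ?_ ?_ ?_⟩
  · rw [r01_0, r12_0, r12_1, m2_N0, m2_N1, m2_N2, h1]
    linarith
  · rw [r01_1, r12_0, r12_1, m2_N0, m2_N1, m2_N2, h1]
    linarith
  · rw [r01_2, r12_2, m2_N1, m2_N2, h4]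
    ring
  · rw [r01_0, r12_0, r12_1, m2_N0, m2_N1, m2_N2, sin_neg, h1, sin_add_pi]
    linarith
  · rw [r01_1, r12_0, r12_1, m2_N0, m2_N1, m2_N2, sin_neg, h1, cos_add_pi]
    linarith
  · rw [r01_2, r12_2, m2_N1, m2_N2, cos_neg, h4]
    ring

theorem m2_hd_r01 (J : E → ℝ) (u : ℝ) (σ : V → Sph 3) :
    sph.hd G J (fun v => r01 u (σ v)) = sph.hd G J σ := by
  unfold Spin.hd
  congr 1
  refine sum_congr rfl fun e _ => ?_
  congr 1
  simp only [sph, r01_0, r01_1, r01_2]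
  linear_combination ((σ (G.p e)).1 0 * (σ (G.q e)).1 0 + (σ (G.p e)).1 1 * (σ (G.q e)).1 1) *
    sin_sq_add_cos_sq u

theorem m2_hd_r12 (J : E → ℝ) (u : ℝ) (σ : V → Sph 3) :
    sph.hd G J (fun v => r12 u (σ v)) = sph.hd G J σ := by
  unfold Spin.hd
  congr 1
  refine sum_congr rfl fun e _ => ?_
  congr 1
  simp only [sph, r12_0, r12_1, r12_2]
  linear_combination ((σ (G.p e)).1 1 * (σ (G.q e)).1 1 + (σ (G.p e)).1 2 * (σ (G.q e)).1 2) *
    sin_sq_add_cos_sq u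

theorem m2_inv (U : Finset V) {O : Sph 3 → Sph 3} (hO : MeasurePreserving O (usph 3) (usph 3))
    {F : (V → Sph 3) → ℝ} (hF : Continuous F) (h : ∀ σ, F (fun v => O (σ v)) = F σ) (τ : Sph 3) :
    ∫ σ, F (U.piecewise σ fun _ => O τ) ∂(Measure.pi fun _ => usph 3) =
      ∫ σ, F (U.piecewise σ fun _ => τ) ∂(Measure.pi fun _ => usph 3) := by
  rw [← int_site (fun _ => O) (fun _ => hO) (F := fun σ => F (U.piecewise σ fun _ => O τ))
    (hF.comp (continuous_pw' U _))]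
  congr 1
  funext σ
  rw [← h (U.piecewise σ fun _ => τ)]
  congr 1
  funext v
  by_cases hv : v ∈ U <;> simp [hv]

theorem m2_pw {U : Finset V} {v₀ : V} (hv : v₀ ∉ U) (σ τ : V → Sph 3) {v : V}
    (h : v ∈ U ∨ v = v₀) : U.piecewise σ τ v = U.piecewise σ (fun _ => τ v₀) v := by
  rcases h with h | rfl
  · simp [h]
  · simp [hv]

/-- `int_pw U`: the integrand only sees the outer spin `τ v₀`.  Every `τ₀` is `r01 u (r12 α N)` and
`r01 (u + π) (r12 (-α) N)` with `|α| ≤ π`; global rotations `r01` preserve `hd` and `s`; use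
`cw_factor` and `twist` with `α * g`; the partition functions agree by a global rotation. -/
theorem wp_le {β : ℝ} (hβ : 0 ≤ β) {J : E → ℝ} (hJ : ∀ e, 0 ≤ J e ∧ J e ≤ β) (U : Finset V)
    (v₀ : V) (hv : v₀ ∉ U) (hp : ∀ e, G.p e ∈ U ∨ G.p e = v₀) (hq : ∀ e, G.q e ∈ U ∨ G.q e = v₀)
    (g : V → ℝ) (hg : g v₀ = 1) (C : ℝ)
    (hC : ∑ e, (if G.Touch U e then (g (G.p e) - g (G.q e)) ^ 2 else 0) ≤ C)
    {A : (E → Bool) → Prop} (hA : Dep (fun e => g (G.p e) = 0 ∧ g (G.q e) = 0) A) :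
    exp (-(β * (π ^ 2 * C) / 2)) * sph.wp G J U A ≤ pr (sph.law G (G.JL U J)) A := by
  have hJ0 : ∀ e, 0 ≤ G.JL U J e := fun e => (G.JL_bd hJ U e).1
  obtain ⟨Ψ₀, hc₀, h0₀, hd₀, he₀⟩ := cw_factor G hJ0 hA
  set J' := G.JL U J with hJ'
  let Ψ : (V → Sph 3) → ℝ := fun σ => Ψ₀ fun v => sph.s (σ v)
  have hcΨ : Continuous Ψ := hc₀.comp sph.continuous_sv
  have hfk : sph.fk G J' A = fun σ => sph.hd G J' σ * Ψ σ := by
    funext σ
    rw [Spin.fk, he₀, Spin.hd_eq, mul_assoc]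
  have hcF : Continuous fun σ => sph.hd G J' σ * Ψ σ := (sph.continuous_hd G J').mul hcΨ
  have hd1 : ∀ σ τ : V → Sph 3,
      sph.hd G J' (U.piecewise σ τ) = sph.hd G J' (U.piecewise σ fun _ => τ v₀) := by
    intro σ τ
    unfold Spin.hd
    congr 1
    refine sum_congr rfl fun e _ => ?_
    rw [m2_pw hv σ τ (hp e), m2_pw hv σ τ (hq e)]
  have hΨ1 : ∀ σ τ : V → Sph 3, Ψ (U.piecewise σ τ) = Ψ (U.piecewise σ fun _ => τ v₀) := by
    intro σ τ
    refine hd₀ _ _ fun e _ => ?_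
    rw [m2_pw hv σ τ (hp e), m2_pw hv σ τ (hq e)]
    exact ⟨rfl, rfl⟩
  have hZ : sph.Z G J' =
      ∫ σ, sph.hd G J' (U.piecewise σ fun _ => sph.N) ∂(Measure.pi fun _ => usph 3) := by
    have h1 : ∀ τ : V → Sph 3,
        ∫ σ, sph.hd G J' (U.piecewise σ τ) ∂(Measure.pi fun _ => usph 3) =
        ∫ σ, sph.hd G J' (U.piecewise σ fun _ => sph.N) ∂(Measure.pi fun _ => usph 3) := by
      intro τ
      obtain ⟨u, α, -, h2, -⟩ := m2_decomp (τ v₀)
      simp only [hd1 _ τ]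
      rw [h2, m2_inv U (O := r01 u) (mp_actI _) (sph.continuous_hd G J') (m2_hd_r01 G J' u),
        m2_inv U (O := r12 α) (mp_actI _) (sph.continuous_hd G J') (m2_hd_r12 G J' α)]
    rw [Spin.Z, int_pw U (sph.continuous_hd G J')]
    simp only [h1]
    simp
  have hI : ∀ τ : V → Sph 3, exp (-(β * (π ^ 2 * C) / 2)) *
      ∫ σ, sph.hd G J' (U.piecewise σ fun _ => sph.N) * Ψ (U.piecewise σ fun _ => sph.N)
        ∂(Measure.pi fun _ => usph 3) ≤
      ∫ σ, sph.hd G J' (U.piecewise σ τ) * Ψ (U.piecewise σ τ) ∂(Measure.pi fun _ => usph 3) := by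
    intro τ
    obtain ⟨u, α, hα, h2, h3⟩ := m2_decomp (τ v₀)
    have hrot : ∀ (u : ℝ) (σ : V → Sph 3),
        sph.hd G J' (fun v => r01 u (σ v)) * Ψ (fun v => r01 u (σ v)) = sph.hd G J' σ * Ψ σ := by
      intro u σ
      rw [m2_hd_r01]
      exact congrArg (fun t => sph.hd G J' σ * Ψ₀ t) (funext fun v => r01_2 u (σ v))
    have e2 := m2_inv U (O := r01 u) (mp_actI _) hcF (hrot u) (r12 α sph.N)
    have e3 := m2_inv U (O := r01 (u + π)) (mp_actI _) hcF (hrot (u + π)) (r12 (-α) sph.N)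
    rw [← h2] at e2
    rw [← h3] at e3
    have ht := sph.twist G hJ0 U (fun _ => sph.N) (fun v => α * g v) Ψ hcΨ (fun σ => h0₀ _)
      fun σ σ' h => hd₀ _ _ fun e he => by
        rw [h (G.p e) (by rw [he.1, mul_zero]), h (G.q e) (by rw [he.2, mul_zero])]
        exact ⟨rfl, rfl⟩
    simp only [hd1 _ fun v => sph.R (α * g v) sph.N, hΨ1 _ fun v => sph.R (α * g v) sph.N,
      hd1 _ fun v => sph.R (-(α * g v)) sph.N, hΨ1 _ fun v => sph.R (-(α * g v)) sph.N, hg,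
      mul_one] at ht
    have hR : sph.R = r12 := rfl
    rw [hR, ← e2, ← e3] at ht
    simp only [hd1 _ τ, hΨ1 _ τ]
    have hsum : ∑ e, J' e * (α * g (G.p e) - α * g (G.q e)) ^ 2 ≤ β * (π ^ 2 * C) := by
      refine le_trans ?_ (mul_le_mul_of_nonneg_left
        (mul_le_mul_of_nonneg_left hC (sq_nonneg π)) hβ)
      rw [mul_sum, mul_sum]
      refine sum_le_sum fun e _ => ?_
      simp only [hJ', Gr.JL]
      split_ifs
      · rw [← mul_sub, mul_pow]
        exact mul_le_mul (hJ e).2 (mul_le_mul_of_nonneg_right hα (sq_nonneg _)) (by positivity) hβ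
      · simp
    have hexp : exp (-(β * (π ^ 2 * C) / 2)) ≤
        exp (-((∑ e, J' e * (α * g (G.p e) - α * g (G.q e)) ^ 2) / 2)) :=
      exp_le_exp.2 (by linarith)
    have hpos : 0 ≤ ∫ σ, sph.hd G J' (U.piecewise σ fun _ => sph.N) *
        Ψ (U.piecewise σ fun _ => sph.N) ∂(Measure.pi fun _ => usph 3) :=
      integral_nonneg fun σ => mul_nonneg (exp_pos _).le (h0₀ _)
    have := mul_le_mul_of_nonneg_right hexp hpos
    linarith
  rw [Spin.pr_law, Spin.wp, hZ, ← hJ', hfk, ← mul_div_assoc]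
  refine div_le_div_of_nonneg_right ?_ (sph.Zw_pos G J' U _).le
  rw [int_pw U hcF]
  have hint := (cint (μ := (Measure.pi fun _ : V => usph 3).prod (Measure.pi fun _ => usph 3))
    (hcF.comp (continuous_pw U))).integral_prod_right
  have := integral_mono (integrable_const _) hint hI
  simpa using this

end Crest.Agent.R167
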