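import Crest.Agent.R167.ReduceAux

/-! Row 167: reduction to three components. -/

set_option autoImplicit false
set_option linter.unusedSectionVars false

open MeasureTheory Finset Real

noncomputable section
namespace Crest.Agent.R167

variable {V E : Type} [Fintype V] [DecidableEq V] [Fintype E] [DecidableEq E] (G : Gr V E)

/-- the two point function of the `n`-component model on a general graph -/
def tp (n : ℕ) (J : E → ℝ) (x y : V) : ℝ :=
  (∫ σ : V → Sph n, inner ℝ (σ x).1 (σ y).1 * exp (∑ e, J e * inner ℝ (σ (G.p e)).1 (σ (G.q e)).1)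
    ∂Measure.pi fun _ => usph n) /
  ∫ σ : V → Sph n, exp (∑ e, J e * inner ℝ (σ (G.p e)).1 (σ (G.q e)).1) ∂Measure.pi fun _ => usph n

/-- Boltzmann factor of the `n`-component model -/
def redW (n : ℕ) (J : E → ℝ) (σ : V → Sph n) : ℝ :=
  exp (∑ e, J e * inner ℝ (σ (G.p e)).1 (σ (G.q e)).1)

theorem continuous_redW (n : ℕ) (J : E → ℝ) : Continuous (redW G n J) := by
  unfold redW; fun_prop

theorem red_sym {n : ℕ} [NeZero n] (J : E → ℝ) (x y : V) (i j : Fin n) :
    ∫ σ : V → Sph n, (σ x).1 i * (σ y).1 i * redW G n J σ ∂(Measure.pi fun _ => usph n) =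
      ∫ σ : V → Sph n, (σ x).1 j * (σ y).1 j * redW G n J σ ∂(Measure.pi fun _ => usph n) := by
  have hW := continuous_redW G n J
  have hF : Continuous fun σ : V → Sph n => (σ x).1 j * (σ y).1 j * redW G n J σ := by fun_prop
  let A : EuclideanSpace ℝ (Fin n) ≃ₗᵢ[ℝ] EuclideanSpace ℝ (Fin n) :=
    LinearIsometryEquiv.piLpCongrLeft 2 ℝ ℝ (Equiv.swap i j)
  have hA : ∀ v : EuclideanSpace ℝ (Fin n), A v j = v i := by
    intro v
    simp [A, LinearIsometryEquiv.piLpCongrLeft_apply, Equiv.piCongrLeft']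
  rw [← int_site (fun _ => actI A) (fun _ => mp_actI A) hF]
  refine integral_congr_ae (Filter.Eventually.of_forall fun σ => ?_)
  simp only [actI, redW, hA, A.inner_map_map]

theorem red_hd (J : E → ℝ) (θ : V → Sph 3) :
    sph.hd G J θ = exp (∑ e, J e * inner ℝ (θ (G.p e)).1 (θ (G.q e)).1) := by
  unfold Spin.hd
  congr 1
  refine sum_congr rfl fun e _ => ?_
  congr 1
  simp only [sph, PiLp.inner_apply, Fin.sum_univ_three, RCLike.inner_apply, conj_trivial]
  ring

theorem red_W_F {m : ℕ} (J : E → ℝ) (σ : V → Sph (3 + m)) (θ : V → Sph 3) :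
    redW G (3 + m) J (fun v => redF (σ v, θ v)) =
      exp (∑ e, J e * inner ℝ (redQ (σ (G.p e)).1) (redQ (σ (G.q e)).1)) *
        sph.hd G (fun e => J e * (‖redP (σ (G.p e)).1‖ * ‖redP (σ (G.q e)).1‖)) θ := by
  rw [red_hd, ← exp_add, ← sum_add_distrib]
  unfold redW
  congr 1
  refine sum_congr rfl fun e _ => ?_
  rw [red_inner]
  simp only [redF, redP_G, redQ_G, real_inner_smul_left, real_inner_smul_right]
  ring

theorem red_F_two {m : ℕ} (σ : Sph (3 + m)) (θ : Sph 3) :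
    (redF (σ, θ)).1 (Fin.castAdd m 2) = ‖redP σ.1‖ * sph.s θ := by
  simp [redF, redG, sph]

theorem red_comp {m : ℕ} {β : ℝ} {J : E → ℝ} (hJ : ∀ e, 0 ≤ J e ∧ J e ≤ β) (x y : V)
    {B : ℝ} (h : ∀ J' : E → ℝ, (∀ e, 0 ≤ J' e ∧ J' e ≤ β) →
      0 ≤ sph.Ex G J' (fun σ => sph.s (σ x) * sph.s (σ y)) ∧
      sph.Ex G J' (fun σ => sph.s (σ x) * sph.s (σ y)) ≤ B * sph.Z G J') :
    0 ≤ ∫ σ : V → Sph (3 + m), (σ x).1 (Fin.castAdd m 2) * (σ y).1 (Fin.castAdd m 2) *
        redW G (3 + m) J σ ∂(Measure.pi fun _ => usph (3 + m)) ∧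
    ∫ σ : V → Sph (3 + m), (σ x).1 (Fin.castAdd m 2) * (σ y).1 (Fin.castAdd m 2) *
        redW G (3 + m) J σ ∂(Measure.pi fun _ => usph (3 + m)) ≤
      B * ∫ σ : V → Sph (3 + m), redW G (3 + m) J σ ∂(Measure.pi fun _ => usph (3 + m)) := by
  have hW := continuous_redW G (3 + m) J
  have hF : Continuous fun σ : V → Sph (3 + m) =>
      (σ x).1 (Fin.castAdd m 2) * (σ y).1 (Fin.castAdd m 2) * redW G (3 + m) J σ := by fun_prop
  rw [int_site2 (usph 3) (usph (3 + m)) redF continuous_redF mp_redF hF,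
    int_site2 (usph 3) (usph (3 + m)) redF continuous_redF mp_redF hW]
  have key : ∀ σ : V → Sph (3 + m),
      0 ≤ ∫ θ : V → Sph 3, (redF (σ x, θ x)).1 (Fin.castAdd m 2) *
        (redF (σ y, θ y)).1 (Fin.castAdd m 2) * redW G (3 + m) J (fun v => redF (σ v, θ v))
          ∂(Measure.pi fun _ => usph 3) ∧
      ∫ θ : V → Sph 3, (redF (σ x, θ x)).1 (Fin.castAdd m 2) *
        (redF (σ y, θ y)).1 (Fin.castAdd m 2) * redW G (3 + m) J (fun v => redF (σ v, θ v))
          ∂(Measure.pi fun _ => usph 3) ≤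
      B * ∫ θ : V → Sph 3, redW G (3 + m) J (fun v => redF (σ v, θ v))
          ∂(Measure.pi fun _ => usph 3) := by
    intro σ
    set J' : E → ℝ := fun e => J e * (‖redP (σ (G.p e)).1‖ * ‖redP (σ (G.q e)).1‖) with hJ'
    set c : ℝ := exp (∑ e, J e * inner ℝ (redQ (σ (G.p e)).1) (redQ (σ (G.q e)).1)) with hc
    have hc0 : 0 < c := exp_pos _
    have hn : ∀ u v, 0 ≤ ‖redP (σ u).1‖ * ‖redP (σ v).1‖ ∧ ‖redP (σ u).1‖ * ‖redP (σ v).1‖ ≤ 1 :=
      fun u v => ⟨by positivity, mul_le_one₀ (red_norm_P_le _) (norm_nonneg _) (red_norm_P_le _)⟩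
    obtain ⟨h1, h2⟩ := h J' fun e => ⟨mul_nonneg (hJ e).1 (hn _ _).1,
      (mul_le_of_le_one_right (hJ e).1 (hn _ _).2).trans (hJ e).2⟩
    have e1 : ∫ θ : V → Sph 3, (redF (σ x, θ x)).1 (Fin.castAdd m 2) *
        (redF (σ y, θ y)).1 (Fin.castAdd m 2) * redW G (3 + m) J (fun v => redF (σ v, θ v))
          ∂(Measure.pi fun _ => usph 3) = c * (‖redP (σ x).1‖ * ‖redP (σ y).1‖) *
            sph.Ex G J' (fun σ => sph.s (σ x) * sph.s (σ y)) := by
      unfold Spin.Ex
      rw [← integral_const_mul]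
      refine integral_congr_ae (Filter.Eventually.of_forall fun θ => ?_)
      simp only [red_W_F, red_F_two]
      ring
    have e2 : ∫ θ : V → Sph 3, redW G (3 + m) J (fun v => redF (σ v, θ v))
          ∂(Measure.pi fun _ => usph 3) = c * sph.Z G J' := by
      unfold Spin.Z
      rw [← integral_const_mul]
      refine integral_congr_ae (Filter.Eventually.of_forall fun θ => ?_)
      simp only [red_W_F]
      rfl
    rw [e1, e2]
    obtain ⟨h3, h4⟩ := hn x y
    refine ⟨by positivity, ?_⟩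
    calc c * (‖redP (σ x).1‖ * ‖redP (σ y).1‖) * sph.Ex G J' (fun σ => sph.s (σ x) * sph.s (σ y))
        ≤ c * 1 * (B * sph.Z G J') := by gcongr
      _ = _ := by ring
  refine ⟨integral_nonneg fun σ => (key σ).1, ?_⟩
  rw [← integral_const_mul]
  refine integral_mono_of_nonneg (Filter.Eventually.of_forall fun σ => (key σ).1) ?_
    (Filter.Eventually.of_forall fun σ => (key σ).2)
  have hc : Continuous fun z : (V → Sph (3 + m)) × (V → Sph 3) =>
      redW G (3 + m) J (fun v => redF (z.1 v, z.2 v)) :=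
    hW.comp (continuous_pi fun v => continuous_redF.comp (by fun_prop))
  exact ((cint hc).integral_prod_left).const_mul B

/-- `(σ, τ) ↦ ‖P σ‖ j τ + (σ - j P σ)` (`P` = first three coordinates, `j : ℝ³ → ℝⁿ`) maps
`usph n ⊗ usph 3` to `usph n` (compare characteristic functions on `ℝⁿ`, which depend only on the
norm by `mp_actI` and `Submodule.reflection_sub`); `int_site2`; coordinate swaps show that all
components contribute equally. -/
theorem reduce {n : ℕ} (hn : 3 ≤ n) {β : ℝ} {J : E → ℝ} (hJ : ∀ e, 0 ≤ J e ∧ J e ≤ β) (x y : V)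
    (B : ℝ) (h : ∀ J' : E → ℝ, (∀ e, 0 ≤ J' e ∧ J' e ≤ β) →
      0 ≤ sph.Ex G J' (fun σ => sph.s (σ x) * sph.s (σ y)) ∧
      sph.Ex G J' (fun σ => sph.s (σ x) * sph.s (σ y)) ≤ B * sph.Z G J') :
    0 ≤ tp G n J x y ∧ tp G n J x y ≤ n * B := by
  obtain ⟨m, rfl⟩ := Nat.exists_eq_add_of_le hn
  have hB : 0 ≤ B := by
    obtain ⟨h1, h2⟩ := h J hJ
    exact nonneg_of_mul_nonneg_left (h1.trans h2) (sph.Z_pos G J)
  obtain ⟨h1, h2⟩ := red_comp G (m := m) hJ x y h
  have hW := continuous_redW G (3 + m) J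
  have hZ : 0 ≤ ∫ σ : V → Sph (3 + m), redW G (3 + m) J σ ∂(Measure.pi fun _ => usph (3 + m)) :=
    integral_nonneg fun σ => (exp_pos _).le
  have hN : ∫ σ : V → Sph (3 + m), inner ℝ (σ x).1 (σ y).1 * redW G (3 + m) J σ
      ∂(Measure.pi fun _ => usph (3 + m)) = ((3 + m : ℕ) : ℝ) *
        ∫ σ : V → Sph (3 + m), (σ x).1 (Fin.castAdd m 2) * (σ y).1 (Fin.castAdd m 2) *
          redW G (3 + m) J σ ∂(Measure.pi fun _ => usph (3 + m)) := by
    have e1 : ∀ σ : V → Sph (3 + m), inner ℝ (σ x).1 (σ y).1 * redW G (3 + m) J σ =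
        ∑ i, (σ x).1 i * (σ y).1 i * redW G (3 + m) J σ := by
      intro σ
      rw [PiLp.inner_apply, sum_mul]
      refine sum_congr rfl fun i _ => ?_
      simp only [RCLike.inner_apply, conj_trivial]
      ring
    simp only [e1]
    rw [integral_finsetSum _ fun i _ => cint (by fun_prop)]
    simp only [fun i => red_sym G J x y i (Fin.castAdd m 2)]
    rw [sum_const, card_univ, Fintype.card_fin, nsmul_eq_mul]
  have e : tp G (3 + m) J x y = (∫ σ : V → Sph (3 + m), inner ℝ (σ x).1 (σ y).1 *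
      redW G (3 + m) J σ ∂(Measure.pi fun _ => usph (3 + m))) /
        ∫ σ : V → Sph (3 + m), redW G (3 + m) J σ ∂(Measure.pi fun _ => usph (3 + m)) := rfl
  rw [e, hN]
  refine ⟨by positivity, div_le_of_le_mul₀ hZ (by positivity) ?_⟩
  rw [mul_assoc]
  gcongr

end Crest.Agent.R167
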