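import Crest.Agent.R167.Finite
import Crest.Agent.R167.Coarse
import Crest.Agent.R167.Reduce

/-! Row 167: exponential decay on pieces of the square lattice. -/

set_option autoImplicit false
set_option linter.unusedSectionVars false

open MeasureTheory Finset Real

noncomputable section
namespace Crest.Agent.R167

theorem conn_decay {β : ℝ} (hβ : 0 < β) : ∃ A m : ℝ, 0 < m ∧
    ∀ (V E : Type) [Fintype V] [DecidableEq V] [Fintype E] [DecidableEq E] (G : Gr V E)
      (pos : V → ℤ × ℤ) (J : E → ℝ), (∀ e, 0 ≤ J e ∧ J e ≤ β) → G.GLat pos →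
      ∀ x y, pr (sph.law G J) (fun ω => G.Conn ω x y) ≤ A * exp (-m * nrm (pos x - pos y)) := by
  obtain ⟨L, hL, H⟩ := finite_size hβ (show (0 : ℝ) < (1 / 8) ^ 49 by positivity)
  obtain ⟨A, m, hm, K⟩ := coarse L hL
  refine ⟨A, m, hm, fun V E _ _ _ _ G pos J hJ hG => ?_⟩
  have J0 : ∀ e, 0 ≤ J e := fun e => (hJ e).1
  refine K V E G pos _ hG (sph.law_nonneg G J0) (sph.law_sum G J) fun C hC hv => ?_
  refine sph.law_prod G J0 (yok_YX G J0) (sph_dec G J) C
    (fun c => univ.filter fun v => nrm (pos v - c) ≤ 3 * L) _ _ ?_ ?_ ?_ fun c hc => ?_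
  · rintro c - ω ω' h ⟨x, y, a, b, d⟩
    exact ⟨x, y, a, b, d.mono subset_rfl h⟩
  · rintro c - ω ω' h ⟨x, y, a, b, d⟩
    refine ⟨x, y, a, b, Relation.ReflTransGen.mono ?_ _ _ d⟩
    rintro u v ⟨hu, hv, e, he, hh⟩
    refine ⟨hu, hv, e, (h e ?_).symm.trans he, hh⟩
    rcases hh with ⟨rfl, rfl⟩ | ⟨rfl, rfl⟩
    exacts [Or.inl hu.1, Or.inl hv.1]
  · intro c hc c' hc' hne e h h'
    have h1 := hC c hc c' hc' hne
    have h2 := hG.adj e
    simp only [Gr.Touch, mem_filter, mem_univ, true_and, nrm, Prod.fst_sub, Prod.snd_sub] at h h' h1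
    omega
  · obtain ⟨v, hv⟩ := hv c hc
    exact H V E G _ _ J hJ ⟨fun u v e => hG.inj (sub_left_injective e),
      fun e => by simpa using hG.adj e, hG.deg⟩ (fun v => by simp) ⟨v, by simpa using hv⟩

theorem tp_decay {n : ℕ} (hn : 3 ≤ n) {β : ℝ} (hβ : 0 < β) : ∃ A m : ℝ, 0 < m ∧
    ∀ (V E : Type) [Fintype V] [DecidableEq V] [Fintype E] [DecidableEq E] (G : Gr V E)
      (pos : V → ℤ × ℤ) (J : E → ℝ), (∀ e, 0 ≤ J e ∧ J e ≤ β) → G.GLat pos →
      ∀ x y, 0 ≤ tp G n J x y ∧ tp G n J x y ≤ A * exp (-m * nrm (pos x - pos y)) := by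
  obtain ⟨A, m, hm, H⟩ := conn_decay hβ
  refine ⟨n * A, m, hm, fun V E _ _ _ _ G pos J hJ hG x y => ?_⟩
  rw [mul_assoc]
  refine reduce G hn hJ x y _ fun J' hJ' => ?_
  have J0 : ∀ e, 0 ≤ J' e := fun e => (hJ' e).1
  refine ⟨sph.two_point_nonneg G J0 x y, ?_⟩
  have := sph.two_point_le G J0 x {y} (fun _ v => if v = y then 1 else 0) continuous_const
    (fun _ v => by split_ifs <;> norm_num) (fun _ => by simp) (fun _ v h => by simpa using h)
    fun _ _ => rfl
  simp only [ite_mul, one_mul, zero_mul, sum_ite_eq', mem_univ, if_true, mem_singleton,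
    exists_eq_left] at this
  exact this.trans (mul_le_mul_of_nonneg_right (H V E G pos J' hJ' hG x y) (sph.Z_pos G J').le)

end Crest.Agent.R167
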