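import Crest.Agent.R167.Basic

/-! Row 167: resampling the direction of the first three components of a uniform spin. -/

set_option autoImplicit false
set_option linter.unusedSectionVars false

open MeasureTheory Finset Real

noncomputable section
namespace Crest.Agent.R167

variable {m : ℕ}

/-- first three coordinates -/
def redP (x : EuclideanSpace ℝ (Fin (3 + m))) : EuclideanSpace ℝ (Fin 3) :=
  WithLp.toLp 2 fun i => x (Fin.castAdd m i)

/-- remaining coordinates -/
def redQ (x : EuclideanSpace ℝ (Fin (3 + m))) : EuclideanSpace ℝ (Fin m) :=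
  WithLp.toLp 2 fun i => x (Fin.natAdd 3 i)

/-- gluing -/
def redG (a : EuclideanSpace ℝ (Fin 3)) (b : EuclideanSpace ℝ (Fin m)) :
    EuclideanSpace ℝ (Fin (3 + m)) := WithLp.toLp 2 (Fin.append a.ofLp b.ofLp)

@[fun_prop] theorem continuous_redP : Continuous (redP (m := m)) := by unfold redP; fun_prop
@[fun_prop] theorem continuous_redQ : Continuous (redQ (m := m)) := by unfold redQ; fun_prop

theorem continuous_redG {X : Type} [TopologicalSpace X] {a : X → EuclideanSpace ℝ (Fin 3)}
    {b : X → EuclideanSpace ℝ (Fin m)} (ha : Continuous a) (hb : Continuous b) :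
    Continuous fun x => redG (a x) (b x) := by
  unfold redG
  refine (PiLp.continuous_toLp 2 _).comp (continuous_pi fun i => ?_)
  refine Fin.addCases (fun j => ?_) (fun j => ?_) i
  · simp only [Fin.append_left]; fun_prop
  · simp only [Fin.append_right]; fun_prop

theorem redP_G (a : EuclideanSpace ℝ (Fin 3)) (b : EuclideanSpace ℝ (Fin m)) :
    redP (redG a b) = a := by
  ext i; simp [redP, redG]

theorem redQ_G (a : EuclideanSpace ℝ (Fin 3)) (b : EuclideanSpace ℝ (Fin m)) :
    redQ (redG a b) = b := by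
  ext i; simp [redQ, redG]

theorem red_inner (x y : EuclideanSpace ℝ (Fin (3 + m))) :
    inner ℝ x y = inner ℝ (redP x) (redP y) + inner ℝ (redQ x) (redQ y) := by
  simp only [PiLp.inner_apply, Fin.sum_univ_add, redP, redQ]

theorem red_norm_sq (x : EuclideanSpace ℝ (Fin (3 + m))) :
    ‖x‖ ^ 2 = ‖redP x‖ ^ 2 + ‖redQ x‖ ^ 2 := by
  simp only [← real_inner_self_eq_norm_sq]; exact red_inner x x

theorem red_norm_G (x : EuclideanSpace ℝ (Fin (3 + m))) (τ : Sph 3) :
    ‖redG (‖redP x‖ • τ.1) (redQ x)‖ = ‖x‖ := by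
  have h := red_norm_sq (redG (‖redP x‖ • τ.1) (redQ x))
  rw [redP_G, redQ_G, norm_smul, mem_sphere_zero_iff_norm.1 τ.2, mul_one, norm_norm,
    ← red_norm_sq] at h
  exact (pow_left_inj₀ (norm_nonneg _) (norm_nonneg _) two_ne_zero).1 h

theorem red_norm_P_le (σ : Sph (3 + m)) : ‖redP σ.1‖ ≤ 1 := by
  have h := red_norm_sq σ.1
  rw [mem_sphere_zero_iff_norm.1 σ.2] at h
  have := norm_nonneg (redP σ.1)
  nlinarith [sq_nonneg ‖redQ σ.1‖]

/-- resampling of the direction of the first three components -/
def redF (x : Sph (3 + m) × Sph 3) : Sph (3 + m) :=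
  ⟨redG (‖redP x.1.1‖ • x.2.1) (redQ x.1.1), by
    rw [mem_sphere_zero_iff_norm, red_norm_G, mem_sphere_zero_iff_norm.1 x.1.2]⟩

theorem continuous_redF : Continuous (redF (m := m)) := by
  unfold redF
  refine Continuous.subtype_mk (continuous_redG ?_ ?_) _ <;> fun_prop

/-- characteristic function of the uniform law on the sphere -/
def redPhi (n : ℕ) (t : EuclideanSpace ℝ (Fin n)) : ℂ :=
  ∫ σ : Sph n, Complex.exp ((inner ℝ σ.1 t : ℝ) * Complex.I) ∂usph n

theorem redPhi_congr {n : ℕ} {t u : EuclideanSpace ℝ (Fin n)} (h : ‖t‖ = ‖u‖) :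
    redPhi n t = redPhi n u := by
  set A := Submodule.reflection (ℝ ∙ (t - u))ᗮ with hA
  have hAt : A t = u := Submodule.reflection_sub h
  have h1 := mp_actI A
  have hc : Continuous fun σ : Sph n => Complex.exp ((inner ℝ σ.1 u : ℝ) * Complex.I) := by
    fun_prop
  unfold redPhi
  rw [← h1.map_eq, integral_map h1.measurable.aemeasurable hc.aestronglyMeasurable, h1.map_eq]
  refine integral_congr_ae (Filter.Eventually.of_forall fun σ => ?_)
  simp only [actI]
  rw [← hAt, A.inner_map_map]

theorem red_cint {X : Type} [TopologicalSpace X] [CompactSpace X] [MeasurableSpace X]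
    [OpensMeasurableSpace X] {μ : Measure X} [IsFiniteMeasure μ] {f : X → ℂ} (hf : Continuous f) :
    Integrable f μ := hf.integrable_of_hasCompactSupport (HasCompactSupport.of_compactSpace f)

theorem red_char (t : EuclideanSpace ℝ (Fin (3 + m))) :
    ∫ x : Sph (3 + m) × Sph 3, Complex.exp ((inner ℝ (redF x).1 t : ℝ) * Complex.I)
      ∂(usph (3 + m)).prod (usph 3) = redPhi (3 + m) t := by
  have hF := continuous_redF (m := m)
  have hc1 : Continuous fun x : Sph (3 + m) × Sph 3 =>
      Complex.exp ((inner ℝ (redF x).1 t : ℝ) * Complex.I) :=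
    (show Continuous fun σ : Sph (3 + m) => Complex.exp ((inner ℝ σ.1 t : ℝ) * Complex.I) by
      fun_prop).comp hF
  have hG : Continuous fun τ : Sph 3 => redG (‖redP t‖ • τ.1) (redQ t) :=
    continuous_redG (by fun_prop) continuous_const
  have hc2 : Continuous fun x : Sph (3 + m) × Sph 3 =>
      Complex.exp ((inner ℝ x.1.1 (redG (‖redP t‖ • x.2.1) (redQ t)) : ℝ) * Complex.I) := by
    have := hG.comp (continuous_snd (X := Sph (3 + m)))
    have h2 : Continuous fun x : Sph (3 + m) × Sph 3 =>
      (inner ℝ x.1.1 (redG (‖redP t‖ • x.2.1) (redQ t)) : ℝ) := Continuous.inner (by fun_prop) this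
    fun_prop
  have h1 : redPhi (3 + m) t = ∫ τ : Sph 3, redPhi (3 + m) (redG (‖redP t‖ • τ.1) (redQ t))
      ∂usph 3 := by
    simp only [fun τ : Sph 3 => redPhi_congr (red_norm_G t τ)]
    simp
  rw [h1, integral_prod _ (red_cint hc1)]
  unfold redPhi
  rw [← integral_integral_swap (f := fun (σ : Sph (3 + m)) (τ : Sph 3) =>
    Complex.exp ((inner ℝ σ.1 (redG (‖redP t‖ • τ.1) (redQ t)) : ℝ) * Complex.I)) (red_cint hc2)]
  refine integral_congr_ae (Filter.Eventually.of_forall fun σ => ?_)
  have e1 : ∀ τ : Sph 3, Complex.exp ((inner ℝ (redF (σ, τ)).1 t : ℝ) * Complex.I) =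
      Complex.exp ((inner ℝ (redQ σ.1) (redQ t) : ℝ) * Complex.I) *
        Complex.exp ((inner ℝ τ.1 (‖redP σ.1‖ • redP t) : ℝ) * Complex.I) := by
    intro τ
    rw [← Complex.exp_add, red_inner]
    simp only [redF, redP_G, redQ_G, real_inner_smul_left, real_inner_smul_right]
    congr 1
    push_cast
    ring
  have e2 : ∀ τ : Sph 3,
      Complex.exp ((inner ℝ σ.1 (redG (‖redP t‖ • τ.1) (redQ t)) : ℝ) * Complex.I) =
      Complex.exp ((inner ℝ (redQ σ.1) (redQ t) : ℝ) * Complex.I) *
        Complex.exp ((inner ℝ τ.1 (‖redP t‖ • redP σ.1) : ℝ) * Complex.I) := by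
    intro τ
    rw [← Complex.exp_add, red_inner]
    simp only [redP_G, redQ_G, real_inner_smul_right, real_inner_comm τ.1]
    congr 1
    push_cast
    ring
  simp only [e1, e2, integral_const_mul]
  congr 1
  exact redPhi_congr (by rw [norm_smul, norm_smul, norm_norm, norm_norm, mul_comm])

theorem mp_redF : MeasurePreserving (redF (m := m)) ((usph (3 + m)).prod (usph 3))
    (usph (3 + m)) := by
  have hF := continuous_redF (m := m)
  refine ⟨hF.measurable, ?_⟩
  have hemb : MeasurableEmbedding (Subtype.val : Sph (3 + m) → EuclideanSpace ℝ (Fin (3 + m))) :=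
    MeasurableEmbedding.subtype_coe Metric.isClosed_sphere.measurableSet
  refine hemb.map_injective (Measure.ext_of_charFun (funext fun t => ?_))
  have hc : Continuous fun σ : Sph (3 + m) =>
      Complex.exp ((inner ℝ σ.1 t : ℝ) * Complex.I) := by fun_prop
  rw [charFun_apply, charFun_apply, hemb.integral_map, hemb.integral_map,
    integral_map hF.measurable.aemeasurable hc.aestronglyMeasurable]
  exact red_char t

end Crest.Agent.R167
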