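import Crest.Agent.R167.Bridge

/-! Row 167: Mermin-Wagner twists, annulus crossings, two point functions. -/

set_option autoImplicit false
set_option linter.unusedSectionVars false

open MeasureTheory Finset Real

noncomputable section
namespace Crest.Agent.R167

variable {S : Type} [TopologicalSpace S] [CompactSpace S] [T2Space S] [SecondCountableTopology S]
  [MeasurableSpace S] [BorelSpace S] {ν : Measure S} [IsProbabilityMeasure ν] (P : Spin S ν)
variable {V E : Type} [Fintype V] [DecidableEq V] [Fintype E] [DecidableEq E] (G : Gr V E)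

theorem twist_exp (a b c : ℝ) (h : 2 * c ≤ a + b) : 2 * exp c ≤ exp a + exp b := by
  have h1 : exp c ≤ exp (a / 2) * exp (b / 2) := by
    rw [← exp_add]; exact exp_le_exp.2 (by linarith)
  have h2 : exp a = exp (a / 2) ^ 2 := by rw [sq, ← exp_add]; ring_nf
  have h3 : exp b = exp (b / 2) ^ 2 := by rw [sq, ← exp_add]; ring_nf
  nlinarith [sq_nonneg (exp (a / 2) - exp (b / 2))]

theorem twist_pt {J : E → ℝ} (hJ : ∀ e, 0 ≤ J e) (g : V → ℝ) (σ : V → S) :
    2 * exp (-((∑ e, J e * (g (G.p e) - g (G.q e)) ^ 2) / 2)) * P.hd G J σ ≤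
      P.hd G J (fun v => P.R (g v) (σ v)) + P.hd G J (fun v => P.R (-g v) (σ v)) := by
  unfold Spin.hd
  rw [mul_assoc, ← exp_add]
  apply twist_exp
  rw [← sum_add_distrib]
  have : ∑ e, (2 * (J e * (P.s (σ (G.p e)) * P.s (σ (G.q e)) + P.k (σ (G.p e)) (σ (G.q e)))) -
      J e * (g (G.p e) - g (G.q e)) ^ 2) ≤ _ := sum_le_sum fun e (_ : e ∈ univ) =>
    show _ ≤ J e * (P.s (P.R (g (G.p e)) (σ (G.p e))) * P.s (P.R (g (G.q e)) (σ (G.q e))) +
        P.k (P.R (g (G.p e)) (σ (G.p e))) (P.R (g (G.q e)) (σ (G.q e)))) +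
      J e * (P.s (P.R (-g (G.p e)) (σ (G.p e))) * P.s (P.R (-g (G.q e)) (σ (G.q e))) +
        P.k (P.R (-g (G.p e)) (σ (G.p e))) (P.R (-g (G.q e)) (σ (G.q e)))) by
      have := mul_le_mul_of_nonneg_left (P.tw (g (G.p e)) (g (G.q e)) (σ (G.p e)) (σ (G.q e)))
        (hJ e)
      linarith
  rw [sum_sub_distrib, ← mul_sum] at this
  linarith

/-- change variables by `P.R (± g v)` at each site (`int_site`), then convexity of `exp` and
`P.tw` -/
theorem Spin.twist {J : E → ℝ} (hJ : ∀ e, 0 ≤ J e) (Λ : Finset V) (out : V → S) (g : V → ℝ)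
    (Ψ : (V → S) → ℝ) (hc : Continuous Ψ) (h0 : ∀ σ, 0 ≤ Ψ σ)
    (hΨ : ∀ σ σ', (∀ v, g v = 0 → σ v = σ' v) → Ψ σ = Ψ σ') :
    2 * exp (-((∑ e, J e * (g (G.p e) - g (G.q e)) ^ 2) / 2)) *
      ∫ σ, P.hd G J (Λ.piecewise σ out) * Ψ (Λ.piecewise σ out) ∂(Measure.pi fun _ => ν) ≤
    (∫ σ, P.hd G J (Λ.piecewise σ fun v => P.R (g v) (out v)) *
      Ψ (Λ.piecewise σ fun v => P.R (g v) (out v)) ∂Measure.pi fun _ => ν) +
    ∫ σ, P.hd G J (Λ.piecewise σ fun v => P.R (-g v) (out v)) *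
      Ψ (Λ.piecewise σ fun v => P.R (-g v) (out v)) ∂Measure.pi fun _ => ν := by
  have cF : ∀ o : V → S, Continuous fun σ : V → S =>
      P.hd G J (Λ.piecewise σ o) * Ψ (Λ.piecewise σ o) := fun o =>
    ((P.continuous_hd G J).comp (continuous_pw' Λ o)).mul (hc.comp (continuous_pw' Λ o))
  have key : ∀ h : V → ℝ, (∀ v, g v = 0 → h v = 0) →
      ∫ σ, P.hd G J (Λ.piecewise σ fun v => P.R (h v) (out v)) *
        Ψ (Λ.piecewise σ fun v => P.R (h v) (out v)) ∂(Measure.pi fun _ => ν) =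
      ∫ σ, P.hd G J (fun v => P.R (h v) (Λ.piecewise σ out v)) * Ψ (Λ.piecewise σ out)
        ∂(Measure.pi fun _ => ν) := by
    intro h hh
    rw [← int_site (fun v => P.R (h v)) (fun v => P.mR _) (cF _)]
    congr 1
    funext σ
    have e : (Λ.piecewise (fun v => P.R (h v) (σ v)) fun v => P.R (h v) (out v)) =
        fun v => P.R (h v) (Λ.piecewise σ out v) := by
      funext v
      by_cases hv : v ∈ Λ <;> simp [Finset.piecewise, hv]
    rw [e]
    congr 1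
    apply hΨ
    intro v hv
    rw [hh v hv, P.R0]
  have cG : ∀ h : V → ℝ, Continuous fun σ : V → S =>
      P.hd G J (fun v => P.R (h v) (Λ.piecewise σ out v)) * Ψ (Λ.piecewise σ out) := fun h =>
    ((P.continuous_hd G J).comp (continuous_pi fun v => (P.cR _).comp
      ((continuous_apply v).comp (continuous_pw' Λ out)))).mul (hc.comp (continuous_pw' Λ out))
  rw [key g fun v h => h, key (fun v => -g v) fun v h => by simp [h],
    ← integral_add (cint (cG _)) (cint (cG _)), ← integral_const_mul]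
  refine integral_mono ((cint (cF out)).const_mul _) ((cint (cG _)).add (cint (cG _))) fun σ => ?_
  have := twist_pt P G hJ g (Λ.piecewise σ out)
  have h1 := mul_le_mul_of_nonneg_right this (h0 (Λ.piecewise σ out))
  simp only
  linarith

theorem twist_count (In Λ : Finset V) (h1 : ∀ v ∈ In, v ∉ Λ) (b : V → ℝ)
    (hb1 : ∀ v ∈ In, b v = -1) (hb2 : ∀ v, v ∉ In → v ∉ Λ → b v = 1) (ω : E → Bool) :
    ∑ ξ : V → Bool, ind (∀ v, v ∉ Λ → sg (ξ v) = b v) * ind (G.Cst ω ξ) ≤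
      (∑ ξ : V → Bool, ind (∀ v, v ∉ Λ → sg (ξ v) = 1) * ind (G.Cst ω ξ)) *
        ind (¬ G.Cross In Λ ω) := by
  by_cases h : ∃ ξ₀ : V → Bool, (∀ v, v ∉ Λ → sg (ξ₀ v) = b v) ∧ G.Cst ω ξ₀
  · obtain ⟨ξ₀, hb, hc⟩ := h
    have hn : ¬ G.Cross In Λ ω := by
      refine fun hx => hx ⟨ξ₀, fun e _ he => hc e he, fun v hv => ?_, fun v hv hv' => ?_⟩
      · have := hb v (h1 v hv)
        rw [hb1 v hv] at this
        cases hh : ξ₀ v
        · rfl
        · rw [hh] at this; norm_num at this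
      · have := hb v hv'
        rw [hb2 v hv hv'] at this
        cases hh : ξ₀ v
        · rw [hh] at this; norm_num at this
        · rfl
    rw [ind_of hn, mul_one]
    have inv : Function.Involutive fun (ξ : V → Bool) v => ξ v == ξ₀ v := by
      intro ξ; funext v; simp only; cases ξ v <;> cases ξ₀ v <;> rfl
    rw [← inv.bijective.sum_comp fun ξ : V → Bool =>
      ind (∀ v, v ∉ Λ → sg (ξ v) = 1) * ind (G.Cst ω ξ)]
    refine sum_le_sum fun ξ _ => ?_
    rw [← ind_and, ← ind_and]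
    refine ind_mono fun ⟨a, c⟩ => ⟨fun v hv => ?_, fun e he => ?_⟩
    · rw [sg_beq, a v hv, ← hb v hv, sg_mul_self]
    · simp only [c e he, hc e he]
  · have : ∑ ξ : V → Bool, ind (∀ v, v ∉ Λ → sg (ξ v) = b v) * ind (G.Cst ω ξ) = 0 :=
      sum_eq_zero fun ξ _ => by rw [← ind_and]; exact ind_of_not fun hh => h ⟨ξ, hh⟩
    rw [this]
    exact mul_nonneg (sum_nonneg fun ξ _ => mul_nonneg (ind_nonneg _) (ind_nonneg _))
      (ind_nonneg _)

theorem twist_hk (J : E → ℝ) (Λ : Finset V) (o o' : V → S) (ho : ∀ v, v ∉ Λ → |P.s (o v)| = 1)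
    (ho' : ∀ v, v ∉ Λ → |P.s (o' v)| = 1) (σ : V → S) :
    P.hk G J (Λ.piecewise σ o) = P.hk G J (Λ.piecewise σ o') := by
  unfold Spin.hk
  congr 1
  refine sum_congr rfl fun e _ => ?_
  congr 1
  by_cases hp : G.p e ∈ Λ
  · by_cases hq : G.q e ∈ Λ
    · simp [Finset.piecewise, hp, hq]
    · rw [Λ.piecewise_eq_of_notMem _ _ hq, Λ.piecewise_eq_of_notMem _ _ hq,
        (P.kp _ _ (ho _ hq)).2, (P.kp _ _ (ho' _ hq)).2]
  · rw [Λ.piecewise_eq_of_notMem _ _ hp, Λ.piecewise_eq_of_notMem _ _ hp,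
      (P.kp _ _ (ho _ hp)).1, (P.kp _ _ (ho' _ hp)).1]

theorem twist_cont (J : E → ℝ) (A : (E → Bool) → Prop) :
    Continuous fun x : (V → S) × (V → ℝ) => P.hk G J x.1 * ∑ ω, G.cw J x.2 ω * ind (A ω) :=
  ((P.continuous_hk G J).comp continuous_fst).mul (continuous_finsetSum _ fun ω _ =>
    ((G.continuous_cw J ω).comp continuous_snd).mul continuous_const)

theorem twist_flip (J : E → ℝ) (Λ : Finset V) (o : V → S) (ho : ∀ v, v ∉ Λ → |P.s (o v)| = 1)
    (A : (E → Bool) → Prop) :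
    ∫ σ, P.fk G J A (Λ.piecewise σ o) ∂(Measure.pi fun _ => ν) =
      (2 ^ Λ.card)⁻¹ * ∫ σ, ∑ ξ : V → Bool, ind (∀ v, v ∉ Λ → sg (ξ v) = P.s (o v)) *
        (P.hk G J (Λ.piecewise σ o) *
          ∑ ω, G.cw J (fun v => sg (ξ v) * |P.s (Λ.piecewise σ o v)|) ω * ind (A ω))
        ∂(Measure.pi fun _ => ν) :=
  P.flip_sym Λ o ho (fun σ t => P.hk G J σ * ∑ ω, G.cw J t ω * ind (A ω)) (twist_cont P G J A)
    fun σ v t => by simp only [P.hk_update]

theorem twist_cont2 (J : E → ℝ) (Λ : Finset V) (o : V → S) (A : (E → Bool) → Prop) :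
    Continuous fun σ : V → S => ∑ ξ : V → Bool, ind (∀ v, v ∉ Λ → sg (ξ v) = P.s (o v)) *
        (P.hk G J (Λ.piecewise σ o) *
          ∑ ω, G.cw J (fun v => sg (ξ v) * |P.s (Λ.piecewise σ o v)|) ω * ind (A ω)) :=
  continuous_finsetSum _ fun _ _ => continuous_const.mul
    ((twist_cont P G J A).comp ((continuous_pw' Λ o).prodMk (continuous_pi fun v =>
      continuous_const.mul (P.cs.comp ((continuous_apply v).comp (continuous_pw' Λ o))).abs)))

theorem twist_mixed {J : E → ℝ} (hJ : ∀ e, 0 ≤ J e) (In Λ : Finset V) (h1 : ∀ v ∈ In, v ∉ Λ)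
    (o : V → S) (hb1 : ∀ v ∈ In, P.s (o v) = -1) (hb2 : ∀ v, v ∉ In → v ∉ Λ → P.s (o v) = 1) :
    ∫ σ, P.hd G J (Λ.piecewise σ o) ∂(Measure.pi fun _ => ν) ≤
      ∫ σ, P.fk G J (fun ω => ¬ G.Cross In Λ ω) (Λ.piecewise σ fun _ => P.N)
        ∂(Measure.pi fun _ => ν) := by
  have ho : ∀ v, v ∉ Λ → |P.s (o v)| = 1 := fun v hv => by
    by_cases h : v ∈ In
    · rw [hb1 v h]; norm_num
    · rw [hb2 v h hv]; norm_num
  have hN : ∀ v, v ∉ Λ → |P.s ((fun _ : V => P.N) v)| = 1 := fun v _ => by simp [P.sN]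
  rw [← P.fk_true G J, twist_flip P G J Λ o ho, twist_flip P G J Λ _ hN]
  refine mul_le_mul_of_nonneg_left (integral_mono (cint (twist_cont2 P G J Λ o _))
    (cint (twist_cont2 P G J Λ _ _)) fun σ => ?_) (by positivity)
  have ea : ∀ v, |P.s (Λ.piecewise σ o v)| = |P.s (Λ.piecewise σ (fun _ => P.N) v)| := fun v => by
    by_cases hv : v ∈ Λ
    · simp [Finset.piecewise, hv]
    · rw [Λ.piecewise_eq_of_notMem _ _ hv, Λ.piecewise_eq_of_notMem _ _ hv, ho v hv, hN v hv]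
  simp only [ea, twist_hk P G J Λ o _ ho hN, P.sN]
  set a : V → ℝ := fun v => |P.s (Λ.piecewise σ (fun _ => P.N) v)| with ha
  have a0 : ∀ v, 0 ≤ a v := fun v => abs_nonneg _
  have hcw : ∀ ξ ω, G.cw J (fun v => sg (ξ v) * |P.s (Λ.piecewise σ (fun _ => P.N) v)|) ω =
      ew (fun e => J e * (a (G.p e) * a (G.q e))) ω * ind (G.Cst ω ξ) := G.cw_sg J a a0
  simp only [hcw]
  set k := P.hk G J (Λ.piecewise σ fun _ => P.N)
  have k0 : 0 ≤ k := (exp_pos _).le
  set w := ew (fun e => J e * (a (G.p e) * a (G.q e)))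
  have w0 : ∀ ω, 0 ≤ w ω := ew_nonneg fun e => mul_nonneg (hJ e) (mul_nonneg (a0 _) (a0 _))
  have r : ∀ (B : (V → Bool) → Prop) (A : (E → Bool) → Prop),
      ∑ ξ : V → Bool, ind (B ξ) * (k * ∑ ω, w ω * ind (G.Cst ω ξ) * ind (A ω)) =
        ∑ ω, k * w ω * ((∑ ξ : V → Bool, ind (B ξ) * ind (G.Cst ω ξ)) * ind (A ω)) := by
    intro B A
    simp only [mul_sum, sum_mul]
    rw [sum_comm]
    exact sum_congr rfl fun _ _ => sum_congr rfl fun _ _ => by ring
  rw [r (fun ξ => ∀ v, v ∉ Λ → sg (ξ v) = P.s (o v)) fun _ => True,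
    r (fun ξ => ∀ v, v ∉ Λ → sg (ξ v) = 1) fun ω => ¬ G.Cross In Λ ω]
  refine sum_le_sum fun ω _ => mul_le_mul_of_nonneg_left ?_ (mul_nonneg k0 (w0 ω))
  rw [ind_true, mul_one]
  exact twist_count G In Λ h1 (fun v => P.s (o v)) hb1 hb2 ω

theorem twist_fk_not (J : E → ℝ) (A : (E → Bool) → Prop) (σ : V → S) :
    P.fk G J (fun ω => ¬ A ω) σ = P.hd G J σ - P.fk G J A σ := by
  rw [← P.fk_true G J]
  unfold Spin.fk
  rw [← mul_sub, ← sum_sub_distrib]
  congr 1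
  exact sum_congr rfl fun ω _ => by rw [ind_not, ind_true]; ring

/-- `Z^{+-} ≤ Z^{++} (1 - P(Cross))`: with `out = P.R (± g v) N` the transverse factor `hk` does not
see the poles (`P.kp`); `flip_sym` and `cw_sg` on both sides; for fixed `ω` (supported on edges
touching `Λ`) the colourings with mixed boundary values inject (multiply by a separating colouring)
into those with boundary value `true`, and there are none if `Cross` holds. -/
theorem Spin.wp_cross {J : E → ℝ} {β : ℝ} (hβ : 0 ≤ β) (hJ : ∀ e, 0 ≤ J e ∧ J e ≤ β)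
    (In Λ : Finset V) (g : V → ℝ) (C : ℝ) (h1 : ∀ v ∈ In, v ∉ Λ ∧ g v = π) (h2 : ∀ v, v ∉ In → v ∉ Λ → g v = 0)
    (hC : ∑ e, (if G.Touch Λ e then (g (G.p e) - g (G.q e)) ^ 2 else 0) ≤ C) :
    P.wp G J Λ (G.Cross In Λ) ≤ 1 - exp (-(β * C / 2)) := by
  have hJ' : ∀ e, 0 ≤ G.JL Λ J e := fun e => (G.JL_bd hJ Λ e).1
  have tw := P.twist G hJ' Λ (fun _ => P.N) g (fun _ => 1) continuous_const (fun _ => zero_le_one)
    fun _ _ _ => rfl
  simp only [mul_one] at tw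
  have m1 := twist_mixed P G hJ' In Λ (fun v hv => (h1 v hv).1) (fun v => P.R (g v) P.N)
    (fun v hv => by rw [(h1 v hv).2, P.sR]) fun v hv hv' => by rw [h2 v hv hv', P.R0, P.sN]
  have m2 := twist_mixed P G hJ' In Λ (fun v hv => (h1 v hv).1) (fun v => P.R (-g v) P.N)
    (fun v hv => by rw [(h1 v hv).2, P.sR'])
    fun v hv hv' => by rw [h2 v hv hv', neg_zero, P.R0, P.sN]
  simp only [twist_fk_not] at m1 m2
  have c1 : Continuous fun σ : V → S => P.hd G (G.JL Λ J) (Λ.piecewise σ fun _ => P.N) :=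
    (P.continuous_hd G _).comp (continuous_pw' Λ _)
  have c2 : Continuous fun σ : V → S =>
      P.fk G (G.JL Λ J) (G.Cross In Λ) (Λ.piecewise σ fun _ => P.N) :=
    (P.continuous_fk G _ _).comp (continuous_pw' Λ _)
  rw [integral_sub (cint c1) (cint c2)] at m1 m2
  have Zp := P.Zw_pos G (G.JL Λ J) Λ fun _ => P.N
  have hD : ∑ e, G.JL Λ J e * (g (G.p e) - g (G.q e)) ^ 2 ≤ β * C := by
    refine le_trans ?_ (mul_le_mul_of_nonneg_left hC hβ)
    rw [mul_sum]
    refine sum_le_sum fun e _ => ?_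
    unfold Gr.JL
    split_ifs
    · exact mul_le_mul_of_nonneg_right (hJ e).2 (sq_nonneg _)
    · simp
  have he : exp (-(β * C / 2)) ≤
      exp (-((∑ e, G.JL Λ J e * (g (G.p e) - g (G.q e)) ^ 2) / 2)) :=
    exp_le_exp.2 (by linarith)
  have := mul_le_mul_of_nonneg_right he Zp.le
  unfold Spin.wp
  rw [div_le_iff₀ Zp]
  linarith

theorem Spin.fkLaw {J : E → ℝ} {β : ℝ} (hβ : 0 ≤ β) (hJ : ∀ e, 0 ≤ J e ∧ J e ≤ β)
    {Y : (V → unitInterval) → ℝ} (hY : YOK Y) (hD : P.Dec G J Y) : G.FKLaw β (P.law G J) := by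
  have hJ' : ∀ e, 0 ≤ J e := fun e => (hJ e).1
  refine ⟨P.law_nonneg G hJ', P.law_sum G J, fun A B hA hB => P.law_fkg G hJ' hY hD hA hB, ?_⟩
  intro ι _ In Λ g C h1 h2 hC hd
  have := P.law_prod G hJ' hY hD (univ : Finset ι) Λ (fun i => G.Cross (In i) (Λ i))
    (1 - exp (-(β * C / 2)))
    (fun i _ ω ω' hω hx ⟨ξ, a, b⟩ => hx ⟨ξ, fun e he h => a e he (by
      have := hω e; rw [h] at this; exact top_le_iff.1 this), b⟩)
    (fun i _ ω ω' hω hx ⟨ξ, a, b⟩ => hx ⟨ξ, fun e he h => a e he (by rw [← hω e he, h]), b⟩)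
    (fun i _ j _ hij => hd i j hij)
    fun i _ => P.wp_cross G hβ hJ (In i) (Λ i) (g i) C (h1 i) (h2 i) (hC i)
  simpa using this

end Crest.Agent.R167
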