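import Crest.Agent.R167.Basic

/-! Row 167: two point functions and the covariance lower bound. -/

set_option autoImplicit false
set_option linter.unusedSectionVars false

open MeasureTheory Finset Real

noncomputable section
namespace Crest.Agent.R167

variable {S : Type} [TopologicalSpace S] [CompactSpace S] [T2Space S] [SecondCountableTopology S]
  [MeasurableSpace S] [BorelSpace S] {ν : Measure S} [IsProbabilityMeasure ν] (P : Spin S ν)
variable {V E : Type} [Fintype V] [DecidableEq V] [Fintype E] [DecidableEq E] (G : Gr V E)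

theorem two_flip_cst (ω : E → Bool) (y : V) (ξ : V → Bool) [DecidablePred (G.Conn ω y)]
    (h : G.Cst ω ξ) : G.Cst ω fun u => if G.Conn ω y u then !ξ u else ξ u := by
  intro e he
  have h1 : G.Adj ω (G.p e) (G.q e) := ⟨e, he, Or.inl ⟨rfl, rfl⟩⟩
  have h2 : G.Adj ω (G.q e) (G.p e) := ⟨e, he, Or.inr ⟨rfl, rfl⟩⟩
  have h3 : G.Conn ω y (G.p e) ↔ G.Conn ω y (G.q e) :=
    ⟨fun c => Relation.ReflTransGen.tail c h1, fun c => Relation.ReflTransGen.tail c h2⟩
  simp only [h3, h e he]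

theorem two_key (ω : E → Bool) (y v : V) :
    ∑ ξ : V → Bool, ind (G.Cst ω ξ) * (sg (ξ y) * sg (ξ v)) =
      ind (G.Conn ω y v) * ∑ ξ : V → Bool, ind (G.Cst ω ξ) := by
  classical
  by_cases c : G.Conn ω y v
  · rw [ind_of c, one_mul]
    refine sum_congr rfl fun ξ _ => ?_
    by_cases h : G.Cst ω ξ
    · rw [h.eq_of_conn c, sg_mul_self, mul_one]
    · rw [ind_of_not h, zero_mul]
  · rw [ind_of_not c, zero_mul]
    let φ : (V → Bool) → V → Bool := fun ξ u => if G.Conn ω y u then !ξ u else ξ u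
    have hφ : Function.Involutive φ := by
      intro ξ
      funext u
      by_cases hu : G.Conn ω y u <;> simp [φ, hu]
    have h1 := Equiv.sum_comp hφ.toPerm fun ξ => ind (G.Cst ω ξ) * (sg (ξ y) * sg (ξ v))
    have h2 : ∀ ξ, ind (G.Cst ω (φ ξ)) * (sg (φ ξ y) * sg (φ ξ v)) =
        -(ind (G.Cst ω ξ) * (sg (ξ y) * sg (ξ v))) := by
      intro ξ
      have e1 : G.Cst ω (φ ξ) ↔ G.Cst ω ξ :=
        ⟨fun h => by
          have := two_flip_cst G ω y _ h
          rwa [show (fun u => if G.Conn ω y u then !φ ξ u else φ ξ u) = ξ from hφ ξ] at this,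
        fun h => two_flip_cst G ω y ξ h⟩
      have e2 : sg (φ ξ y) = -sg (ξ y) := by
        have : G.Conn ω y y := Relation.ReflTransGen.refl
        simp only [φ, this, if_true]
        cases ξ y <;> simp
      have e3 : φ ξ v = ξ v := by simp [φ, c]
      rw [ind_congr e1, e2, e3]; ring
    simp only [Function.Involutive.coe_toPerm, h2, sum_neg_distrib] at h1
    linarith

theorem two_pt (J : E → ℝ) (a : V → ℝ) (ha : ∀ v, 0 ≤ a v) (y : V) (w : V → ℝ) :
    ∑ ξ : V → Bool, (∑ ω, G.cw J (fun v => sg (ξ v) * a v) ω) *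
        (sg (ξ y) * a y * ∑ v, w v * (sg (ξ v) * a v)) =
      ∑ ω, ew (fun e => J e * (a (G.p e) * a (G.q e))) ω * (∑ ξ : V → Bool, ind (G.Cst ω ξ)) *
        ∑ v, w v * (a y * a v) * ind (G.Conn ω y v) := by
  simp only [G.cw_sg J a ha]
  simp only [sum_mul]
  rw [sum_comm]
  refine sum_congr rfl fun ω _ => ?_
  have h : ∀ v, ew (fun e => J e * (a (G.p e) * a (G.q e))) ω *
      (∑ ξ : V → Bool, ind (G.Cst ω ξ)) * (w v * (a y * a v) * ind (G.Conn ω y v)) =
      ∑ ξ : V → Bool, ew (fun e => J e * (a (G.p e) * a (G.q e))) ω * ind (G.Cst ω ξ) *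
        (sg (ξ y) * a y * (w v * (sg (ξ v) * a v))) := by
    intro v
    calc _ = ew (fun e => J e * (a (G.p e) * a (G.q e))) ω * (w v * (a y * a v)) *
          (ind (G.Conn ω y v) * ∑ ξ : V → Bool, ind (G.Cst ω ξ)) := by ring
      _ = _ := by
        rw [← two_key, mul_sum]
        exact sum_congr rfl fun ξ _ => by ring
  rw [mul_sum, sum_congr rfl fun v _ => h v, sum_comm]
  refine sum_congr rfl fun ξ _ => ?_
  rw [mul_sum, mul_sum]

theorem two_ev (J : E → ℝ) (a : V → ℝ) (ha : ∀ v, 0 ≤ a v) (A : (E → Bool) → Prop) :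
    ∑ ξ : V → Bool, ∑ ω, G.cw J (fun v => sg (ξ v) * a v) ω * ind (A ω) =
      ∑ ω, ew (fun e => J e * (a (G.p e) * a (G.q e))) ω * (∑ ξ : V → Bool, ind (G.Cst ω ξ)) *
        ind (A ω) := by
  simp only [G.cw_sg J a ha]
  rw [sum_comm]
  refine sum_congr rfl fun ω _ => ?_
  rw [mul_sum, sum_mul]

theorem Spin.two_cont (Ψ : (V → S) → (V → ℝ) → ℝ)
    (hc : Continuous fun x : (V → S) × (V → ℝ) => Ψ x.1 x.2) :
    Continuous fun σ : V → S => ∑ ξ : V → Bool, Ψ σ (fun v => sg (ξ v) * |P.s (σ v)|) := by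
  refine continuous_finsetSum _ fun ξ _ => ?_
  have h1 : Continuous fun σ : V → S => (σ, fun v => sg (ξ v) * |P.s (σ v)|) := by
    have := P.cs
    fun_prop
  exact hc.comp h1

theorem Spin.two_cont1 (J : E → ℝ) (y : V) (w : (V → S) → V → ℝ) (hc : Continuous w) :
    Continuous fun x : (V → S) × (V → ℝ) =>
      P.hk G J x.1 * ((∑ ω, G.cw J x.2 ω) * (x.2 y * ∑ v, w x.1 v * x.2 v)) := by
  refine ((P.continuous_hk G J).comp continuous_fst).mul (Continuous.mul ?_ ?_)
  · exact continuous_finsetSum _ fun ω _ => (G.continuous_cw J ω).comp continuous_snd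
  · fun_prop

theorem Spin.two_repr (J : E → ℝ) (y : V) (w : (V → S) → V → ℝ) (hc : Continuous w)
    (hi : ∀ σ v, w (Function.update σ v (P.fl (σ v))) = w σ) :
    P.Ex G J (fun σ => P.s (σ y) * ∑ v, w σ v * P.s (σ v)) =
      (2 ^ Fintype.card V)⁻¹ * ∫ σ, ∑ ξ : V → Bool, P.hk G J σ *
        ((∑ ω, G.cw J (fun v => sg (ξ v) * |P.s (σ v)|) ω) *
          (sg (ξ y) * |P.s (σ y)| * ∑ v, w σ v * (sg (ξ v) * |P.s (σ v)|)))
        ∂(Measure.pi fun _ => ν) := by
  rw [← P.flip_sym0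
    (fun σ t => P.hk G J σ * ((∑ ω, G.cw J t ω) * (t y * ∑ v, w σ v * t v)))
    (P.two_cont1 G J y w hc) (fun σ v t => by rw [P.hk_update, hi])]
  unfold Spin.Ex
  refine integral_congr_ae (Filter.Eventually.of_forall fun σ => ?_)
  simp only [P.hd_eq, G.sum_cw, mul_assoc]

theorem Spin.two_hk_nonneg (J : E → ℝ) (σ : V → S) : 0 ≤ P.hk G J σ := (exp_pos _).le

/-- `flip_sym0`, `cw_sg`; for fixed `ω`, `∑_{ξ ∈ Cst ω} ξ_y ξ_{y'}` vanishes unless `y ↔ y'` (flip
the cluster of `y`) -/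
theorem Spin.two_point_le {J : E → ℝ} (hJ : ∀ e, 0 ≤ J e) (y : V) (Q : Finset V)
    (w : (V → S) → V → ℝ) (hc : Continuous w) (h0 : ∀ σ v, 0 ≤ w σ v) (h1 : ∀ σ, ∑ v, w σ v ≤ 1)
    (hQ : ∀ σ v, v ∉ Q → w σ v = 0) (hi : ∀ σ v, w (Function.update σ v (P.fl (σ v))) = w σ) :
    P.Ex G J (fun σ => P.s (σ y) * ∑ v, w σ v * P.s (σ v)) ≤
      pr (P.law G J) (fun ω => ∃ v ∈ Q, G.Conn ω y v) * P.Z G J := by
  set A : (E → Bool) → Prop := fun ω => ∃ v ∈ Q, G.Conn ω y v with hA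
  have hc2 : Continuous fun x : (V → S) × (V → ℝ) =>
      P.hk G J x.1 * ∑ ω, G.cw J x.2 ω * ind (A ω) :=
    ((P.continuous_hk G J).comp continuous_fst).mul (continuous_finsetSum _ fun ω _ =>
      ((G.continuous_cw J ω).comp continuous_snd).mul continuous_const)
  have e2 := P.flip_sym0 (fun σ t => P.hk G J σ * ∑ ω, G.cw J t ω * ind (A ω)) hc2
    (fun σ v t => by rw [P.hk_update])
  rw [P.pr_law, div_mul_cancel₀ _ (P.Z_pos G J).ne', P.two_repr G J y w hc hi]
  unfold Spin.fk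
  rw [e2]
  refine mul_le_mul_of_nonneg_left (integral_mono
    (cint (P.two_cont (fun σ t => P.hk G J σ * ((∑ ω, G.cw J t ω) * (t y * ∑ v, w σ v * t v)))
      (P.two_cont1 G J y w hc)))
    (cint (P.two_cont (fun σ t => P.hk G J σ * ∑ ω, G.cw J t ω * ind (A ω)) hc2))
    fun σ => ?_) (by positivity)
  simp only [← mul_sum]
  refine mul_le_mul_of_nonneg_left ?_ (P.two_hk_nonneg G J σ)
  rw [two_pt G J (fun v => |P.s (σ v)|) (fun v => abs_nonneg _) y (w σ),
    two_ev G J (fun v => |P.s (σ v)|) (fun v => abs_nonneg _) A]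
  refine sum_le_sum fun ω _ => mul_le_mul_of_nonneg_left ?_ (mul_nonneg
    (ew_nonneg (fun e => mul_nonneg (hJ e) (mul_nonneg (abs_nonneg _) (abs_nonneg _))) ω)
    (sum_nonneg fun ξ _ => ind_nonneg _))
  calc ∑ v, w σ v * (|P.s (σ y)| * |P.s (σ v)|) * ind (G.Conn ω y v)
      ≤ ∑ v, w σ v * ind (A ω) := by
        refine sum_le_sum fun v _ => ?_
        by_cases hv : v ∈ Q
        · refine mul_le_mul (mul_le_of_le_one_right (h0 σ v) ?_)
            (ind_mono fun c => ⟨v, hv, c⟩) (ind_nonneg _) (h0 σ v)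
          exact mul_le_one₀ (P.s1 _) (abs_nonneg _) (P.s1 _)
        · simp [hQ σ v hv]
    _ ≤ ind (A ω) := by
        rw [← sum_mul]
        exact mul_le_of_le_one_left (ind_nonneg _) (h1 σ)

theorem Spin.two_point_nonneg {J : E → ℝ} (hJ : ∀ e, 0 ≤ J e) (x y : V) :
    0 ≤ P.Ex G J fun σ => P.s (σ x) * P.s (σ y) := by
  have h := P.two_repr G J x (fun _ v => if v = y then 1 else 0) continuous_const fun _ _ => rfl
  simp only [ite_mul, one_mul, zero_mul, sum_ite_eq', mem_univ, if_true] at h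
  rw [h]
  refine mul_nonneg (by positivity) (integral_nonneg fun σ => ?_)
  have h2 := two_pt G J (fun v => |P.s (σ v)|) (fun v => abs_nonneg _) x
    (fun v => if v = y then 1 else 0)
  simp only [ite_mul, one_mul, zero_mul, sum_ite_eq', mem_univ, if_true] at h2
  simp only [← mul_sum, Pi.zero_apply]
  refine mul_nonneg (P.two_hk_nonneg G J σ) ?_
  rw [h2]
  exact sum_nonneg fun ω _ => mul_nonneg (mul_nonneg
    (ew_nonneg (fun e => mul_nonneg (hJ e) (mul_nonneg (abs_nonneg _) (abs_nonneg _))) ω)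
    (sum_nonneg fun ξ _ => ind_nonneg _))
    (mul_nonneg (mul_nonneg (abs_nonneg _) (abs_nonneg _)) (ind_nonneg _))

end Crest.Agent.R167
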